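import Claimed.Agent.R257.TR.Top
import Claimed.Agent.R257.Frac.Pkt

/-!
# R257 / TR / TubesDefs : the ANALYTIC half of t:transverse (H Lemma t:tubes, transverse.tex l.139-235).   DEFINITIONS, CONTRACTS, PLAN.      Architect: helper195 (+ helper34: PRUNE).   -- SHARED, FROZEN

EXIT: `tr_tb_main : OccStmt n → FractalStmt n → StripSaveStmt n → PktStmt n → TubesStmt n`  (`TR/Tubes.lean`).      Every `L^{o(1)}` is `L^{slack}`; every block exit has the form
"`∀ slack > 0, ∃ smaller slack, ∀ constants, ∃ L₀, ∀ L ≥ L₀ …`" and contains NO constant: constants are absorbed in `L^{slack}` INSIDE the block.  `e = eex n = n²/(n+1)`, `n - 2e = n/(n+1) - e`, `e (n+1)/n = n`.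

## BLOCKS (one file each; prefix `tr_tb_`)
* B0 `TubesGeo`   CENTRE: translate by the integer part of `z₀` (`TrCfg → TbCfg`: centre `0`, radius `2L²`).   GEO: boxes of side `L` (`tbBox`, `tbCor`, `tbIn`), a cube of the box `k` is within `tbG n · L` of the corner;
                  occupancy `≤ Γ (tbG L)^n`; number of boxes of occupancy `≥ m` with corner in a ball of radius `ρ ≥ L`.   EXIT `tr_tb_points`.
* B1 `TubesOcc`   OCCUPANCY (l.161-172, REDESIGNED: report 862 (4)): `OccStmt` (= consumer form of the multilinear refined Strichartz estimate MRS*, helper3 `Lib/DZ`) applied to the cubes in boxes of occupancy `≤ L^{n-δ}`: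
                  there are `≤ L^{2n - 2δ/(n+3) + O(c) + ε}` of them.   EXIT `tr_tb_occ`: `≥ L^{n-δ}` boxes of occupancy `≥ L^{n-δ}`.
* B2 `TubesPk`    PACKETS: `TbPk` = what we use of the exact packets of scale `L` of ONE datum (from `PktStmt` + `Sp/Maj`: `sp_count`, `sp_fld_sq_le`).   Labels with coefficient `0` are dropped.   EXIT `tr_tb_pk`.
* B3 `TubesLoc`   `tbN Z F = ∑_{q ∈ Z} sup_q |F|²`: calculus; adapters `FractalStmt`, `StripSaveWith` → finite families of cubes in a time interval of length `≤ S` about ANY integer time (integer time translation = modulation).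
* B4 `TubesLow`   FIELD: on the cubes of a box the packets farther than `L^{1+θ}` from the corner are negligible (`θ A ≥ 2e + 4`).   LOW: `w_i(x) ≥ L^{-e-s}` (l.174-183).
* B5 `TubesKak`   `MK.mk_graph_fin`: `∑_x ∏_i w_i(x)^{1/n} ≤ L^{o(1)}`; deletion of the boxes where some `w_i(x) > L^{-e+s}` (l.184-188).   EXIT `tr_tb_kak`.
* B6 `TubesPrune` (helper34) greedy removal of heavy codimension two strips, l.190-222.   EXIT `tr_tb_prune`.
* B7 `TubesAsm`   paper free: the data (points, labels of `n+1` families, retained sets) form a `TModel`.   EXIT `tr_tb_asm`.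
* B8 `Tubes`      choice of the slacks `ε → s → s' → s'' → (δ, θ) → A → c`, glue.
-/

set_option autoImplicit false

namespace Claimed.Agent.R257.TR

open Claimed.Agent.R257 MeasureTheory Metric Set
open scoped BigOperators ENNReal InnerProductSpace
open Classical

variable {n : ℕ}

/-! ### boxes of side `L` -/

/-- index of the box of side `L` which contains the corner of the unit cube `q` -/
noncomputable def tbBox (L : ℝ) (q : (Fin n → ℤ) × ℤ) : (Fin n → ℤ) × ℤ :=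
  (fun i => ⌊(q.1 i : ℝ) / L⌋, ⌊(q.2 : ℝ) / L⌋)

/-- the corner of the box `k` of side `L` -/
noncomputable def tbCor (L : ℝ) (k : (Fin n → ℤ) × ℤ) : ST n := (L • zvec k.1, L * (k.2 : ℝ))

/-- the cubes of `Y` in the box `k` -/
noncomputable def tbIn (L : ℝ) (Y : Finset ((Fin n → ℤ) × ℤ)) (k : (Fin n → ℤ) × ℤ) : Finset ((Fin n → ℤ) × ℤ) :=
  Y.filter fun q => tbBox L q = k

/-- a point of a cube of the box `k` is within `tbG n * L` of the corner of the box -/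
noncomputable def tbG (n : ℕ) : ℝ := 2 * (Real.sqrt n + 1)

/-- `n`-dimensional counting bound with constant `Γ` -/
def TbCount (Z : Finset ((Fin n → ℤ) × ℤ)) (Γ : ℝ) : Prop :=
  ∀ (z : ST n) (r : ℝ) (t : Finset ((Fin n → ℤ) × ℤ)), 1 ≤ r → t ⊆ Z → (∀ q ∈ t, (cube q ∩ closedBall z r).Nonempty) →
    (t.card : ℝ) ≤ Γ * r ^ n

/-- the local square functional `∑_{q ∈ Z} sup_q |F|²` -/
noncomputable def tbN (Z : Finset ((Fin n → ℤ) × ℤ)) (F : ST n → ℂ) : ℝ≥0∞ := ∑ q ∈ Z, (⨆ z ∈ cube q, ‖F z‖ₑ) ^ 2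

/-! ### the centred configuration -/

/-- the configuration excluded by t:transverse, centred at `0` (radius `2 L²`) -/
structure TbCfg (n : ℕ) (R₀ c L : ℝ) (Y : Finset ((Fin n → ℤ) × ℤ)) (f : Fin (n + 1) → E n → ℂ) : Prop where
  inball : ∀ q ∈ Y, cube q ⊆ closedBall (0 : ST n) (2 * L ^ 2)
  card : L ^ (2 * (n : ℝ) - c) ≤ (Y.card : ℝ)
  count : TbCount Y (L ^ c)
  dat : ∀ i, Dat R₀ (f i)
  norm : ∀ i, ∫ ξ, ‖f i ξ‖ ^ 2 ≤ 1
  big : ∀ q ∈ Y, ∀ i, ∃ z ∈ cube q, L ^ (-(eex n) - c) ≤ ‖ext (f i) z‖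
  trans : TransvS (L ^ c) f

/-! ### the occupancy contract -/

/-- the exponent `r = 2(n+2)/(n(n+3))` of MRS* -/
noncomputable def tbR (n : ℕ) : ℝ := 2 * ((n : ℝ) + 2) / ((n : ℝ) * ((n : ℝ) + 3))

/-- **CONTRACT C1** (report 862 (4); owner helper3, `Lib/DZ`): a family of unit cubes on which `n+1` transverse exact fields are `≥ a`, with at most `Λ` cubes in every box of side `L`, time range `|t| ≤ 3L²`. -/
def OccStmt (n : ℕ) : Prop :=
  ∀ R₀ ε : ℝ, 0 < ε → ∃ C M : ℝ, ∀ (L Q a Λ : ℝ) (Y : Finset ((Fin n → ℤ) × ℤ)) (f : Fin (n + 1) → E n → ℂ),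
    1 ≤ L → 1 ≤ Q → 0 ≤ a → 0 ≤ Λ → (∀ q ∈ Y, |(q.2 : ℝ)| ≤ 3 * L ^ 2) → (∀ i, Dat R₀ (f i)) → TransvS Q f →
    (∀ q ∈ Y, ∀ i, ∃ z ∈ cube q, a ≤ ‖ext (f i) z‖) → (∀ k, ((tbIn L Y k).card : ℝ) ≤ Λ) →
    (Y.card : ℝ) * a ^ (((n : ℝ) + 1) * tbR n) ≤
      C * Q ^ M * L ^ ε * Λ ^ (2 / ((n : ℝ) + 3)) * ∏ i, (∫ ξ, ‖f i ξ‖ ^ 2) ^ (tbR n / 2)

/-! ### exact packets of one datum -/

/-- what we use of the exact packets of scale `L` of the datum `f` (time range `|t| ≤ 3L²`): labels `(om, y)`, weights `w = |c|² > 0`, `G t` = exact input of the subfamily `t` -/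
structure TbPk (n : ℕ) (L R₁ Cp : ℝ) (A : ℕ) (f : E n → ℂ) where
  /-- labels -/
  J : Type
  /-- frequencies -/
  om : J → E n
  /-- intercepts -/
  y : J → E n
  /-- weights -/
  w : J → ℝ
  /-- exact inputs of the finite subfamilies -/
  G : Finset J → E n → ℂ
  w_pos : ∀ α, 0 < w α
  w_sum : ∀ t : Finset J, ∑ α ∈ t, w α ≤ Cp
  near : ∀ α, ∃ ξ, f ξ ≠ 0 ∧ ‖ξ - om α‖ ≤ Cp / L
  dat : ∀ t, Dat R₁ (G t)
  l2 : ∀ t, ∫ ξ, ‖G t ξ‖ ^ 2 ≤ Cp * ∑ α ∈ t, w α
  supp : ∀ t ξ, G t ξ ≠ 0 → ∃ α ∈ t, ‖ξ - om α‖ ≤ Cp / L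
  add : ∀ (t : Finset J) (z : ST n), ext (G t) z = ∑ α ∈ t, ext (G {α}) z
  tail : ∀ (z : ST n) (ρ : ℝ) (t : Finset J), |z.2| ≤ 3 * L ^ 2 → 0 ≤ ρ → (∀ α, α ∉ t → ρ ≤ ‖z.1 - y α - (2 * z.2) • om α‖) →
    ‖ext f z - ext (G t) z‖ ^ 2 ≤ Cp * (1 + ρ / L) ^ (-(A : ℝ))
  count : ∀ (z : ST n) (ρ : ℝ) (t : Finset J), |z.2| ≤ 3 * L ^ 2 → 0 ≤ ρ → (∀ α ∈ t, ‖z.1 - y α - (2 * z.2) • om α‖ ≤ ρ) →
    (t.card : ℝ) ≤ Cp * L ^ n * (1 + ρ / L) ^ A

variable {L R₁ Cp : ℝ} {A : ℕ} {f : E n → ℂ}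

/-- transverse distance of `z` to the trajectory of the label `α` -/
noncomputable def TbPk.td (P : TbPk n L R₁ Cp A f) (α : P.J) (z : ST n) : ℝ := ‖z.1 - P.y α - (2 * z.2) • P.om α‖

/-- the labels whose trajectory passes within `ρ` of `z` (a finite set if `|z.2| ≤ 3L²`: `TbPk.count`) -/
noncomputable def TbPk.nr (P : TbPk n L R₁ Cp A f) (z : ST n) (ρ : ℝ) : Finset P.J :=
  if h : {α | P.td α z ≤ ρ}.Finite then h.toFinset else ∅

/-- the weight of a finite set of labels -/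
noncomputable def TbPk.W (P : TbPk n L R₁ Cp A f) (t : Finset P.J) : ℝ := ∑ α ∈ t, P.w α

/-- Stores the on-demand equation lemmas of the definitions above in THIS module (rule 6 hygiene). -/
theorem tr_tb_defs_forced : True := by
  have := @tbBox.eq_1
  have := @tbCor.eq_1
  have := @tbIn.eq_1
  have := @tbG.eq_1
  have := @TbCount.eq_1
  have := @tbN.eq_1
  have := @tbR.eq_1
  have := @OccStmt.eq_1
  have := @TbPk.td.eq_1
  have := @TbPk.nr.eq_1
  have := @TbPk.W.eq_1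
  trivial

end Claimed.Agent.R257.TR
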