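import Claimed.Agent.R257.TR.Good

/-!
# R257 / TR / Alg : deterministic algebra on one good point of the limit space      (captain TR: helper217)

PAPER-FREE.  H Lemma t:additivity, Lemma t:common, first half of t:block-test and of t:no-jump, as consequences of `TGood c₁ x` (file `Good.lean`) by the algebra of information functions (`Calc.lean`, last section).
Notation: `[A | B] = cI x A B`, `C = {X s}`, `Δ_{s,r} G = G r - G s`.   SIMPLIFICATION w.r.t. the paper: costs telescope pointwise, `pCost x D W s r = [D | X_s, W] - [D | X_r, W]`, so that the sum of the costs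
along any chain of blocks is `≤ [D] ≤ n · bs · #D`; no expectation, no differentiation in t:additivity / t:common.
-/

set_option autoImplicit false

namespace Claimed.Agent.R257.TR

open Claimed.Agent.R255 Claimed.Agent.R257 MeasureTheory Filter Topology
open scoped BigOperators ENNReal
open Classical

variable {n : ℕ} {c₁ : ℝ} {x : TSp n}

/-! ### general information functions -/

/-- Han-type inequality: the sum of the informations of the members of a subfamily, each conditioned on ALL other members of the whole family, is at most the joint information of the subfamily.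
Induction on `A` with `cI_chain` and `IFun.cI_anti_right`. -/
theorem tr_alg_han {Nm Ex ι : Type} [Fintype ι] {y : Finset Nm ⊕ Ex → ℝ} (hy : IFun y) (f : ι → Nm) (A : Finset ι) (B : Finset Nm) :
    ∑ i ∈ A, cI y {f i} ((Finset.univ.erase i).image f ∪ B) ≤ cI y (A.image f) B := by
  induction A using Finset.induction_on with
  | empty => simpa using hy.cI_nonneg ∅ B
  | insert a A ha ih =>
    have e : (insert a A).image f = A.image f ∪ {f a} := by
      rw [Finset.image_insert, Finset.insert_eq, Finset.union_comm]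
    rw [Finset.sum_insert ha, e, cI_chain]
    have h1 : cI y {f a} ((Finset.univ.erase a).image f ∪ B) ≤ cI y {f a} (A.image f ∪ B) := by
      refine hy.cI_anti_right _ _ _ (Finset.union_subset_union_left (Finset.image_subset_image ?_))
      intro i hi
      exact Finset.mem_erase.2 ⟨fun h => ha (h ▸ hi), Finset.mem_univ _⟩
    linarith

/-! ### profiles -/

/-- `X_s` is determined by `X_r` (and anything else) -/
theorem tr_alg_nest (hx : TGood c₁ x) (W : Finset (TNm n)) (s r : ℚ) (h0 : 0 ≤ s) (h1 : s ≤ r) : cI x {TNm.X s} ({TNm.X r} ∪ W) ≤ 0 :=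
  (hx.ifun.cI_anti_right _ _ _ Finset.subset_union_left).trans (hx.nest s r h0 h1)

theorem tr_alg_cI_empty (x : TSp n) (hx : IFun x) (A : Finset (TNm n)) : cI x A ∅ = x (Sum.inl A) := by
  unfold cI
  rw [Finset.union_empty, hx.empty, sub_zero]

theorem tr_alg_incr_aux (hx : TGood c₁ x) (W : Finset (TNm n)) (s r : ℚ) (h0 : 0 ≤ s) (h1 : s ≤ r) :
    cI x {TNm.X r} W - cI x {TNm.X s} W = cI x {TNm.X r} ({TNm.X s} ∪ W) := by
  have h2 := hx.ifun.cI_of_det {TNm.X r} {TNm.X s} W (tr_alg_nest hx W s r h0 h1)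
  have h3 := cI_chain x {TNm.X s} {TNm.X r} W
  rw [Finset.union_comm] at h3
  linarith

/-- subadditivity over an image -/
theorem tr_alg_image_le {ι : Type} (hx : IFun x) (f : ι → TNm n) (A : Finset ι) : x (Sum.inl (A.image f)) ≤ ∑ i ∈ A, x (Sum.inl {f i}) := by
  induction A using Finset.induction_on with
  | empty => simp [hx.empty]
  | insert a A ha ih =>
    rw [Finset.sum_insert ha, Finset.image_insert, Finset.insert_eq]
    have h1 := hx.cI_union_le {f a} (A.image f) ∅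
    rw [tr_alg_cI_empty x hx, tr_alg_cI_empty x hx, tr_alg_cI_empty x hx] at h1
    linarith

theorem tr_alg_F_incr (hx : TGood c₁ x) (s r : ℚ) (h0 : 0 ≤ s) (h1 : s ≤ r) : pF x r - pF x s = cI x {TNm.X r} {TNm.X s} := by
  have := tr_alg_incr_aux hx ∅ s r h0 h1
  rw [tr_alg_cI_empty x hx.ifun, tr_alg_cI_empty x hx.ifun, Finset.union_empty] at this
  exact this

/-- increments under an arbitrary extra conditioning `W` -/
theorem tr_alg_incr (hx : TGood c₁ x) (W : Finset (TNm n)) (s r : ℚ) (h0 : 0 ≤ s) (h1 : s ≤ r) :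
    cI x {TNm.X r} W - cI x {TNm.X s} W = cI x {TNm.X r} ({TNm.X s} ∪ W) := by
  exact tr_alg_incr_aux hx W s r h0 h1

theorem tr_alg_G_zero (hx : TGood c₁ x) (i : Fin (n + 1)) (β : Bool) : pG x i β 0 = 0 := by
  have h1 := hx.ifun.cI_nonneg {TNm.X 0} {TNm.T i β}
  have h2 := hx.ifun.cI_anti_right {TNm.X 0} ∅ {TNm.T i β} (Finset.empty_subset _)
  rw [tr_alg_cI_empty x hx.ifun] at h2
  exact le_antisymm (h2.trans hx.F_zero) h1

theorem tr_alg_F_zero (hx : TGood c₁ x) : pF x 0 = 0 := by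
  have h1 := hx.ifun.mono ∅ {TNm.X 0} (Finset.empty_subset _)
  rw [hx.ifun.empty] at h1
  exact le_antisymm hx.F_zero h1

/-! ### costs -/

/-- the symmetric form of the cost (`cI_cost_symm` + `nest`) -/
theorem tr_alg_cost_eq (hx : TGood c₁ x) (D W : Finset (TNm n)) (s r : ℚ) (h0 : 0 ≤ s) (h1 : s ≤ r) :
    pCost x D W s r = cI x D ({TNm.X s} ∪ W) - cI x D ({TNm.X r} ∪ W) := by
  unfold pCost
  rw [cI_cost_symm]
  have h2 := hx.ifun.cI_cond_det D ({TNm.X r} ∪ W) {TNm.X s} (tr_alg_nest hx W s r h0 h1)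
  have e : ({TNm.X r} : Finset (TNm n)) ∪ ({TNm.X s} ∪ W) = {TNm.X r} ∪ W ∪ {TNm.X s} := by
    ext a; simp only [Finset.mem_union]; tauto
  rw [e, h2]

theorem tr_alg_cost_nonneg (hx : TGood c₁ x) (D W : Finset (TNm n)) (s r : ℚ) : 0 ≤ pCost x D W s r := by
  unfold pCost
  have := hx.ifun.submod {TNm.X r} ({TNm.X s} ∪ W) D
  linarith

/-- `s ↦ [D | X_s, W]` is nonincreasing -/
theorem tr_alg_dI_anti (hx : TGood c₁ x) (D W : Finset (TNm n)) (s r : ℚ) (h0 : 0 ≤ s) (h1 : s ≤ r) :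
    cI x D ({TNm.X r} ∪ W) ≤ cI x D ({TNm.X s} ∪ W) := by
  have h2 := tr_alg_cost_eq hx D W s r h0 h1
  have h3 := tr_alg_cost_nonneg hx D W s r
  linarith

/-- **telescoping of the costs** along an arithmetic chain of step `st ≥ t` -/
theorem tr_alg_cost_chain (hx : TGood c₁ x) (D W : Finset (TNm n)) (s₀ t st : ℚ) (K : ℕ) (h0 : 0 ≤ s₀) (ht : 0 ≤ t) (hst : t ≤ st) :
    ∑ k ∈ Finset.range K, pCost x D W (s₀ + k * st) (s₀ + k * st + t) ≤ x (Sum.inl D) := by
  have hst0 : 0 ≤ st := ht.trans hst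
  have key : ∀ K : ℕ, ∑ k ∈ Finset.range K, pCost x D W (s₀ + k * st) (s₀ + k * st + t)
      ≤ cI x D ({TNm.X s₀} ∪ W) - cI x D ({TNm.X (s₀ + K * st)} ∪ W) := by
    intro K
    induction K with
    | zero => simp
    | succ K ih =>
      rw [Finset.sum_range_succ]
      have hk0 : 0 ≤ s₀ + K * st := by positivity
      have h1 := tr_alg_cost_eq hx D W (s₀ + K * st) (s₀ + K * st + t) hk0 (by linarith)
      have h2 := tr_alg_dI_anti hx D W (s₀ + K * st + t) (s₀ + ((K + 1 : ℕ) : ℚ) * st) (by linarith) (by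
        push_cast
        linarith)
      linarith
  have h1 := key K
  have h2 := hx.ifun.cI_nonneg D ({TNm.X (s₀ + K * st)} ∪ W)
  have h3 := hx.ifun.cI_anti_right D ∅ ({TNm.X s₀} ∪ W) (Finset.empty_subset _)
  rw [tr_alg_cI_empty x hx.ifun] at h3
  linarith

theorem tr_alg_D0_le (hx : TGood c₁ x) (ρ : Rf n) (bs : ℚ) (h : 0 ≤ bs) : x (Sum.inl (nD0 ρ bs)) ≤ ((n : ℝ) + 1) * n * bs := by
  unfold nD0
  refine (tr_alg_image_le hx.ifun _ _).trans ?_
  refine (Finset.sum_le_sum fun i _ => hx.bin i (ρ i) bs h).trans (le_of_eq ?_)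
  rw [Finset.sum_const, Finset.card_univ, Fintype.card_fin, nsmul_eq_mul]
  push_cast
  ring

theorem tr_alg_D1_le (hx : TGood c₁ x) (bs : ℚ) (h : 0 ≤ bs) : x (Sum.inl (nD1 n bs)) ≤ ((n : ℝ) + 2) * n * bs := by
  unfold nD1
  have h1 := hx.ifun.cI_union_le (nD0 (rf0 n) bs) {TNm.B 0 true bs} ∅
  rw [tr_alg_cI_empty x hx.ifun, tr_alg_cI_empty x hx.ifun, tr_alg_cI_empty x hx.ifun] at h1
  have h2 := tr_alg_D0_le hx (rf0 n) bs h
  have h3 := hx.bin 0 true bs h
  linarith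

/-! ### block comparison (H (t:block-comparison)) -/

/-- admissible block for the coordinates: `0 ≤ s ≤ r ≤ 1`, `r - s ≤ bs`, `0 < bs` -/
def TBlk (s r bs : ℚ) : Prop := 0 ≤ s ∧ s ≤ r ∧ r ≤ 1 ∧ r - s ≤ bs ∧ 0 < bs

/-- cell label and full coordinate label carry the same information given the bins (`zx`, `xz`, `IFun.cI_exchange`) -/
theorem tr_alg_zx (hx : TGood c₁ x) (ρ : Rf n) (s r bs : ℚ) (hb : TBlk s r bs) (V : Finset (TNm n)) (hV : nD0 ρ bs ⊆ V) :
    cI x (nZ ρ bs r Finset.univ) V = cI x {TNm.X r} V := by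
  obtain ⟨b0, b1, b2, b3, b4⟩ := hb
  refine hx.ifun.cI_exchange _ _ _ ?_ ?_
  · exact (hx.ifun.cI_anti_right _ _ _ (Finset.union_subset_union_right hV)).trans (hx.zx ρ bs r b4 (b0.trans b1) b2)
  · exact (hx.ifun.cI_anti_right _ _ _ (Finset.union_subset_union_right hV)).trans (hx.xz ρ bs r b4 (b0.trans b1) b2)

/-- `J_i - ℓ_i = I(Z | C,D,T_i) = I(Z_i | Z_î, C, D, T_i) ≤ I(Z_i | Z_î, C, D)` -/
theorem tr_alg_block (hx : TGood c₁ x) (ρ : Rf n) (s r bs : ℚ) (hb : TBlk s r bs) (D : Finset (TNm n)) (hD : nD0 ρ bs ⊆ D) (i : Fin (n + 1)) :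
    cI x {TNm.X r} ({TNm.X s} ∪ {TNm.T i (ρ i)} ∪ D) ≤ cI x {TNm.Z ρ bs r i} (nZ ρ bs r (Finset.univ.erase i) ∪ ({TNm.X s} ∪ D)) := by
  rw [← tr_alg_zx hx ρ s r bs hb _ (hD.trans Finset.subset_union_right)]
  obtain ⟨b0, b1, b2, b3, b4⟩ := hb
  have e : nZ ρ bs r Finset.univ = nZ ρ bs r (Finset.univ.erase i) ∪ {TNm.Z ρ bs r i} := by
    unfold nZ
    rw [← Finset.image_singleton, ← Finset.image_union]
    congr 1
    ext a
    simp only [Finset.mem_univ, Finset.mem_union, Finset.mem_erase, Finset.mem_singleton, and_true, true_iff]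
    exact (_root_.em (a = i)).symm
  rw [e, cI_chain]
  have h1 : cI x (nZ ρ bs r (Finset.univ.erase i)) ({TNm.X s} ∪ {TNm.T i (ρ i)} ∪ D) ≤ 0 := by
    refine (hx.ifun.cI_anti_right _ _ _ ?_).trans (hx.off ρ bs s r i b4 b0 b1 b2 b3)
    intro a ha
    simp only [Finset.mem_union] at ha ⊢
    rcases ha with (h | h) | h
    · exact Or.inl (Or.inl h)
    · exact Or.inr (hD h)
    · exact Or.inl (Or.inr h)
  have h2 : cI x {TNm.Z ρ bs r i} (nZ ρ bs r (Finset.univ.erase i) ∪ ({TNm.X s} ∪ {TNm.T i (ρ i)} ∪ D))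
      ≤ cI x {TNm.Z ρ bs r i} (nZ ρ bs r (Finset.univ.erase i) ∪ ({TNm.X s} ∪ D)) := by
    refine hx.ifun.cI_anti_right _ _ _ (Finset.union_subset_union_right ?_)
    intro a ha
    simp only [Finset.mem_union] at ha ⊢
    tauto
  linarith

/-- block comparison: `∑_i (J_i - ℓ_i) ≤ J - ℓ` -/
theorem tr_alg_cmp (hx : TGood c₁ x) (ρ : Rf n) (s r bs : ℚ) (hb : TBlk s r bs) (D : Finset (TNm n)) (hD : nD0 ρ bs ⊆ D) :
    ∑ i, cI x {TNm.X r} ({TNm.X s} ∪ {TNm.T i (ρ i)} ∪ D) ≤ cI x {TNm.X r} ({TNm.X s} ∪ D) := by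
  rw [← tr_alg_zx hx ρ s r bs hb _ (hD.trans Finset.subset_union_right)]
  refine (Finset.sum_le_sum fun i _ => tr_alg_block hx ρ s r bs hb D hD i).trans ?_
  have := tr_alg_han hx.ifun (fun i => TNm.Z ρ bs r i) Finset.univ ({TNm.X s} ∪ D)
  unfold nZ
  refine le_trans (le_of_eq (Finset.sum_congr rfl fun i _ => ?_)) this
  congr 3
  ext a
  simp only [Finset.mem_erase]

/-! ### additivity and replacement (H (t:replacement)) -/

/-- the information of a block with the bins revealed = increment of `G` minus the cost -/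
theorem tr_alg_dG (hx : TGood c₁ x) (D : Finset (TNm n)) (i : Fin (n + 1)) (β : Bool) (s r : ℚ) (h0 : 0 ≤ s) (h1 : s ≤ r) :
    cI x {TNm.X r} ({TNm.X s} ∪ {TNm.T i β} ∪ D) = pG x i β r - pG x i β s - pCost x D {TNm.T i β} s r := by
  have := tr_alg_incr hx {TNm.T i β} s r h0 h1
  unfold pG pCost
  linarith

/-- the grid `k/K + m/K` -/
theorem tr_alg_grid_pts (K k M : ℕ) (hK : 1 ≤ K) (hM : k + M ≤ K) :
    (∀ m : ℕ, (k : ℚ) / K + (m + 1 : ℕ) * (1 / K) = (k : ℚ) / K + m * (1 / K) + 1 / K) ∧ (∀ m : ℕ, 0 ≤ (k : ℚ) / K + m * (1 / K)) ∧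
    ((k : ℚ) / K + M * (1 / K) = ((k + M : ℕ) : ℚ) / K) ∧ (∀ m : ℕ, m ≤ M → (k : ℚ) / K + m * (1 / K) ≤ 1) := by
  have hK0 : (0 : ℚ) < K := by exact_mod_cast hK
  refine ⟨fun m => by push_cast; ring, fun m => by positivity, by push_cast; ring, fun m hm => ?_⟩
  have e : (k : ℚ) / K + m * (1 / K) = ((k + m : ℕ) : ℚ) / K := by push_cast; ring
  rw [e, div_le_one hK0]
  exact_mod_cast (by omega : k + m ≤ K)

/-- the blocks of the grid are admissible -/
theorem tr_alg_grid_blk (K k M : ℕ) (hK : 1 ≤ K) (hM : k + M ≤ K) (m : ℕ) (hm : m < M) :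
    TBlk ((k : ℚ) / K + m * (1 / K)) ((k : ℚ) / K + m * (1 / K) + 1 / K) (1 / K) := by
  obtain ⟨h1, h2, -, h4⟩ := tr_alg_grid_pts K k M hK hM
  have hK0 : (0 : ℚ) < K := by exact_mod_cast hK
  have hb : (0 : ℚ) < 1 / K := by positivity
  refine ⟨h2 m, by linarith, ?_, by linarith, hb⟩
  rw [← h1 m]
  exact h4 (m + 1) hm

/-- telescoping along the grid -/
theorem tr_alg_grid_tel (g : ℚ → ℝ) (K k M : ℕ) (hK : 1 ≤ K) (hM : k + M ≤ K) :
    ∑ m ∈ Finset.range M, (g ((k : ℚ) / K + m * (1 / K) + 1 / K) - g ((k : ℚ) / K + m * (1 / K))) = g (((k + M : ℕ) : ℚ) / K) - g ((k : ℚ) / K) := by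
  obtain ⟨h1, -, h3, -⟩ := tr_alg_grid_pts K k M hK hM
  have := Finset.sum_range_sub (fun m : ℕ => g ((k : ℚ) / K + m * (1 / K))) M
  simp only [h1, h3, Nat.cast_zero, zero_mul, add_zero] at this
  exact this

/-- the costs of one conditioning along the grid -/
theorem tr_alg_grid_cost (hx : TGood c₁ x) (ρ : Rf n) (W : Finset (TNm n)) (K k M : ℕ) (hK : 1 ≤ K) :
    ∑ m ∈ Finset.range M, pCost x (nD0 ρ (1 / K)) W ((k : ℚ) / K + m * (1 / K)) ((k : ℚ) / K + m * (1 / K) + 1 / K) ≤ ((n : ℝ) + 1) * n / K := by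
  have hK0 : (0 : ℚ) < K := by exact_mod_cast hK
  have h1 := tr_alg_cost_chain hx (nD0 ρ (1 / K)) W ((k : ℚ) / K) (1 / K) (1 / K) M (by positivity) (by positivity) le_rfl
  have h2 := tr_alg_D0_le hx ρ (1 / K) (by positivity)
  refine h1.trans (h2.trans (le_of_eq ?_))
  push_cast
  ring

/-- one-sided bound on a union of `K'` consecutive blocks of size `1/K`:  `∑_i Δ G_i ≤ Δ F + (n+1)(n+1) n / K`.
Sum `tr_alg_cmp` (`bs = 1/K`, `D = nD0 ρ bs`) over the blocks; `cI x {X r} ({X s} ∪ {T} ∪ D) = Δ G - pCost`; `tr_alg_cost_chain`, `tr_alg_D0_le`. -/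
theorem tr_alg_add_le (hx : TGood c₁ x) (ρ : Rf n) (K k k' : ℕ) (hK : 1 ≤ K) (hk : k ≤ k') (hk' : k' ≤ K) :
    ∑ i, (pG x i (ρ i) ((k' : ℚ) / K) - pG x i (ρ i) ((k : ℚ) / K))
      ≤ pF x ((k' : ℚ) / K) - pF x ((k : ℚ) / K) + ((n : ℝ) + 1) * (((n : ℝ) + 1) * n) / K := by
  obtain ⟨M, rfl⟩ : ∃ M, k' = k + M := ⟨k' - k, by omega⟩
  obtain ⟨h1, h2, h3, h4⟩ := tr_alg_grid_pts K k M hK hk'
  have hK0 : (0 : ℚ) < K := by exact_mod_cast hK
  have hb : (0 : ℚ) < 1 / K := by positivity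
  have hB : ∀ m ∈ Finset.range M, ∑ i, (pG x i (ρ i) ((k : ℚ) / K + m * (1 / K) + 1 / K) - pG x i (ρ i) ((k : ℚ) / K + m * (1 / K))
      - pCost x (nD0 ρ (1 / K)) {TNm.T i (ρ i)} ((k : ℚ) / K + m * (1 / K)) ((k : ℚ) / K + m * (1 / K) + 1 / K))
      ≤ pF x ((k : ℚ) / K + m * (1 / K) + 1 / K) - pF x ((k : ℚ) / K + m * (1 / K)) := by
    intro m hm
    have a1 := tr_alg_cmp hx ρ _ _ _ (tr_alg_grid_blk K k M hK hk' m (Finset.mem_range.1 hm)) (nD0 ρ (1 / K)) (Finset.Subset.refl _)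
    have a2 : cI x {TNm.X ((k : ℚ) / K + m * (1 / K) + 1 / K)} ({TNm.X ((k : ℚ) / K + m * (1 / K))} ∪ nD0 ρ (1 / K))
        ≤ cI x {TNm.X ((k : ℚ) / K + m * (1 / K) + 1 / K)} {TNm.X ((k : ℚ) / K + m * (1 / K))} :=
      hx.ifun.cI_anti_right _ _ _ Finset.subset_union_left
    rw [← tr_alg_F_incr hx _ _ (h2 m) (by linarith)] at a2
    simp only [tr_alg_dG hx _ _ _ _ _ (h2 m) (by linarith : (k : ℚ) / K + m * (1 / K) ≤ (k : ℚ) / K + m * (1 / K) + 1 / K)] at a1
    linarith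
  have hsum := Finset.sum_le_sum hB
  rw [Finset.sum_comm, tr_alg_grid_tel (pF x) K k M hK hk'] at hsum
  simp only [Finset.sum_sub_distrib, tr_alg_grid_tel _ K k M hK hk'] at hsum
  have hc : ∑ i : Fin (n + 1), ∑ m ∈ Finset.range M, pCost x (nD0 ρ (1 / K)) {TNm.T i (ρ i)} ((k : ℚ) / K + m * (1 / K)) ((k : ℚ) / K + m * (1 / K) + 1 / K)
      ≤ ((n : ℝ) + 1) * (((n : ℝ) + 1) * n) / K := by
    calc _ ≤ ∑ _i : Fin (n + 1), ((n : ℝ) + 1) * n / K := Finset.sum_le_sum fun i _ => tr_alg_grid_cost hx ρ _ K k M hK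
      _ = _ := by simp; ring
  rw [Finset.sum_sub_distrib]
  linarith

/-- a function on the rationals of `[0,1]` which is almost nondecreasing on every grid and does not increase from `0` to `1` is constant -/
theorem tr_alg_grid_const (Φ : ℚ → ℝ) (c : ℝ) (h : ∀ K k k' : ℕ, 1 ≤ K → k ≤ k' → k' ≤ K → Φ ((k : ℚ) / K) ≤ Φ ((k' : ℚ) / K) + c / K)
    (h01 : Φ 1 ≤ Φ 0) (s : ℚ) (h0 : 0 ≤ s) (h1 : s ≤ 1) : Φ s = Φ 0 := by
  have hc : 0 ≤ c := by
    have := h 1 0 0 le_rfl le_rfl (by omega)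
    simp at this
    exact this
  have hden : (0 : ℚ) < s.den := by exact_mod_cast s.den_pos
  have hnum : ((s.num.toNat : ℕ) : ℚ) = s.num := by
    have : ((s.num.toNat : ℕ) : ℤ) = s.num := Int.toNat_of_nonneg (Rat.num_nonneg.2 h0)
    exact_mod_cast this
  have hkey : ∀ j : ℕ, 1 ≤ j → Φ 0 ≤ Φ s + c / j ∧ Φ s ≤ Φ 0 + c / j := by
    intro j hj
    have hj0 : (0 : ℚ) < j := by exact_mod_cast hj
    have hjR : (0 : ℝ) < j := by exact_mod_cast hj
    have es : ((s.num.toNat * j : ℕ) : ℚ) / ((s.den * j : ℕ) : ℚ) = s := by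
      push_cast
      rw [hnum, mul_div_mul_right _ _ hj0.ne', Rat.num_div_den]
    have hle : s.num.toNat * j ≤ s.den * j := by
      have : ((s.num.toNat * j : ℕ) : ℚ) ≤ ((s.den * j : ℕ) : ℚ) := by
        rw [← div_le_one (by positivity), es]; exact h1
      exact_mod_cast this
    have hK : 1 ≤ s.den * j := Nat.mul_pos s.den_pos hj
    have a1 := h (s.den * j) 0 (s.num.toNat * j) hK (Nat.zero_le _) hle
    have a2 := h (s.den * j) (s.num.toNat * j) (s.den * j) hK hle le_rfl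
    rw [es] at a1 a2
    rw [div_self (by positivity)] at a2
    simp only [Nat.cast_zero, zero_div] at a1
    have hcK : c / ((s.den * j : ℕ) : ℝ) ≤ c / j := by
      apply div_le_div_of_nonneg_left hc hjR
      push_cast
      have : (1 : ℝ) ≤ s.den := by exact_mod_cast s.den_pos
      nlinarith
    constructor <;> linarith
  apply le_antisymm
  · apply le_of_forall_pos_le_add
    intro ε hε
    obtain ⟨j, hj⟩ := exists_nat_gt (c / ε)
    have hj0 : (0 : ℝ) < j := lt_of_le_of_lt (by positivity) hj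
    have hj1 : 1 ≤ j := by exact_mod_cast hj0
    have : c / j ≤ ε := by
      rw [div_le_iff₀ hj0]
      rw [div_lt_iff₀ hε] at hj
      linarith
    linarith [(hkey j hj1).2]
  · apply le_of_forall_pos_le_add
    intro ε hε
    obtain ⟨j, hj⟩ := exists_nat_gt (c / ε)
    have hj0 : (0 : ℝ) < j := lt_of_le_of_lt (by positivity) hj
    have hj1 : 1 ≤ j := by exact_mod_cast hj0
    have : c / j ≤ ε := by
      rw [div_le_iff₀ hj0]
      rw [div_lt_iff₀ hε] at hj
      linarith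
    linarith [(hkey j hj1).1]

/-- `F = ∑ G_i` for every choice of references, and `G_i(1) = n/(n+1)`.
`Def(s,s') = ΔF - ∑ ΔG_i ≥ -c/K`, `Def(0,1) ≤ 0` (`F_one`, `G_one`), additivity of `Def`, `K → ∞` along the multiples of the denominator of `s`. -/
theorem tr_alg_add (hx : TGood c₁ x) (ρ : Rf n) (s : ℚ) (h0 : 0 ≤ s) (h1 : s ≤ 1) : pF x s = ∑ i, pG x i (ρ i) s := by
  have hn1 : (0 : ℝ) < (n : ℝ) + 1 := by positivity
  have h := tr_alg_grid_const (fun s => pF x s - ∑ i, pG x i (ρ i) s) (((n : ℝ) + 1) * (((n : ℝ) + 1) * n)) (by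
    intro K k k' hK hk hk'
    have := tr_alg_add_le hx ρ K k k' hK hk hk'
    rw [Finset.sum_sub_distrib] at this
    linarith) (by
    simp only [tr_alg_G_zero hx, tr_alg_F_zero hx, Finset.sum_const_zero, sub_zero]
    have a1 : ∑ _i : Fin (n + 1), (n : ℝ) / (n + 1) ≤ ∑ i, pG x i (ρ i) 1 := Finset.sum_le_sum fun i _ => hx.G_one i (ρ i)
    have a2 : ∑ _i : Fin (n + 1), (n : ℝ) / (n + 1) = n := by
      simp
      field_simp
    have a3 : pF x 1 ≤ n := hx.F_one
    linarith) s h0 h1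
  simp only [tr_alg_G_zero hx, tr_alg_F_zero hx, Finset.sum_const_zero, sub_zero] at h
  linarith

theorem tr_alg_G_one (hx : TGood c₁ x) (i : Fin (n + 1)) (β : Bool) : pG x i β 1 = (n : ℝ) / (n + 1) := by
  apply le_antisymm _ (hx.G_one i β)
  show pG x i β 1 ≤ _
  have hn1 : (0 : ℝ) < (n : ℝ) + 1 := by positivity
  have h := tr_alg_add hx (fun _ => β) 1 zero_le_one le_rfl
  rw [← Finset.add_sum_erase _ _ (Finset.mem_univ i)] at h
  have a1 : ∑ _k ∈ Finset.univ.erase i, (n : ℝ) / (n + 1) ≤ ∑ k ∈ Finset.univ.erase i, pG x k β 1 :=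
    Finset.sum_le_sum fun k _ => hx.G_one k β
  have a2 : ∑ _k ∈ (Finset.univ : Finset (Fin (n + 1))).erase i, (n : ℝ) / (n + 1) = n * (n / (n + 1)) := by
    rw [Finset.sum_const, Finset.card_erase_of_mem (Finset.mem_univ i)]
    simp
  have a3 : pF x 1 ≤ n := hx.F_one
  have a4 : (n : ℝ) - n * (n / (n + 1)) = n / (n + 1) := by field_simp; ring
  linarith

/-- `G_i' = G_i` (compare `rf0` with `Function.update rf0 i true`) -/
theorem tr_alg_prime (hx : TGood c₁ x) (i : Fin (n + 1)) (s : ℚ) (h0 : 0 ≤ s) (h1 : s ≤ 1) : pG x i true s = pG x i false s := by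
  have a1 := tr_alg_add hx (rf0 n) s h0 h1
  have a2 := tr_alg_add hx (Function.update (rf0 n) i true) s h0 h1
  rw [← Finset.add_sum_erase _ _ (Finset.mem_univ i)] at a1 a2
  have e : ∑ k ∈ Finset.univ.erase i, pG x k (Function.update (rf0 n) i true k) s = ∑ k ∈ Finset.univ.erase i, pG x k (rf0 n k) s := by
    refine Finset.sum_congr rfl fun k hk => ?_
    rw [Function.update_of_ne (Finset.ne_of_mem_erase hk)]
  rw [e, Function.update_self] at a2
  have e2 : rf0 n i = false := rfl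
  rw [e2] at a1
  linarith

/-! ### coordinate subsets (H (t:subset-information)), standard references -/

theorem tr_alg_subset_low (hx : TGood c₁ x) (s r bs : ℚ) (hb : TBlk s r bs) (D : Finset (TNm n)) (hD : nD0 (rf0 n) bs ⊆ D)
    (A : Finset (Fin (n + 1))) :
    ∑ i ∈ A, (pG x i false r - pG x i false s - pCost x D {TNm.T i false} s r) ≤ cI x (nZ (rf0 n) bs r A) ({TNm.X s} ∪ D) := by
  obtain ⟨hs0, hsr, hr1, hrs, hbs⟩ := hb
  have hb' : TBlk s r bs := ⟨hs0, hsr, hr1, hrs, hbs⟩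
  calc ∑ i ∈ A, (pG x i false r - pG x i false s - pCost x D {TNm.T i false} s r)
      ≤ ∑ i ∈ A, cI x {TNm.Z (rf0 n) bs r i} ((Finset.univ.erase i).image (fun i => TNm.Z (rf0 n) bs r i) ∪ ({TNm.X s} ∪ D)) := by
        apply Finset.sum_le_sum
        intro i _
        rw [← tr_alg_dG hx D i false s r hs0 hsr]
        exact tr_alg_block hx (rf0 n) s r bs hb' D hD i
    _ ≤ _ := by
        have h := tr_alg_han hx.ifun (fun i => TNm.Z (rf0 n) bs r i) A ({TNm.X s} ∪ D)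
        convert h
        rfl

theorem tr_alg_subset_up (hx : TGood c₁ x) (s r bs : ℚ) (hb : TBlk s r bs) (D : Finset (TNm n)) (hD : nD0 (rf0 n) bs ⊆ D)
    (A : Finset (Fin (n + 1))) :
    cI x (nZ (rf0 n) bs r A) ({TNm.X s} ∪ D)
      ≤ ∑ i ∈ A, (pG x i false r - pG x i false s) + ∑ i ∈ Aᶜ, pCost x D {TNm.T i false} s r := by
  obtain ⟨hs0, hsr, hr1, hrs, hbs⟩ := hb
  have hb' : TBlk s r bs := ⟨hs0, hsr, hr1, hrs, hbs⟩
  have hI := hx.ifun
  -- the whole family
  have e1 : nZ (rf0 n) bs r Finset.univ = nZ (rf0 n) bs r A ∪ nZ (rf0 n) bs r Aᶜ := by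
    unfold nZ
    rw [← Finset.image_union, Finset.union_compl]
  have h1 : cI x (nZ (rf0 n) bs r Finset.univ) ({TNm.X s} ∪ D) = cI x {TNm.X r} ({TNm.X s} ∪ D) :=
    tr_alg_zx hx (rf0 n) s r bs hb' _ (hD.trans Finset.subset_union_right)
  have h2 : cI x {TNm.X r} ({TNm.X s} ∪ D) ≤ cI x {TNm.X r} {TNm.X s} := hI.cI_anti_right _ _ _ Finset.subset_union_left
  rw [← tr_alg_F_incr hx s r hs0 hsr, tr_alg_add hx (rf0 n) r (hs0.trans hsr) hr1, tr_alg_add hx (rf0 n) s hs0 (hsr.trans hr1),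
    ← Finset.sum_sub_distrib] at h2
  rw [e1, cI_chain] at h1
  -- the complementary family
  have h3 : ∑ i ∈ Aᶜ, (pG x i false r - pG x i false s - pCost x D {TNm.T i false} s r)
      ≤ cI x (nZ (rf0 n) bs r Aᶜ) (nZ (rf0 n) bs r A ∪ ({TNm.X s} ∪ D)) := by
    calc ∑ i ∈ Aᶜ, (pG x i false r - pG x i false s - pCost x D {TNm.T i false} s r)
        ≤ ∑ i ∈ Aᶜ, cI x {TNm.Z (rf0 n) bs r i} ((Finset.univ.erase i).image (fun i => TNm.Z (rf0 n) bs r i) ∪ (nZ (rf0 n) bs r A ∪ ({TNm.X s} ∪ D))) := by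
          apply Finset.sum_le_sum
          intro i hi
          rw [← tr_alg_dG hx D i false s r hs0 hsr]
          have hsub : nZ (rf0 n) bs r A ⊆ (Finset.univ.erase i).image (fun i => TNm.Z (rf0 n) bs r i) := by
            unfold nZ
            apply Finset.image_subset_image
            intro k hk
            refine Finset.mem_erase.2 ⟨fun e => ?_, Finset.mem_univ _⟩
            rw [e] at hk
            exact (Finset.mem_compl.1 hi) hk
          rw [← Finset.union_assoc, Finset.union_eq_left.2 hsub]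
          exact tr_alg_block hx (rf0 n) s r bs hb' D hD i
      _ ≤ _ := by
          have h := tr_alg_han hx.ifun (fun i => TNm.Z (rf0 n) bs r i) Aᶜ (nZ (rf0 n) bs r A ∪ ({TNm.X s} ∪ D))
          convert h
          rfl
  have h4 : ∑ i, (pG x i (rf0 n i) r - pG x i (rf0 n i) s) = ∑ i ∈ A, (pG x i false r - pG x i false s) + ∑ i ∈ Aᶜ, (pG x i false r - pG x i false s) :=
    (Finset.sum_add_sum_compl A _).symm
  rw [Finset.sum_sub_distrib] at h3
  linarith

/-! ### one common profile (H t:common) -/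

/-- one block, on the event `r_j = 0`:  `Δ G_i ≤ Δ G_j + cost(T_i') + ∑_k cost(T_k)`.
`[X_r | C,T_i',D] ≤ [Z_j | C,T_i',D] + [X_r | Z_j,C,T_i',D] ≤ [Z_j | C,D] + (n+1) a` (`slope`, every rational `0 < a < bs`), `tr_alg_subset_up` with `A = {j}`, `tr_alg_prime`. -/
theorem tr_alg_slope (hx : TGood c₁ x) (i j : Fin (n + 1)) (hij : i ≠ j) (hr : x (Sum.inr (TEx.r i j)) ≤ 0) (s r bs : ℚ) (hb : TBlk s r bs) :
    pG x i false r - pG x i false s ≤ pG x j false r - pG x j false s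
      + pCost x (nD0 (rf0 n) bs) {TNm.T i true} s r + ∑ k, pCost x (nD0 (rf0 n) bs) {TNm.T k false} s r := by
  obtain ⟨hs0, hsr, hr1, hrs, hbs⟩ := hb
  have hb' : TBlk s r bs := ⟨hs0, hsr, hr1, hrs, hbs⟩
  have hI := hx.ifun
  have hn1 : (0 : ℝ) < (n : ℝ) + 1 := by positivity
  set D := nD0 (rf0 n) bs with hD
  -- the slope parametrisation
  have hz : cI x {TNm.X r} ({TNm.T i true} ∪ {TNm.Z (rf0 n) bs r j} ∪ D) ≤ 0 := by
    apply le_of_forall_pos_le_add
    intro ε hε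
    obtain ⟨a, ha0, ha1⟩ := exists_rat_btwn (show (0 : ℝ) < min (bs : ℝ) (ε / ((n : ℝ) + 1)) from lt_min (by exact_mod_cast hbs) (by positivity))
    have ha0' : (0 : ℚ) < a := by exact_mod_cast ha0
    have ha2 : a < bs := by exact_mod_cast lt_of_lt_of_le ha1 (min_le_left _ _)
    have ha3 : (a : ℝ) < ε / ((n : ℝ) + 1) := lt_of_lt_of_le ha1 (min_le_right _ _)
    have := hx.slope i j bs r a hij ha0' ha2 (hs0.trans hsr) hr1 (by linarith)
    rw [lt_div_iff₀ hn1] at ha3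
    linarith
  -- chain
  have c1 : cI x {TNm.X r} ({TNm.X s} ∪ {TNm.T i true} ∪ D) ≤ cI x ({TNm.Z (rf0 n) bs r j} ∪ {TNm.X r}) ({TNm.X s} ∪ {TNm.T i true} ∪ D) :=
    hI.cI_mono_left _ _ _ Finset.subset_union_right
  rw [cI_chain] at c1
  have c2 : cI x {TNm.Z (rf0 n) bs r j} ({TNm.X s} ∪ {TNm.T i true} ∪ D) ≤ cI x {TNm.Z (rf0 n) bs r j} ({TNm.X s} ∪ D) := by
    apply hI.cI_anti_right
    intro a ha
    simp only [Finset.mem_union] at ha ⊢
    tauto
  have c3 : cI x {TNm.X r} ({TNm.Z (rf0 n) bs r j} ∪ ({TNm.X s} ∪ {TNm.T i true} ∪ D)) ≤ cI x {TNm.X r} ({TNm.T i true} ∪ {TNm.Z (rf0 n) bs r j} ∪ D) := by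
    apply hI.cI_anti_right
    intro a ha
    simp only [Finset.mem_union] at ha ⊢
    tauto
  have c4 := tr_alg_subset_up hx s r bs hb' D (Finset.Subset.refl _) {j}
  have e1 : nZ (rf0 n) bs r {j} = {TNm.Z (rf0 n) bs r j} := by unfold nZ; simp
  rw [e1, Finset.sum_singleton] at c4
  have c5 : ∑ k ∈ ({j} : Finset (Fin (n + 1)))ᶜ, pCost x D {TNm.T k false} s r ≤ ∑ k, pCost x D {TNm.T k false} s r :=
    Finset.sum_le_sum_of_subset_of_nonneg (Finset.subset_univ _) fun k _ _ => tr_alg_cost_nonneg hx _ _ _ _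
  have c6 := tr_alg_dG hx D i true s r hs0 hsr
  rw [tr_alg_prime hx i r (hs0.trans hsr) hr1, tr_alg_prime hx i s hs0 (hsr.trans hr1)] at c6
  linarith

/-- the comparison of two profiles on a grid, on the event `r_j = 0` -/
theorem tr_alg_eq_grid (hx : TGood c₁ x) (i j : Fin (n + 1)) (hij : i ≠ j) (hr : x (Sum.inr (TEx.r i j)) ≤ 0) (K k k' : ℕ) (hK : 1 ≤ K) (hk : k ≤ k') (hk' : k' ≤ K) :
    pG x i false ((k' : ℚ) / K) - pG x i false ((k : ℚ) / K) ≤ pG x j false ((k' : ℚ) / K) - pG x j false ((k : ℚ) / K)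
      + ((n : ℝ) + 2) * (((n : ℝ) + 1) * n) / K := by
  obtain ⟨M, rfl⟩ : ∃ M, k' = k + M := ⟨k' - k, by omega⟩
  have hB := Finset.sum_le_sum fun m (hm : m ∈ Finset.range M) =>
    tr_alg_slope hx i j hij hr _ _ _ (tr_alg_grid_blk K k M hK hk' m (Finset.mem_range.1 hm))
  simp only [Finset.sum_add_distrib, tr_alg_grid_tel _ K k M hK hk'] at hB
  rw [Finset.sum_comm] at hB
  have c1 := tr_alg_grid_cost hx (rf0 n) {TNm.T i true} K k M hK
  have c2 : ∑ l : Fin (n + 1), ∑ m ∈ Finset.range M, pCost x (nD0 (rf0 n) (1 / K)) {TNm.T l false} ((k : ℚ) / K + m * (1 / K)) ((k : ℚ) / K + m * (1 / K) + 1 / K)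
      ≤ ((n : ℝ) + 1) * (((n : ℝ) + 1) * n / K) := by
    calc _ ≤ ∑ _l : Fin (n + 1), ((n : ℝ) + 1) * n / K := Finset.sum_le_sum fun l _ => tr_alg_grid_cost hx (rf0 n) _ K k M hK
      _ = _ := by simp
  have e : ((n : ℝ) + 2) * (((n : ℝ) + 1) * n) / K = ((n : ℝ) + 1) * n / K + ((n : ℝ) + 1) * (((n : ℝ) + 1) * n / K) := by ring
  rw [e]
  linarith

/-- on the event `r_j = 0` the two profiles coincide (partition into blocks of size `1/K`, telescoping costs, `K → ∞`; equal end points) -/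
theorem tr_alg_eq_of_r (hx : TGood c₁ x) (i j : Fin (n + 1)) (hij : i ≠ j) (hr : x (Sum.inr (TEx.r i j)) ≤ 0) (s : ℚ) (h0 : 0 ≤ s) (h1 : s ≤ 1) :
    pG x i false s = pG x j false s := by
  have h := tr_alg_grid_const (fun s => pG x j false s - pG x i false s) (((n : ℝ) + 2) * (((n : ℝ) + 1) * n)) (by
    intro K k k' hK hk hk'
    have := tr_alg_eq_grid hx i j hij hr K k k' hK hk hk'
    linarith) (by
    simp only [tr_alg_G_zero hx, tr_alg_G_one hx]
    linarith) s h0 h1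
  simp only [tr_alg_G_zero hx] at h
  linarith

/-- all profiles coincide.  If `G_i ≠ G_k` pick a third index `l` (`n ≥ 2`): by `onepos` the only exception of `i` is `k` and the only exception of `k` is `i`, so `G_i = G_l = G_k`. -/
theorem tr_alg_common (hn : 2 ≤ n) (hx : TGood c₁ x) (i : Fin (n + 1)) (β : Bool) (s : ℚ) (h0 : 0 ≤ s) (h1 : s ≤ 1) :
    pG x i β s = pG x 0 false s := by
  have hkey : ∀ i k : Fin (n + 1), pG x i false s = pG x k false s := by
    intro i k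
    by_cases hik : i = k
    · rw [hik]
    by_cases h2 : x (Sum.inr (TEx.r i k)) ≤ 0
    · exact tr_alg_eq_of_r hx i k hik h2 s h0 h1
    by_cases h3 : x (Sum.inr (TEx.r k i)) ≤ 0
    · exact (tr_alg_eq_of_r hx k i (Ne.symm hik) h3 s h0 h1).symm
    obtain ⟨l, -, hl⟩ : ∃ l ∈ (Finset.univ : Finset (Fin (n + 1))), l ∉ ({i, k} : Finset (Fin (n + 1))) := by
      apply Finset.exists_mem_notMem_of_card_lt_card
      have : ({i, k} : Finset (Fin (n + 1))).card ≤ 2 := Finset.card_le_two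
      simp only [Finset.card_univ, Fintype.card_fin]
      omega
    simp only [Finset.mem_insert, Finset.mem_singleton, not_or] at hl
    have a1 : x (Sum.inr (TEx.r i l)) ≤ 0 := (hx.onepos i k l (Ne.symm hik) hl.1 (Ne.symm hl.2)).resolve_left h2
    have a2 : x (Sum.inr (TEx.r k l)) ≤ 0 := (hx.onepos k i l hik hl.2 (Ne.symm hl.1)).resolve_left h3
    rw [tr_alg_eq_of_r hx i l (Ne.symm hl.1) a1 s h0 h1, tr_alg_eq_of_r hx k l (Ne.symm hl.2) a2 s h0 h1]
  cases β
  · exact hkey i 0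
  · rw [tr_alg_prime hx i s h0 h1]; exact hkey i 0

/-! ### exits towards the engine -/

/-- `F = (n+1) G` -/
theorem tr_alg_F_eq (hn : 2 ≤ n) (hx : TGood c₁ x) (s : ℚ) (h0 : 0 ≤ s) (h1 : s ≤ 1) : pF x s = ((n : ℝ) + 1) * pG x 0 false s := by
  rw [tr_alg_add hx (rf0 n) s h0 h1]
  rw [Finset.sum_congr rfl (fun i _ => tr_alg_common hn hx i (rf0 n i) s h0 h1)]
  simp

/-- E1 + E2 -/
theorem tr_alg_reg (hn : 2 ≤ n) (hx : TGood c₁ x) : (tPath x).Reg ((n : ℝ) / (n + 1)) c₁ where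
  G0 := tr_alg_G_zero hx 0 false
  G1 := tr_alg_G_one hx 0 false
  mono := by
    intro s t hs hst ht
    have := tr_alg_incr hx {TNm.T 0 false} s t hs hst
    have h2 := hx.ifun.cI_nonneg {TNm.X t} ({TNm.X s} ∪ {TNm.T 0 false})
    change pG x 0 false s ≤ pG x 0 false t
    unfold pG
    linarith
  lip := by
    intro s t hs hst ht
    have := tr_alg_incr hx {TNm.T 0 false} s t hs hst
    have h2 := hx.child 0 false s t hs hst ht
    change pG x 0 false t - pG x 0 false s ≤ (t : ℝ) - s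
    unfold pG
    linarith
  low := by
    intro s hs hs1
    have h1 := hx.F_low s hs hs1
    have h2 := tr_alg_F_eq hn hx s hs hs1
    change (n : ℝ) / (n + 1) * s ≤ pG x 0 false s
    unfold pF at h2
    have hn0 : (0 : ℝ) < (n : ℝ) + 1 := by positivity
    rw [div_mul_eq_mul_div, div_le_iff₀ hn0]
    linarith
  h0 := fun j u _ _ => hx.h0 _ u
  hmono := fun j u v _ huv _ => hx.hmono _ u v huv
  hsum := by
    intro u hu hu8
    have := hx.hsum u hu hu8
    change c₁ * u ≤ x (Sum.inr (TEx.h (jx n false) u)) + x (Sum.inr (TEx.h (jx n true) u))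
    simpa [jx] using this
  c0 := by
    intro s t bs
    change 0 ≤ pTot x s t bs
    unfold pTot
    exact Finset.sum_nonneg fun W _ => add_nonneg (le_max_left _ _) (le_max_left _ _)

theorem tr_alg_tWs_card (n : ℕ) : ((tWs n).card : ℝ) ≤ (n : ℝ) + 3 := by
  have h1 : (tWs n).card ≤ 2 + (n + 1) := by
    unfold tWs
    refine (Finset.card_union_le _ _).trans (add_le_add (Finset.card_le_two) ?_)
    refine Finset.card_image_le.trans ?_
    simp
  have : ((tWs n).card : ℝ) ≤ ((2 + (n + 1) : ℕ) : ℝ) := by exact_mod_cast h1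
  push_cast at this
  linarith

/-- E3, pointwise -/
theorem tr_alg_tot_chain (hx : TGood c₁ x) (bs s₀ t : ℚ) (K : ℕ) (hbs : 0 < bs) (h0 : 0 ≤ s₀) (ht : 0 < t) (htb : t ≤ bs) :
    ∑ k ∈ Finset.range K, pTot x (s₀ + k * bs) t bs ≤ ((n : ℝ) + 3) * (2 * (((n : ℝ) + 2) * n)) * bs := by
  unfold pTot
  rw [Finset.sum_comm]
  have hbR : (0 : ℝ) ≤ bs := by exact_mod_cast hbs.le
  have hn0 : (0 : ℝ) ≤ n := Nat.cast_nonneg n
  have hW : ∀ W ∈ tWs n, ∑ k ∈ Finset.range K, (max 0 (pCost x (nD0 (rf0 n) bs) W (s₀ + k * bs) (s₀ + k * bs + t))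
      + max 0 (pCost x (nD1 n bs) W (s₀ + k * bs) (s₀ + k * bs + t))) ≤ 2 * (((n : ℝ) + 2) * n) * bs := by
    intro W _
    have e : ∀ k ∈ Finset.range K, (max 0 (pCost x (nD0 (rf0 n) bs) W (s₀ + k * bs) (s₀ + k * bs + t))
        + max 0 (pCost x (nD1 n bs) W (s₀ + k * bs) (s₀ + k * bs + t)))
        = pCost x (nD0 (rf0 n) bs) W (s₀ + k * bs) (s₀ + k * bs + t) + pCost x (nD1 n bs) W (s₀ + k * bs) (s₀ + k * bs + t) := by
      intro k _
      rw [max_eq_right (tr_alg_cost_nonneg hx _ _ _ _), max_eq_right (tr_alg_cost_nonneg hx _ _ _ _)]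
    rw [Finset.sum_congr rfl e, Finset.sum_add_distrib]
    have a1 := tr_alg_cost_chain hx (nD0 (rf0 n) bs) W s₀ t bs K h0 ht.le htb
    have a2 := tr_alg_cost_chain hx (nD1 n bs) W s₀ t bs K h0 ht.le htb
    have b1 := tr_alg_D0_le hx (rf0 n) bs hbs.le
    have b2 := tr_alg_D1_le hx bs hbs.le
    nlinarith [mul_nonneg hn0 hbR]
  refine (Finset.sum_le_card_nsmul _ _ _ hW).trans ?_
  rw [nsmul_eq_mul]
  have hc := tr_alg_tWs_card n
  have hp : 0 ≤ 2 * (((n : ℝ) + 2) * n) * bs := by positivity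
  calc ((tWs n).card : ℝ) * (2 * (((n : ℝ) + 2) * n) * bs) ≤ ((n : ℝ) + 3) * (2 * (((n : ℝ) + 2) * n) * bs) :=
        mul_le_mul_of_nonneg_right hc hp
    _ = ((n : ℝ) + 3) * (2 * (((n : ℝ) + 2) * n)) * bs := by ring

/-- every tested cost is bounded by the total cost -/
theorem tr_alg_cost_le_tot (x : TSp n) (W : Finset (TNm n)) (hW : W ∈ tWs n) (s t bs : ℚ) :
    pCost x (nD0 (rf0 n) bs) W s (s + t) ≤ pTot x s t bs ∧ pCost x (nD1 n bs) W s (s + t) ≤ pTot x s t bs := by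
  have h := Finset.single_le_sum (f := fun W => max 0 (pCost x (nD0 (rf0 n) bs) W s (s + t)) + max 0 (pCost x (nD1 n bs) W s (s + t)))
    (fun W _ => add_nonneg (le_max_left _ _) (le_max_left _ _)) hW
  have h1 := le_max_right 0 (pCost x (nD0 (rf0 n) bs) W s (s + t))
  have h2 := le_max_right 0 (pCost x (nD1 n bs) W s (s + t))
  have h3 := le_max_left 0 (pCost x (nD0 (rf0 n) bs) W s (s + t))
  have h4 := le_max_left 0 (pCost x (nD1 n bs) W s (s + t))
  unfold pTot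
  constructor <;> linarith

/-- the sum of the costs of the reference tubes for one bin list is bounded by the total cost -/
theorem tr_alg_costs_le_tot (x : TSp n) (s t bs : ℚ) :
    ∑ k, pCost x (nD0 (rf0 n) bs) {TNm.T k false} s (s + t) ≤ pTot x s t bs ∧
    ∑ k, pCost x (nD1 n bs) {TNm.T k false} s (s + t) ≤ pTot x s t bs := by
  have hinj : Function.Injective (fun i : Fin (n + 1) => ({TNm.T i false} : Finset (TNm n))) := by
    intro i i' h
    have := Finset.singleton_injective h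
    injection this
  have hsub : Finset.univ.image (fun i : Fin (n + 1) => ({TNm.T i false} : Finset (TNm n))) ⊆ tWs n := Finset.subset_union_right
  have hle : ∑ k : Fin (n + 1), (max 0 (pCost x (nD0 (rf0 n) bs) {TNm.T k false} s (s + t)) + max 0 (pCost x (nD1 n bs) {TNm.T k false} s (s + t)))
      ≤ pTot x s t bs := by
    unfold pTot
    refine le_trans (le_of_eq ?_) (Finset.sum_le_sum_of_subset_of_nonneg hsub fun W _ _ => add_nonneg (le_max_left _ _) (le_max_left _ _))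
    rw [Finset.sum_image fun a _ b _ h => hinj h]
  constructor
  · refine le_trans (Finset.sum_le_sum fun k _ => ?_) hle
    have h1 := le_max_right 0 (pCost x (nD0 (rf0 n) bs) {TNm.T k false} s (s + t))
    have h4 := le_max_left 0 (pCost x (nD1 n bs) {TNm.T k false} s (s + t))
    linarith
  · refine le_trans (Finset.sum_le_sum fun k _ => ?_) hle
    have h1 := le_max_right 0 (pCost x (nD1 n bs) {TNm.T k false} s (s + t))
    have h4 := le_max_left 0 (pCost x (nD0 (rf0 n) bs) {TNm.T k false} s (s + t))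
    linarith

/-- (t:projection-information):  `[Π | C, D₁] ≤ [Y | C, D₁] - (Δ G - cost)`.
`[Y,Π | C,D₁] = [Y | C,D₁]` (`pi2`); `[Y | Π,C,D₁] ≥ [Y | Π,C,D₁,T_0'] = [Y | C,D₁,T_0']` (`pi1`) `= [X_r | C,D₁,T_0']` (`xz`, `pi3`) `= Δ G_0' - pCost`. -/
theorem tr_alg_proj (hx : TGood c₁ x) (s r bs : ℚ) (hb : TBlk s r bs) (j : Fin (n + 1)) (hj : j ≠ 0) :
    cI x {TNm.Pi bs r j} ({TNm.X s} ∪ nD1 n bs) ≤ cI x (nY n bs r j) ({TNm.X s} ∪ nD1 n bs)
      - (pG x 0 true r - pG x 0 true s - pCost x (nD1 n bs) {TNm.T 0 true} s r) := by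
  obtain ⟨h0, h1, h2, h3, h4⟩ := hb
  have hI := hx.ifun
  set B : Finset (TNm n) := {TNm.X s} ∪ nD1 n bs with hB
  set Y : Finset (TNm n) := nY n bs r j with hY
  set P : Finset (TNm n) := {TNm.Pi bs r j} with hP
  set T' : Finset (TNm n) := {TNm.T 0 true} with hT'
  -- chain rule both ways
  have c1 : cI x (P ∪ Y) B = cI x P B + cI x Y (P ∪ B) := cI_chain x P Y B
  have c2 : cI x (Y ∪ P) B = cI x Y B + cI x P (Y ∪ B) := cI_chain x Y P B
  have c3 : P ∪ Y = Y ∪ P := Finset.union_comm _ _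
  -- pi2
  have d1 : cI x P (Y ∪ B) ≤ 0 := by
    refine le_trans (hI.cI_anti_right P ({TNm.Z (rf0 n) bs r 0} ∪ {TNm.Z (rf0 n) bs r j} ∪ nD1 n bs) (Y ∪ B) ?_) (hx.pi2 bs r j hj h4 (h0.trans h1) h2)
    intro a ha
    simp only [hY, hB, nY, Finset.mem_union, Finset.mem_singleton, Finset.mem_insert] at ha ⊢
    tauto
  have d1' := hI.cI_nonneg P (Y ∪ B)
  -- conditioning on T'
  have d2 : cI x Y (P ∪ B ∪ T') ≤ cI x Y (P ∪ B) := hI.cI_anti_right Y (P ∪ B) (P ∪ B ∪ T') Finset.subset_union_left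
  -- pi1
  have d3 : cI x P (B ∪ T') ≤ 0 := by
    refine le_trans (le_of_eq ?_) (hx.pi1 bs s r j hj h4 h0 h1 h2 h3)
    congr 1
    ext a
    simp only [hB, hT', Finset.mem_union, Finset.mem_singleton]
    tauto
  have d4 : cI x Y (B ∪ T' ∪ P) = cI x Y (B ∪ T') := hI.cI_cond_det Y (B ∪ T') P d3
  have d5 : P ∪ B ∪ T' = B ∪ T' ∪ P := by
    ext a
    simp only [Finset.mem_union]
    tauto
  -- pi3
  have d6 : cI x {TNm.X r} (Y ∪ (B ∪ T')) ≤ 0 := by
    refine le_trans (hI.cI_anti_right {TNm.X r} ({TNm.T 0 true} ∪ {TNm.Z (rf0 n) bs r 0} ∪ nD1 n bs) (Y ∪ (B ∪ T')) ?_) (hx.pi3 bs r h4 (h0.trans h1) h2)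
    intro a ha
    simp only [hY, hB, hT', nY, Finset.mem_union, Finset.mem_singleton, Finset.mem_insert] at ha ⊢
    tauto
  have d7 : cI x {TNm.X r} (B ∪ T') ≤ cI x Y (B ∪ T') := by
    have e1 : cI x (Y ∪ {TNm.X r}) (B ∪ T') = cI x Y (B ∪ T') + cI x {TNm.X r} (Y ∪ (B ∪ T')) := cI_chain x Y {TNm.X r} (B ∪ T')
    have e2 := hI.cI_mono_left {TNm.X r} (Y ∪ {TNm.X r}) (B ∪ T') Finset.subset_union_right
    linarith
  -- the increment
  have d8 : cI x {TNm.X r} (B ∪ T') = pG x 0 true r - pG x 0 true s - pCost x (nD1 n bs) {TNm.T 0 true} s r := by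
    have e1 := tr_alg_incr hx {TNm.T 0 true} s r h0 h1
    unfold pCost pG
    have e2 : B ∪ T' = {TNm.X s} ∪ {TNm.T 0 true} ∪ nD1 n bs := by
      ext a
      simp only [hB, hT', Finset.mem_union, Finset.mem_singleton]
      tauto
    rw [e2]
    linarith
  rw [d5, d4] at d2
  rw [c3] at c1
  linarith

theorem tr_alg_jx_ne (hn : 2 ≤ n) (j : Bool) : jx n j ≠ 0 := by
  obtain ⟨m, rfl⟩ : ∃ m, n = m + 2 := ⟨n - 2, by omega⟩
  unfold jx
  cases j
  · simp only [Bool.false_eq_true, if_false]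
    intro h
    have := congrArg Fin.val h
    simp at this
  · simp only [if_true]
    intro h
    have := congrArg Fin.val h
    simp at this
    rw [Nat.mod_eq_of_lt (by omega)] at this
    omega

theorem tr_alg_nY_eq (bs r : ℚ) (j : Fin (n + 1)) : nY n bs r j = nZ (rf0 n) bs r {0, j} := by
  unfold nY nZ
  simp [Finset.image_insert]

/-- two-sided bound for the pair label on a block -/
theorem tr_alg_pair (hn : 2 ≤ n) (hx : TGood c₁ x) (s r bs : ℚ) (hb : TBlk s r bs) (D : Finset (TNm n)) (hD : nD0 (rf0 n) bs ⊆ D)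
    (j : Fin (n + 1)) (hj : j ≠ 0) :
    2 * (pG x 0 false r - pG x 0 false s) - ∑ k, pCost x D {TNm.T k false} s r ≤ cI x (nY n bs r j) ({TNm.X s} ∪ D) ∧
    cI x (nY n bs r j) ({TNm.X s} ∪ D) ≤ 2 * (pG x 0 false r - pG x 0 false s) + ∑ k, pCost x D {TNm.T k false} s r := by
  obtain ⟨h0, h1, h2, h3, h4⟩ := id hb
  have hc : ∀ k, 0 ≤ pCost x D {TNm.T k false} s r := fun k => tr_alg_cost_nonneg hx _ _ _ _
  have hG : ∀ i : Fin (n + 1), pG x i false r - pG x i false s = pG x 0 false r - pG x 0 false s := fun i => by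
    rw [tr_alg_common hn hx i false r (h0.trans h1) h2, tr_alg_common hn hx i false s h0 (h1.trans h2)]
  have hcard : ({0, j} : Finset (Fin (n + 1))).card = 2 := Finset.card_pair (Ne.symm hj)
  have hsumG : ∑ i ∈ ({0, j} : Finset (Fin (n + 1))), (pG x i false r - pG x i false s) = 2 * (pG x 0 false r - pG x 0 false s) := by
    rw [Finset.sum_congr rfl (fun i _ => hG i), Finset.sum_const, hcard]
    simp
  rw [tr_alg_nY_eq]
  constructor
  · have := tr_alg_subset_low hx s r bs hb D hD {0, j}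
    rw [Finset.sum_sub_distrib, hsumG] at this
    have h5 : ∑ i ∈ ({0, j} : Finset (Fin (n + 1))), pCost x D {TNm.T i false} s r ≤ ∑ k, pCost x D {TNm.T k false} s r :=
      Finset.sum_le_sum_of_subset_of_nonneg (Finset.subset_univ _) fun i _ _ => hc i
    linarith
  · have := tr_alg_subset_up hx s r bs hb D hD {0, j}
    rw [hsumG] at this
    have h5 : ∑ i ∈ ({0, j} : Finset (Fin (n + 1)))ᶜ, pCost x D {TNm.T i false} s r ≤ ∑ k, pCost x D {TNm.T k false} s r :=
      Finset.sum_le_sum_of_subset_of_nonneg (Finset.subset_univ _) fun i _ _ => hc i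
    linarith

/-- two-sided bound for the single label `Z_0` on a block -/
theorem tr_alg_single (hx : TGood c₁ x) (s r bs : ℚ) (hb : TBlk s r bs) (D : Finset (TNm n)) (hD : nD0 (rf0 n) bs ⊆ D) :
    (pG x 0 false r - pG x 0 false s) - ∑ k, pCost x D {TNm.T k false} s r ≤ cI x {TNm.Z (rf0 n) bs r 0} ({TNm.X s} ∪ D) ∧
    cI x {TNm.Z (rf0 n) bs r 0} ({TNm.X s} ∪ D) ≤ (pG x 0 false r - pG x 0 false s) + ∑ k, pCost x D {TNm.T k false} s r := by
  have hc : ∀ k, 0 ≤ pCost x D {TNm.T k false} s r := fun k => tr_alg_cost_nonneg hx _ _ _ _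
  have e : ({TNm.Z (rf0 n) bs r 0} : Finset (TNm n)) = nZ (rf0 n) bs r {0} := by
    unfold nZ; simp
  rw [e]
  constructor
  · have := tr_alg_subset_low hx s r bs hb D hD {0}
    rw [Finset.sum_singleton] at this
    have h5 : pCost x D {TNm.T 0 false} s r ≤ ∑ k, pCost x D {TNm.T k false} s r :=
      Finset.single_le_sum (fun i _ => hc i) (Finset.mem_univ 0)
    linarith
  · have := tr_alg_subset_up hx s r bs hb D hD {0}
    rw [Finset.sum_singleton] at this
    have h5 : ∑ i ∈ ({0} : Finset (Fin (n + 1)))ᶜ, pCost x D {TNm.T i false} s r ≤ ∑ k, pCost x D {TNm.T k false} s r :=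
      Finset.sum_le_sum_of_subset_of_nonneg (Finset.subset_univ _) fun i _ _ => hc i
    linarith

/-- **B1**: a successful test lies in the open cylinder `UBT` with `α = 6 ζ` -/
theorem tr_alg_bt (hn : 2 ≤ n) (hx : TGood c₁ x) (d d₀ κ₀ ζ : ℝ) (hζ : 0 < ζ) (N : ℕ) (hN : 1 ≤ N) (j : Bool) (s b bs : ℚ) (hb : EBlk s b) (hbs : b ≤ bs)
    (hS : (tPath x).Succ j d d₀ κ₀ ζ N s b bs) : x ∈ UBT d d₀ κ₀ (6 * ζ) N (jx n j) s b bs := by
  obtain ⟨hs0, hb0, hsb, hb8⟩ := hb
  obtain ⟨h1, h2⟩ := hS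
  change |pG x 0 false (s + b) - pG x 0 false s - d * b| ≤ ζ * b at h1
  have h2' : ∀ k : ℕ, 1 ≤ k → k ≤ N →
      d₀ * ((b * k / N : ℚ) : ℝ) - ζ * b ≤ pG x 0 false (s + b * k / N) - pG x 0 false s ∧
      pTot x s (b * k / N) bs ≤ ζ * b ∧
      κ₀ * ((b * k / N : ℚ) : ℝ) - ζ * b ≤ x (Sum.inr (TEx.h (jx n j) (b * k / N))) := h2
  have hbR : (0 : ℝ) < b := by exact_mod_cast hb0
  have hζb : 0 < ζ * b := mul_pos hζ hbR
  have hNQ : (0 : ℚ) < N := by exact_mod_cast hN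
  have hj := tr_alg_jx_ne hn j
  have hD01 : nD0 (rf0 n) bs ⊆ nD1 n bs := Finset.subset_union_left
  -- the prefixes
  have hu : ∀ k : ℕ, 1 ≤ k → k ≤ N → 0 ≤ b * k / N ∧ b * k / N ≤ b := by
    intro k hk hkN
    have hkQ : (k : ℚ) ≤ N := by exact_mod_cast hkN
    have hk0 : (0 : ℚ) ≤ k := Nat.cast_nonneg k
    constructor
    · positivity
    · rw [div_le_iff₀ hNQ]
      exact mul_le_mul_of_nonneg_left hkQ hb0.le
  have hblk : ∀ k : ℕ, 1 ≤ k → k ≤ N → TBlk s (s + b * k / N) bs := by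
    intro k hk hkN
    obtain ⟨a1, a2⟩ := hu k hk hkN
    exact ⟨hs0, by linarith, by linarith, by linarith, by linarith⟩
  have hbN : b * (N : ℚ) / N = b := by field_simp
  have hfull := h2' N hN le_rfl
  rw [hbN] at hfull
  have hblkN : TBlk s (s + b) bs := by
    have := hblk N hN le_rfl
    rwa [hbN] at this
  have hc0 := (tr_alg_costs_le_tot x s b bs).1
  have hc1 := (tr_alg_costs_le_tot x s b bs).2
  have hT0 : ({TNm.T 0 true} : Finset (TNm n)) ∈ tWs n := by
    unfold tWs; simp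
  have hc2 := (tr_alg_cost_le_tot x {TNm.T 0 true} hT0 s b bs).2
  rw [abs_le] at h1
  have p0 := tr_alg_pair hn hx s (s + b) bs hblkN _ (Finset.Subset.refl _) (jx n j) hj
  have p1 := tr_alg_pair hn hx s (s + b) bs hblkN _ hD01 (jx n j) hj
  have q0 := tr_alg_single hx s (s + b) bs hblkN _ (Finset.Subset.refl _)
  have pr := tr_alg_proj hx s (s + b) bs hblkN (jx n j) hj
  rw [tr_alg_common hn hx 0 true (s + b) (by linarith) hsb, tr_alg_common hn hx 0 true s hs0 (by linarith)] at pr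
  refine ⟨?_, ?_, ?_, ?_, ?_⟩
  · rw [abs_lt]; constructor <;> linarith [p0.1, p0.2, h1.1, h1.2, hfull.2.1]
  · rw [abs_lt]; constructor <;> linarith [p1.1, p1.2, h1.1, h1.2, hfull.2.1]
  · linarith [p1.1, p1.2, h1.1, h1.2, hfull.2.1]
  · linarith [q0.2, h1.1, h1.2, hfull.2.1]
  · intro k hk hkN
    obtain ⟨a1, a2, a3⟩ := h2' k hk hkN
    have hck := (tr_alg_costs_le_tot x s (b * k / N) bs).1
    have pk := tr_alg_pair hn hx s (s + b * k / N) bs (hblk k hk hkN) _ (Finset.Subset.refl _) (jx n j) hj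
    have qk := tr_alg_single hx s (s + b * k / N) bs (hblk k hk hkN) _ (Finset.Subset.refl _)
    refine ⟨?_, ?_, ?_⟩
    · linarith [pk.1]
    · linarith [qk.1]
    · linarith

/-- a full-to-empty block lies in the open cylinder `UNJ` with `η' = (n+2) η` -/
theorem tr_alg_nj (hn : 2 ≤ n) (hx : TGood c₁ x) (η : ℝ) (hη : 0 < η) (s b : ℚ) (hb : EBlk s b) (hJ : (tPath x).Jump η s b) :
    x ∈ UNJ (((n : ℝ) + 2) * η) s b := by
  obtain ⟨hs0, hb0, hsb, hb8⟩ := hb
  obtain ⟨h1, h2⟩ := hJ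
  change |pG x 0 false (s + b) - pG x 0 false s - b / 2| ≤ η * b at h1
  change |pG x 0 false (s + b / 2) - pG x 0 false s - b / 2| ≤ η * b at h2
  have hbR : (0 : ℝ) < b := by exact_mod_cast hb0
  have hηb : 0 < η * b := mul_pos hη hbR
  have hn0 : (0 : ℝ) ≤ n := Nat.cast_nonneg n
  have e1 : cI x {TNm.X (s + b)} {TNm.X s} = ((n : ℝ) + 1) * (pG x 0 false (s + b) - pG x 0 false s) := by
    rw [← tr_alg_F_incr hx s (s + b) hs0 (by linarith), tr_alg_F_eq hn hx (s + b) (by linarith) hsb,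
      tr_alg_F_eq hn hx s hs0 (by linarith)]
    ring
  have e2 : cI x {TNm.X (s + b / 2)} {TNm.X s} = ((n : ℝ) + 1) * (pG x 0 false (s + b / 2) - pG x 0 false s) := by
    rw [← tr_alg_F_incr hx s (s + b / 2) hs0 (by linarith), tr_alg_F_eq hn hx (s + b / 2) (by linarith) (by linarith),
      tr_alg_F_eq hn hx s hs0 (by linarith)]
    ring
  have e3 : cI x {TNm.X (s + b)} ({TNm.X s} ∪ {TNm.T 0 false}) = pG x 0 false (s + b) - pG x 0 false s :=
    (tr_alg_incr hx {TNm.T 0 false} s (s + b) hs0 (by linarith)).symm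
  rw [abs_le] at h1 h2
  refine ⟨?_, ?_, ?_⟩
  · rw [e1, abs_lt]
    constructor <;> nlinarith [h1.1, h1.2]
  · rw [e2]
    nlinarith [h2.1, h2.2]
  · rw [e3]
    nlinarith [h1.1, h1.2]

/-- Stores the on-demand equation lemmas of the definitions above in THIS module (rule 6 hygiene). -/
theorem tr_alg_forced : True := by
  have := @TBlk.eq_1
  trivial

end Claimed.Agent.R257.TR
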