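import Claimed.Agent.R257.TR.Model

/-!
# R257 / TR / GeoA : shared API of the FACTS, part A: dyadic levels, floors, cells, bins, counting of labels      (chief FACTS: helper84)

PAPER-FREE.  Everything here is elementary; constants are deliberately crude (`‖v‖ ≤ n max |v i|`, `2 lam + 2` integers in an interval of radius `lam`).
* `tr_geo_sc_*`     the dyadic level `sc L s`:  `2^{sc} ≤ L^s < 2^{sc+1}`
* `tr_geo_cell_*`, `tr_geo_binR_*`    cells and bins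
* `tr_geo_cnt_*`    how to prove `ISys.Cnt E A K`: `cnt_one` (determined), `cnt_card` (function of a finite type), `cnt_box` (labels = floors of reals which vary by `≤ lam`), `cnt_fib` (first an integer label, then the rest)
* `tr_geo_agr_*`, `tr_geo_ms_*`     general facts on `Agr`, `ms`
-/

set_option autoImplicit false

namespace Claimed.Agent.R257.TR

open Claimed.Agent.R255 Claimed.Agent.R257 MeasureTheory Filter Topology
open scoped BigOperators ENNReal InnerProductSpace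
open Classical

variable {n : ℕ}

/-! ### the dyadic level -/

theorem tr_geo_L_rpow (L : ℝ) (hL : 0 < L) (t : ℝ) : L ^ t = (2 : ℝ) ^ (t * Real.logb 2 L) := by
  rw [mul_comm, Real.rpow_mul (by norm_num), Real.rpow_logb (by norm_num) (by norm_num) hL]

theorem tr_geo_logb_nonneg (L : ℝ) (hL : 2 ≤ L) : 0 ≤ Real.logb 2 L :=
  Real.logb_nonneg (by norm_num) (by linarith)

/-- `2^{sc L s} ≤ L^s` for `s ≥ 0`.  (`Nat.floor_le`, `Real.rpow_logb`, `2^{k} = 2^{(k:ℝ)}`, `L^s = 2^{s logb 2 L}`.) -/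
theorem tr_geo_sc_le (L : ℝ) (hL : 2 ≤ L) (s : ℚ) (hs : 0 ≤ s) : (2 : ℝ) ^ (sc L s) ≤ L ^ (s : ℝ) := by
  have hs' : (0 : ℝ) ≤ s := by exact_mod_cast hs
  rw [tr_geo_L_rpow L (by linarith), ← Real.rpow_natCast]
  refine Real.rpow_le_rpow_of_exponent_le (by norm_num) ?_
  exact Nat.floor_le (mul_nonneg hs' (tr_geo_logb_nonneg L hL))

/-- `L^s < 2^{sc L s + 1}` (all `s`; `Nat.lt_floor_add_one`) -/
theorem tr_geo_sc_lt (L : ℝ) (hL : 2 ≤ L) (s : ℚ) : L ^ (s : ℝ) < (2 : ℝ) ^ (sc L s + 1) := by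
  rw [tr_geo_L_rpow L (by linarith), ← Real.rpow_natCast]
  refine Real.rpow_lt_rpow_of_exponent_lt (by norm_num) ?_
  push_cast
  exact Nat.lt_floor_add_one _

theorem tr_geo_sc_mono (L : ℝ) (hL : 2 ≤ L) (s s' : ℚ) (h : s ≤ s') : sc L s ≤ sc L s' := by
  have h' : (s : ℝ) ≤ s' := by exact_mod_cast h
  exact Nat.floor_mono (mul_le_mul_of_nonneg_right h' (tr_geo_logb_nonneg L hL))

theorem tr_geo_sc_zero (L : ℝ) : sc L 0 = 0 := by
  simp [sc]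

/-- side of a cell from above: `2^{-sc} ≤ 2 L^{-s}` -/
theorem tr_geo_sc_inv_le (L : ℝ) (hL : 2 ≤ L) (s : ℚ) : ((2 : ℝ) ^ (sc L s))⁻¹ ≤ 2 * L ^ (-(s : ℝ)) := by
  have hL0 : 0 < L := by linarith
  have h1 := tr_geo_sc_lt L hL s
  have h2 : 0 < L ^ (s : ℝ) := Real.rpow_pos_of_pos hL0 _
  rw [Real.rpow_neg hL0.le, pow_succ] at *
  rw [inv_le_comm₀ (by positivity) (by positivity), mul_inv, inv_inv]
  linarith

/-- side of a cell from below: `L^{-s} ≤ 2^{-sc}` -/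
theorem tr_geo_sc_inv_ge (L : ℝ) (hL : 2 ≤ L) (s : ℚ) (hs : 0 ≤ s) : L ^ (-(s : ℝ)) ≤ ((2 : ℝ) ^ (sc L s))⁻¹ := by
  have hL0 : 0 < L := by linarith
  rw [Real.rpow_neg hL0.le]
  exact inv_anti₀ (by positivity) (tr_geo_sc_le L hL s hs)

/-- ratio of two levels: `2^{sc L s'} / 2^{sc L s} ≤ 2 L^{s'-s}` -/
theorem tr_geo_sc_ratio (L : ℝ) (hL : 2 ≤ L) (s s' : ℚ) (hs' : 0 ≤ s') :
    (2 : ℝ) ^ (sc L s') * ((2 : ℝ) ^ (sc L s))⁻¹ ≤ 2 * L ^ ((s' : ℝ) - s) := by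
  have hL0 : 0 < L := by linarith
  have h1 := tr_geo_sc_le L hL s' hs'
  have h2 := tr_geo_sc_inv_le L hL s
  have h3 : 0 < L ^ (s' : ℝ) := Real.rpow_pos_of_pos hL0 _
  calc (2 : ℝ) ^ (sc L s') * ((2 : ℝ) ^ (sc L s))⁻¹ ≤ L ^ (s' : ℝ) * (2 * L ^ (-(s : ℝ))) :=
        mul_le_mul h1 h2 (by positivity) h3.le
    _ = 2 * L ^ ((s' : ℝ) - s) := by
        rw [sub_eq_add_neg, Real.rpow_add hL0]
        ring

/-! ### norms, cells, bins -/

/-- crude bound of the Euclidean norm by the coordinates -/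
theorem tr_geo_norm_le (v : E n) (d : ℝ) (h : ∀ i, |v i| ≤ d) : ‖v‖ ≤ n * d := by
  rcases Nat.eq_zero_or_pos n with hn | hn
  · subst hn
    have : v = 0 := Subsingleton.elim _ _
    simp [this]
  · have hd : 0 ≤ d := (abs_nonneg _).trans (h ⟨0, hn⟩)
    have hn1 : (1 : ℝ) ≤ n := by exact_mod_cast hn
    rw [EuclideanSpace.norm_eq]
    refine Real.sqrt_le_iff.2 ⟨by positivity, ?_⟩
    calc ∑ i, ‖v i‖ ^ 2 ≤ ∑ _i : Fin n, d ^ 2 := by
          refine Finset.sum_le_sum fun i _ => ?_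
          rw [Real.norm_eq_abs]
          exact pow_le_pow_left₀ (abs_nonneg _) (h i) 2
      _ = n * d ^ 2 := by simp
      _ ≤ (n * d) ^ 2 := by
          rw [mul_pow]
          refine mul_le_mul_of_nonneg_right ?_ (by positivity)
          nlinarith

theorem tr_geo_abs_le_norm (v : E n) (i : Fin n) : |v i| ≤ ‖v‖ := by
  have := PiLp.norm_apply_le v i
  rwa [Real.norm_eq_abs] at this

/-- floors at a coarser dyadic level are determined by floors at a finer level: `⌊2^k a⌋ = ⌊⌊2^{k'} a⌋ / 2^{k'-k}⌋` -/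
theorem tr_geo_floor_nest (k k' : ℕ) (h : k ≤ k') (a b : ℝ) (hab : ⌊(2 : ℝ) ^ k' * a⌋ = ⌊(2 : ℝ) ^ k' * b⌋) :
    ⌊(2 : ℝ) ^ k * a⌋ = ⌊(2 : ℝ) ^ k * b⌋ := by
  obtain ⟨d, rfl⟩ := Nat.exists_eq_add_of_le h
  have hd : (0 : ℝ) < 2 ^ d := by positivity
  have key : ∀ (c : ℝ) (m : ℤ), ⌊(2 : ℝ) ^ k * c⌋ = m ↔ (m * 2 ^ d ≤ ⌊(2 : ℝ) ^ (k + d) * c⌋ ∧ ⌊(2 : ℝ) ^ (k + d) * c⌋ < (m + 1) * 2 ^ d) := by
    intro c m
    rw [Int.floor_eq_iff, Int.le_floor, Int.floor_lt]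
    have e : (2 : ℝ) ^ (k + d) * c = (2 ^ k * c) * 2 ^ d := by
      rw [pow_add]
      ring
    push_cast
    rw [e, mul_le_mul_iff_left₀ hd, mul_lt_mul_iff_left₀ hd]
  have h1 := (key a ⌊(2 : ℝ) ^ k * a⌋).1 rfl
  rw [hab] at h1
  exact ((key b _).2 h1).symm

/-- equal floors: the numbers are close -/
theorem tr_geo_floor_close (k : ℕ) (a b : ℝ) (hab : ⌊(2 : ℝ) ^ k * a⌋ = ⌊(2 : ℝ) ^ k * b⌋) : |a - b| ≤ ((2 : ℝ) ^ k)⁻¹ := by
  have h1 := Int.abs_sub_lt_one_of_floor_eq_floor hab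
  have hk : (0 : ℝ) < 2 ^ k := by positivity
  rw [← mul_sub, abs_mul, abs_of_pos hk] at h1
  rw [← one_div, le_div_iff₀ hk]
  linarith

theorem tr_geo_cell_nest (k k' : ℕ) (h : k ≤ k') (z z' : ST n) (hz : cellL k' z = cellL k' z') : cellL k z = cellL k z' := by
  unfold cellL at *
  rw [Prod.mk.injEq] at hz ⊢
  exact ⟨funext fun i => tr_geo_floor_nest k k' h _ _ (congrFun hz.1 i), tr_geo_floor_nest k k' h _ _ hz.2⟩

/-- two points of one cell -/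
theorem tr_geo_cell_close (k : ℕ) (z z' : ST n) (hz : cellL k z = cellL k z') :
    (∀ i, |z.1 i - z'.1 i| ≤ ((2 : ℝ) ^ k)⁻¹) ∧ ‖z.1 - z'.1‖ ≤ n * ((2 : ℝ) ^ k)⁻¹ ∧ |z.2 - z'.2| ≤ ((2 : ℝ) ^ k)⁻¹ := by
  unfold cellL at hz
  rw [Prod.mk.injEq] at hz
  have h1 : ∀ i, |z.1 i - z'.1 i| ≤ ((2 : ℝ) ^ k)⁻¹ := fun i => tr_geo_floor_close k _ _ (congrFun hz.1 i)
  exact ⟨h1, tr_geo_norm_le _ _ h1, tr_geo_floor_close k _ _ hz.2⟩

theorem tr_geo_binR_dist (k : ℕ) (ξ : E n) : ‖binR k ξ - ξ‖ ≤ n * ((2 : ℝ) ^ k)⁻¹ := by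
  refine tr_geo_norm_le _ _ fun i => ?_
  have hk : (0 : ℝ) < 2 ^ k := by positivity
  have e : (binR k ξ - ξ) i = ((⌊(2 : ℝ) ^ k * ξ i⌋ : ℝ) - 2 ^ k * ξ i) / 2 ^ k := by
    change (⌊(2 : ℝ) ^ k * ξ i⌋ : ℝ) / 2 ^ k - ξ i = _
    field_simp
  rw [e, abs_div, abs_of_pos hk, ← one_div, div_le_div_iff_of_pos_right hk, abs_le]
  have h1 := Int.floor_le ((2 : ℝ) ^ k * ξ i)
  have h2 := Int.lt_floor_add_one ((2 : ℝ) ^ k * ξ i)
  constructor <;> linarith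

theorem tr_geo_binR_congr (k : ℕ) (ξ ξ' : E n) (h : binL k ξ = binL k ξ') : binR k ξ = binR k ξ' := by
  unfold binR
  rw [h]

/-- `‖binR k ξ‖ ≤ ‖ξ‖ + n` -/
theorem tr_geo_binR_norm (k : ℕ) (ξ : E n) : ‖binR k ξ‖ ≤ ‖ξ‖ + n := by
  have h1 := tr_geo_binR_dist k ξ
  have h2 : ‖binR k ξ‖ ≤ ‖ξ‖ + ‖binR k ξ - ξ‖ := by
    have := norm_add_le ξ (binR k ξ - ξ)
    rwa [add_sub_cancel] at this
  have h3 : ((2 : ℝ) ^ k)⁻¹ ≤ 1 := inv_le_one_of_one_le₀ (one_le_pow₀ (by norm_num))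
  have h4 : (n : ℝ) * ((2 : ℝ) ^ k)⁻¹ ≤ n * 1 := mul_le_mul_of_nonneg_left h3 (Nat.cast_nonneg n)
  linarith

/-! ### `Agr`, `ms` -/

variable {Nm Ex : Type}

theorem tr_geo_agr_union (S : ISys Nm Ex) (A B : Finset Nm) (ω ω' : S.Ω) :
    S.Agr (A ∪ B) ω ω' ↔ S.Agr A ω ω' ∧ S.Agr B ω ω' := by
  exact tr_agr_union S A B ω ω'

theorem tr_geo_agr_singleton (S : ISys Nm Ex) (a : Nm) (ω ω' : S.Ω) : S.Agr {a} ω ω' ↔ S.ob a ω = S.ob a ω' := by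
  simp [ISys.Agr]

theorem tr_geo_agr_symm (S : ISys Nm Ex) (A : Finset Nm) (ω ω' : S.Ω) (h : S.Agr A ω ω') : S.Agr A ω' ω :=
  fun a ha => (h a ha).symm

theorem tr_geo_agr_trans (S : ISys Nm Ex) (A : Finset Nm) (ω ω' ω'' : S.Ω) (h : S.Agr A ω ω') (h' : S.Agr A ω' ω'') : S.Agr A ω ω'' :=
  fun a ha => (h a ha).trans (h' a ha)

theorem tr_geo_agr_mono (S : ISys Nm Ex) (A B : Finset Nm) (hAB : A ⊆ B) (ω ω' : S.Ω) (h : S.Agr B ω ω') : S.Agr A ω ω' :=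
  fun a ha => h a (hAB ha)

/-- the mass of the joint label is the probability of agreement -/
theorem tr_geo_ms_eq (S : ISys Nm Ex) (A : Finset Nm) (ω : S.Ω) : S.ms A ω = S.P.pr (fun ω' => S.Agr A ω' ω) := by
  unfold ISys.ms FLaw.fib
  have : (fun ω' => S.jo A ω' = S.jo A ω) = (fun ω' => S.Agr A ω' ω) := funext fun ω' => propext (tr_jo_eq_iff S A ω' ω)
  rw [this]

theorem tr_geo_ms_empty (S : ISys Nm Ex) (ω : S.Ω) : S.ms ∅ ω = 1 := by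
  rw [tr_geo_ms_eq]
  have : (fun ω' => S.Agr ∅ ω' ω) = fun _ => True := funext fun ω' => propext ⟨fun _ => trivial, fun _ a ha => absurd ha (Finset.notMem_empty a)⟩
  rw [this]
  unfold FLaw.pr
  simp only [if_true]
  exact S.P.sum_one

/-! ### counting labels -/

theorem tr_geo_cnt_mono (S : ISys Nm Ex) (E E' : S.Ω → Prop) (A : Finset Nm) (K K' : ℝ) (hE : ∀ ω, E' ω → E ω) (hK : K ≤ K')
    (h : S.Cnt E A K) : S.Cnt E' A K' :=
  fun F hF hinj => (h F (fun ω hω => hE ω (hF ω hω)) hinj).trans hK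

/-- determined labels -/
theorem tr_geo_cnt_one (S : ISys Nm Ex) (E : S.Ω → Prop) (A : Finset Nm) (h : ∀ ω ω', E ω → E ω' → S.Agr A ω ω') : S.Cnt E A 1 := by
  intro F hF hinj
  have : F.card ≤ 1 := Finset.card_le_one.2 fun ω hω ω' hω' => hinj ω hω ω' hω' (h ω ω' (hF ω hω) (hF ω' hω'))
  exact_mod_cast this

/-- the labels are a function of a variable with values in a finite type -/
theorem tr_geo_cnt_card (S : ISys Nm Ex) (E : S.Ω → Prop) (A : Finset Nm) {β : Type} [Fintype β] (f : S.Ω → β)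
    (h : ∀ ω ω', E ω → E ω' → f ω = f ω' → S.Agr A ω ω') : S.Cnt E A (Fintype.card β) := by
  intro F hF hinj
  have : F.card ≤ (Finset.univ : Finset β).card := Finset.card_le_card_of_injOn f (fun _ _ => Finset.mem_univ _)
    (fun ω hω ω' hω' hff => hinj ω hω ω' hω' (h ω ω' (hF ω hω) (hF ω' hω') hff))
  rw [Finset.card_univ] at this
  exact_mod_cast this

theorem tr_geo_Icc_card (a lam : ℝ) (h : 0 ≤ lam) : ((Finset.Icc ⌊a - lam⌋ ⌊a + lam⌋).card : ℝ) ≤ 2 * lam + 2 := by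
  rw [Int.card_Icc]
  have h1 : ⌊a - lam⌋ ≤ ⌊a + lam⌋ := Int.floor_mono (by linarith)
  have h2 : (0 : ℤ) ≤ ⌊a + lam⌋ + 1 - ⌊a - lam⌋ := by omega
  have h3 : (((⌊a + lam⌋ + 1 - ⌊a - lam⌋).toNat : ℕ) : ℝ) = ((⌊a + lam⌋ + 1 - ⌊a - lam⌋ : ℤ) : ℝ) := by
    have := Int.toNat_of_nonneg h2
    exact_mod_cast this
  rw [h3]
  push_cast
  have h4 := Int.floor_le (a + lam)
  have h5 := Int.lt_floor_add_one (a - lam)
  linarith

theorem tr_geo_floor_mem (a b lam : ℝ) (h : |b - a| ≤ lam) : ⌊b⌋ ∈ Finset.Icc ⌊a - lam⌋ ⌊a + lam⌋ := by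
  rw [abs_le] at h
  exact Finset.mem_Icc.2 ⟨Int.floor_mono (by linarith [h.1]), Int.floor_mono (by linarith [h.2])⟩

/-- **box count**.  The labels of `A` are determined by the floors of the reals `g ω j` (`j : J`), and on `E` the real `g · j` varies by at most `lam j`.
PLAN: `F = ∅` trivial; else fix `ω₁ ∈ F`; `ω ↦ (⌊g ω j⌋)_j` is injective on `F` with values in `Fintype.piFinset (fun j => Finset.Icc ⌊g ω₁ j - lam j⌋ ⌊g ω₁ j + lam j⌋)`;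
`Int.card_Icc`, `⌊a + lam⌋ + 1 - ⌊a - lam⌋ ≤ 2 lam + 2`; `Fintype.card_piFinset`, `Finset.prod_le_prod`. -/
theorem tr_geo_cnt_box (S : ISys Nm Ex) (E : S.Ω → Prop) (A : Finset Nm) {J : Type} [Fintype J] (g : S.Ω → J → ℝ) (lam : J → ℝ)
    (hlam : ∀ j, 0 ≤ lam j)
    (hA : ∀ ω ω', E ω → E ω' → (∀ j, ⌊g ω j⌋ = ⌊g ω' j⌋) → S.Agr A ω ω')
    (hd : ∀ ω ω', E ω → E ω' → ∀ j, |g ω j - g ω' j| ≤ lam j) : S.Cnt E A (∏ j, (2 * lam j + 2)) := by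
  intro F hF hinj
  rcases F.eq_empty_or_nonempty with rfl | ⟨ω₁, hω₁⟩
  · simp only [Finset.card_empty, Nat.cast_zero]
    exact Finset.prod_nonneg fun j _ => by linarith [hlam j]
  have h1 : F.card ≤ (Fintype.piFinset fun j => Finset.Icc ⌊g ω₁ j - lam j⌋ ⌊g ω₁ j + lam j⌋).card := by
    refine Finset.card_le_card_of_injOn (fun ω j => ⌊g ω j⌋) ?_ ?_
    · intro ω hω
      exact Fintype.mem_piFinset.2 fun j => tr_geo_floor_mem _ _ _ (hd ω ω₁ (hF ω hω) (hF ω₁ hω₁) j)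
    · intro ω hω ω' hω' hff
      exact hinj ω hω ω' hω' (hA ω ω' (hF ω hω) (hF ω' hω') fun j => congrFun hff j)
  rw [Fintype.card_piFinset] at h1
  calc (F.card : ℝ) ≤ ((∏ j, (Finset.Icc ⌊g ω₁ j - lam j⌋ ⌊g ω₁ j + lam j⌋).card : ℕ) : ℝ) := by exact_mod_cast h1
    _ = ∏ j, ((Finset.Icc ⌊g ω₁ j - lam j⌋ ⌊g ω₁ j + lam j⌋).card : ℝ) := by push_cast; rfl
    _ ≤ ∏ j, (2 * lam j + 2) := Finset.prod_le_prod (fun _ _ => Nat.cast_nonneg _) fun j _ => tr_geo_Icc_card _ _ (hlam j)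

/-- **fibred count**.  First the integer label `⌊y⌋` (at most `2 lam + 2` values), then at most `K` labels of `A` for each value.
PLAN: `Finset.card_eq_sum_card_image (fun ω => ⌊y ω⌋) F`, every fibre has `≤ K` elements, the image lies in an `Icc` as in `tr_geo_cnt_box`. -/
theorem tr_geo_cnt_fib (S : ISys Nm Ex) (E : S.Ω → Prop) (A : Finset Nm) (y : S.Ω → ℝ) (lam K : ℝ) (hlam : 0 ≤ lam) (hK : 0 ≤ K)
    (hy : ∀ ω ω', E ω → E ω' → |y ω - y ω'| ≤ lam)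
    (h : ∀ b : ℤ, S.Cnt (fun ω => E ω ∧ ⌊y ω⌋ = b) A K) : S.Cnt E A ((2 * lam + 2) * K) := by
  intro F hF hinj
  rcases F.eq_empty_or_nonempty with rfl | ⟨ω₁, hω₁⟩
  · simp only [Finset.card_empty, Nat.cast_zero]
    positivity
  have h1 : ((F.image fun ω => ⌊y ω⌋).card : ℝ) ≤ 2 * lam + 2 := by
    refine le_trans ?_ (tr_geo_Icc_card (y ω₁) lam hlam)
    have : (F.image fun ω => ⌊y ω⌋).card ≤ (Finset.Icc ⌊y ω₁ - lam⌋ ⌊y ω₁ + lam⌋).card := by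
      refine Finset.card_le_card ?_
      intro b hb
      obtain ⟨ω, hω, rfl⟩ := Finset.mem_image.1 hb
      exact tr_geo_floor_mem _ _ _ (hy ω ω₁ (hF ω hω) (hF ω₁ hω₁))
    exact_mod_cast this
  have h2 : ∀ b ∈ F.image fun ω => ⌊y ω⌋, ((F.filter fun ω => ⌊y ω⌋ = b).card : ℝ) ≤ K := by
    intro b _
    refine h b _ ?_ ?_
    · intro ω hω
      rw [Finset.mem_filter] at hω
      exact ⟨hF ω hω.1, hω.2⟩
    · intro ω hω ω' hω' hag
      exact hinj ω (Finset.mem_filter.1 hω).1 ω' (Finset.mem_filter.1 hω').1 hag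
  rw [Finset.card_eq_sum_card_image (fun ω => ⌊y ω⌋) F]
  push_cast
  calc ∑ b ∈ F.image fun ω => ⌊y ω⌋, ((F.filter fun ω => ⌊y ω⌋ = b).card : ℝ) ≤ ∑ _b ∈ F.image fun ω => ⌊y ω⌋, K := Finset.sum_le_sum h2
    _ = ((F.image fun ω => ⌊y ω⌋).card : ℝ) * K := by rw [Finset.sum_const, nsmul_eq_mul]
    _ ≤ (2 * lam + 2) * K := mul_le_mul_of_nonneg_right h1 hK

end Claimed.Agent.R257.TR
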