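import Claimed.Agent.R257.TR.Lin

/-!
# R257 / TR / GeoB : shared API of the FACTS, part B: linear algebra of `bmap`, `coord`, `Trv`; H Lemma t:rank      (chief FACTS: helper84)

PAPER-FREE.  `bmap ξ c = ∑ c_i vdir (ξ_i)`.  Under `Trv Q ξ` it is a linear bijection `ℝ^{n+1} → ST n`, `coord ξ` is its inverse and `∑ |coord ξ z i| ≤ Q (‖z.1‖/2 + |z.2|)`.
No determinant, no Cramer rule, no singular value:
* perturbation of the basis: `tr_geo_trv_perturb`, `tr_geo_coord_perturb`;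
* replacement (`ζ` may replace `ξ_i` in the basis) bounds the `i`-th coefficient of `vdir ζ` from below: `tr_geo_repl_low`;
* t:rank is an IDENTITY (`tr_geo_rank`): if `ζ = ∑ α_l ξ_l`, `ζ' = ∑ α'_l ξ_l` (`∑ α = ∑ α' = 1`) then `ζ - ζ' - α_i (θ_j (ξ_j - ζ') + θ_k (ξ_k - ζ'))` lies in the span of the `n - 2` vectors `ξ_l - ζ'`, `l ∉ {i,j,k}`,
  where `θ_j = α_j/α_i - α'_j/α'_i`; and `n - 2` vectors of `E n` have an orthonormal pair orthogonal to them (`tr_geo_orth_pair`).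
-/

set_option autoImplicit false

namespace Claimed.Agent.R257.TR

open Claimed.Agent.R255 Claimed.Agent.R257 MeasureTheory Filter Topology
open scoped BigOperators ENNReal InnerProductSpace
open Classical

variable {n : ℕ}

/-! ### `bmap` -/

theorem tr_geo_bmap_add (ξ : Fin (n + 1) → E n) (c c' : Fin (n + 1) → ℝ) : bmap ξ (c + c') = bmap ξ c + bmap ξ c' := by
  exact tr_lin_bmap_add ξ c c'

theorem tr_geo_bmap_sub (ξ : Fin (n + 1) → E n) (c c' : Fin (n + 1) → ℝ) : bmap ξ (c - c') = bmap ξ c - bmap ξ c' := by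
  exact tr_lin_bmap_sub ξ c c'

theorem tr_geo_bmap_smul (ξ : Fin (n + 1) → E n) (a : ℝ) (c : Fin (n + 1) → ℝ) : bmap ξ (a • c) = a • bmap ξ c := by
  exact tr_lin_bmap_smul ξ a c

theorem tr_geo_bmap_single (ξ : Fin (n + 1) → E n) (i : Fin (n + 1)) : bmap ξ (Pi.single i 1) = vdir (ξ i) := by
  exact tr_lin_bmap_single ξ i

theorem tr_geo_bmap_eq (ξ : Fin (n + 1) → E n) (c : Fin (n + 1) → ℝ) : bmap ξ c = ∑ i, c i • vdir (ξ i) := by
  unfold bmap vdir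
  ext1
  · simp only [Prod.smul_mk, Prod.fst_sum, smul_smul]
    refine Finset.sum_congr rfl fun i _ => ?_
    congr 1; ring
  · simp [Prod.snd_sum]

/-- upper bound of `bmap` -/
theorem tr_geo_bmap_bound (ξ : Fin (n + 1) → E n) (R : ℝ) (hR : ∀ i, ‖ξ i‖ ≤ R) (c : Fin (n + 1) → ℝ) :
    ‖(bmap ξ c).1‖ ≤ 2 * R * ∑ i, |c i| ∧ |(bmap ξ c).2| ≤ ∑ i, |c i| := by
  constructor
  · show ‖∑ i, (2 * c i) • ξ i‖ ≤ _
    refine (norm_sum_le _ _).trans ?_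
    rw [Finset.mul_sum]
    refine Finset.sum_le_sum fun i _ => ?_
    rw [norm_smul, Real.norm_eq_abs, abs_mul, abs_two]
    have := mul_le_mul_of_nonneg_left (hR i) (abs_nonneg (c i))
    nlinarith
  · show |∑ i, c i| ≤ _
    exact Finset.abs_sum_le_sum_abs _ _

/-! ### `Trv` -/

theorem tr_geo_trv_pos (Q : ℝ) (ξ : Fin (n + 1) → E n) (h : Trv Q ξ) : 0 < Q := by
  exact tr_lin_Q_pos h

theorem tr_geo_trv_mono (Q Q' : ℝ) (ξ : Fin (n + 1) → E n) (h : Trv Q ξ) (hQ : Q ≤ Q') : Trv Q' ξ := by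
  intro t
  refine (h t).trans ?_
  gcongr

/-- lower bound of `bmap` -/
theorem tr_geo_trv_low (Q : ℝ) (ξ : Fin (n + 1) → E n) (h : Trv Q ξ) (c : Fin (n + 1) → ℝ) :
    ∑ i, |c i| ≤ Q * (‖(bmap ξ c).1‖ / 2 + |(bmap ξ c).2|) := by
  exact tr_lin_le_bmap h c

/-- PLAN: injective by `tr_geo_trv_low` and linearity; package `bmap ξ` as a `LinearMap` and use `LinearMap.injective_iff_surjective_of_finrank_eq_finrank` (`finrank (Fin (n+1) → ℝ) = n + 1 = finrank (E n × ℝ)`). -/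
theorem tr_geo_bmap_bij (Q : ℝ) (ξ : Fin (n + 1) → E n) (h : Trv Q ξ) : Function.Bijective (bmap ξ) := by
  exact ⟨tr_lin_inj h, tr_lin_surj h⟩

theorem tr_geo_coord_right (Q : ℝ) (ξ : Fin (n + 1) → E n) (h : Trv Q ξ) (z : ST n) : bmap ξ (coord ξ z) = z := by
  exact tr_lin_bmap_coord h z

theorem tr_geo_coord_left (Q : ℝ) (ξ : Fin (n + 1) → E n) (h : Trv Q ξ) (c : Fin (n + 1) → ℝ) : coord ξ (bmap ξ c) = c := by
  exact tr_lin_coord_bmap h c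

theorem tr_geo_coord_add (Q : ℝ) (ξ : Fin (n + 1) → E n) (h : Trv Q ξ) (z z' : ST n) : coord ξ (z + z') = coord ξ z + coord ξ z' := by
  exact tr_lin_coord_add h z z'

theorem tr_geo_coord_sub (Q : ℝ) (ξ : Fin (n + 1) → E n) (h : Trv Q ξ) (z z' : ST n) : coord ξ (z - z') = coord ξ z - coord ξ z' := by
  exact tr_lin_coord_sub h z z'

theorem tr_geo_coord_smul (Q : ℝ) (ξ : Fin (n + 1) → E n) (h : Trv Q ξ) (a : ℝ) (z : ST n) : coord ξ (a • z) = a • coord ξ z := by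
  exact tr_lin_coord_smul h a z

theorem tr_geo_coord_vdir (Q : ℝ) (ξ : Fin (n + 1) → E n) (h : Trv Q ξ) (i : Fin (n + 1)) : coord ξ (vdir (ξ i)) = Pi.single i 1 := by
  exact tr_lin_coord_vdir h i

/-- the coefficients of `vdir ζ`: `ζ = ∑ α_l ξ_l`, `∑ α_l = 1` -/
theorem tr_geo_coord_vdir_spec (Q : ℝ) (ξ : Fin (n + 1) → E n) (h : Trv Q ξ) (ζ : E n) :
    ∑ l, coord ξ (vdir ζ) l • ξ l = ζ ∧ ∑ l, coord ξ (vdir ζ) l = 1 := by
  exact ⟨tr_lin_vdir_fst h ζ, tr_lin_vdir_snd h ζ⟩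

/-- **norm of the inverse** -/
theorem tr_geo_coord_bound (Q : ℝ) (ξ : Fin (n + 1) → E n) (h : Trv Q ξ) (z : ST n) :
    ∑ i, |coord ξ z i| ≤ Q * (‖z.1‖ / 2 + |z.2|) := by
  exact tr_lin_coord_sum h z

/-- one coordinate -/
theorem tr_geo_coord_bound_one (Q : ℝ) (ξ : Fin (n + 1) → E n) (h : Trv Q ξ) (z : ST n) (i : Fin (n + 1)) :
    |coord ξ z i| ≤ Q * (‖z.1‖ / 2 + |z.2|) := by
  exact tr_lin_coord_le h z i

/-- **perturbation of a transverse family**: `∑|t| ≤ Q(‖∑ t ξ'‖ + d ∑|t| + |∑ t|)` and `Q d ≤ 1/2` -/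
theorem tr_geo_trv_perturb (Q d : ℝ) (ξ ξ' : Fin (n + 1) → E n) (h : Trv Q ξ) (hd : ∀ i, ‖ξ' i - ξ i‖ ≤ d) (hQd : Q * d ≤ 1 / 2) :
    Trv (2 * Q) ξ' := by
  exact tr_lin_pert h (fun i => by rw [norm_sub_rev]; exact hd i) hQd

/-- **perturbation of the coordinates**: `bmap ξ' (c' - c) = bmap ξ c - bmap ξ' c = (∑ 2 c_i (ξ_i - ξ'_i), 0)` -/
theorem tr_geo_coord_perturb (Q d : ℝ) (ξ ξ' : Fin (n + 1) → E n) (h : Trv Q ξ) (h' : Trv Q ξ') (hd : ∀ i, ‖ξ' i - ξ i‖ ≤ d) (z : ST n) :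
    ∑ i, |coord ξ' z i - coord ξ z i| ≤ Q * d * ∑ i, |coord ξ z i| := by
  exact tr_lin_two_bases h h' (fun i => by rw [norm_sub_rev]; exact hd i) z

/-- **replacement transversality bounds the normalising coefficient from below**.  With `α = coord ξ (vdir ζ)` apply `h'` to `t_i = 1`, `t_k = - α_k` (`k ≠ i`):
`∑ t_k ξ''_k = α_i ξ_i`, `∑ t_k = α_i`, hence `1 ≤ 1 + ∑_{k≠i} |α_k| ≤ Q (R + 1) |α_i|`. -/
theorem tr_geo_repl_low (Q R : ℝ) (ξ : Fin (n + 1) → E n) (i : Fin (n + 1)) (ζ : E n) (h : Trv Q ξ) (h' : Trv Q (Function.update ξ i ζ))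
    (hR : ‖ξ i‖ ≤ R) : 1 ≤ Q * (R + 1) * |coord ξ (vdir ζ) i| := by
  have h1 := tr_lin_repl h i ζ h' hR
  have h2 : 0 ≤ ∑ k ∈ Finset.univ.erase i, |coord ξ (vdir ζ) k| := Finset.sum_nonneg fun k _ => abs_nonneg _
  linarith

/-! ### H Lemma t:rank -/

/-- **t:rank as an identity**.  With `λ = α_i/α'_i`, `c_l = α_l - λ α'_l` (`l ∉ {i,j,k}`) the displayed vector equals `∑ c_l (ξ_l - ζ')`. -/
theorem tr_geo_rank (ξ : Fin (n + 1) → E n) (i j k : Fin (n + 1)) (hj : j ≠ i) (hk : k ≠ i) (hjk : j ≠ k) (α α' : Fin (n + 1) → ℝ)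
    (hα : ∑ l, α l = 1) (hα' : ∑ l, α' l = 1) (h0 : α i ≠ 0) (h0' : α' i ≠ 0) :
    (∑ l, α l • ξ l) - (∑ l, α' l • ξ l)
      - α i • ((α j / α i - α' j / α' i) • (ξ j - ∑ l, α' l • ξ l) + (α k / α i - α' k / α' i) • (ξ k - ∑ l, α' l • ξ l))
      ∈ Submodule.span ℝ (Set.range (fun l : {l : Fin (n + 1) // l ≠ i ∧ l ≠ j ∧ l ≠ k} => ξ l - ∑ l, α' l • ξ l)) := by
  set ζ' := ∑ l, α' l • ξ l with hζ'
  set lam := α i / α' i with hlam
  have h1 : ∑ l, (α l - lam * α' l) • (ξ l - ζ') = (∑ l, α l • ξ l) - ζ' := by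
    have e : ∀ l, (α l - lam * α' l) • (ξ l - ζ')
        = α l • ξ l - lam • (α' l • ξ l) - α l • ζ' + lam • (α' l • ζ') := by
      intro l
      rw [sub_smul, smul_sub, smul_sub, mul_smul, mul_smul]
      abel
    simp only [e, Finset.sum_add_distrib, Finset.sum_sub_distrib, ← Finset.smul_sum, ← Finset.sum_smul,
      hα, hα', one_smul, ← hζ']
    abel
  have hji : j ∈ (Finset.univ : Finset (Fin (n + 1))).erase i := Finset.mem_erase.2 ⟨hj, Finset.mem_univ _⟩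
  have hkij : k ∈ ((Finset.univ : Finset (Fin (n + 1))).erase i).erase j :=
    Finset.mem_erase.2 ⟨hjk.symm, Finset.mem_erase.2 ⟨hk, Finset.mem_univ _⟩⟩
  rw [← Finset.add_sum_erase _ _ (Finset.mem_univ i), ← Finset.add_sum_erase _ _ hji,
    ← Finset.add_sum_erase _ _ hkij] at h1
  have ci : α i - lam * α' i = 0 := by
    rw [hlam]; field_simp; ring
  have cj : α j - lam * α' j = α i * (α j / α i - α' j / α' i) := by
    rw [hlam]; field_simp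
  have ck : α k - lam * α' k = α i * (α k / α i - α' k / α' i) := by
    rw [hlam]; field_simp
  rw [ci, cj, ck, zero_smul, zero_add] at h1
  have key : (∑ l, α l • ξ l) - ζ'
      - α i • ((α j / α i - α' j / α' i) • (ξ j - ζ') + (α k / α i - α' k / α' i) • (ξ k - ζ'))
      = ∑ l ∈ (((Finset.univ : Finset (Fin (n + 1))).erase i).erase j).erase k,
          (α l - lam * α' l) • (ξ l - ζ') := by
    rw [← h1, smul_add, mul_smul, mul_smul]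
    abel
  rw [key]
  refine Submodule.sum_mem _ fun l hl => Submodule.smul_mem _ _ (Submodule.subset_span ?_)
  simp only [Finset.mem_erase, Finset.mem_univ, and_true] at hl
  exact ⟨⟨l, hl.2.2, hl.2.1, hl.1⟩, rfl⟩

/-- at most `n - 2` vectors of `E n` admit an orthonormal pair orthogonal to all of them.
PLAN: `W = span (range v)`, `finrank W ≤ card ι` (`finrank_range_le_card`), `Submodule.finrank_add_finrank_orthogonal`, so `2 ≤ finrank Wᗮ`; take two vectors of `stdOrthonormalBasis ℝ Wᗮ`. -/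
theorem tr_geo_orth_pair {ι : Type} [Fintype ι] (hι : Fintype.card ι + 2 ≤ n) (v : ι → E n) :
    ∃ a b : E n, ‖a‖ = 1 ∧ ‖b‖ = 1 ∧ ⟪a, b⟫_ℝ = 0 ∧ ∀ w ∈ Submodule.span ℝ (Set.range v), ⟪a, w⟫_ℝ = 0 ∧ ⟪b, w⟫_ℝ = 0 := by
  set V : Submodule ℝ (E n) := Submodule.span ℝ (Set.range v) with hV
  have h1 : Module.finrank ℝ V ≤ Fintype.card ι := finrank_range_le_card (R := ℝ) v
  have h2 : Module.finrank ℝ V + Module.finrank ℝ Vᗮ = n := by
    rw [Submodule.finrank_add_finrank_orthogonal, finrank_euclideanSpace_fin]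
  have h3 : 2 ≤ Module.finrank ℝ Vᗮ := by omega
  have hon := (stdOrthonormalBasis ℝ Vᗮ).orthonormal
  have hne : (⟨0, by omega⟩ : Fin (Module.finrank ℝ Vᗮ)) ≠ ⟨1, by omega⟩ := by
    simp [Fin.ext_iff]
  have hmem : ∀ (i : Fin (Module.finrank ℝ Vᗮ)), ∀ w ∈ V, ⟪((stdOrthonormalBasis ℝ Vᗮ) i : E n), w⟫_ℝ = 0 := by
    intro i w hw
    have hm := ((stdOrthonormalBasis ℝ Vᗮ) i).2
    rw [Submodule.mem_orthogonal] at hm
    rw [real_inner_comm]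
    exact hm _ hw
  refine ⟨((stdOrthonormalBasis ℝ Vᗮ) ⟨0, by omega⟩ : E n), ((stdOrthonormalBasis ℝ Vᗮ) ⟨1, by omega⟩ : E n),
    ?_, ?_, ?_, fun w hw => ⟨hmem _ w hw, hmem _ w hw⟩⟩
  · rw [← Submodule.coe_norm]
    exact hon.1 ⟨0, by omega⟩
  · rw [← Submodule.coe_norm]
    exact hon.1 ⟨1, by omega⟩
  · rw [← Submodule.coe_inner]
    exact hon.2 hne

theorem tr_geo_card_three (i j k : Fin (n + 1)) (hj : j ≠ i) (hk : k ≠ i) (hjk : j ≠ k) :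
    Fintype.card {l : Fin (n + 1) // l ≠ i ∧ l ≠ j ∧ l ≠ k} + 2 = n := by
  rw [Fintype.card_subtype]
  have e : (Finset.univ.filter fun l : Fin (n + 1) => l ≠ i ∧ l ≠ j ∧ l ≠ k)
      = (((Finset.univ : Finset (Fin (n + 1))).erase i).erase j).erase k := by
    ext l
    simp only [Finset.mem_filter, Finset.mem_univ, true_and, Finset.mem_erase, and_true]
    tauto
  have hji : j ∈ (Finset.univ : Finset (Fin (n + 1))).erase i := Finset.mem_erase.2 ⟨hj, Finset.mem_univ _⟩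
  have hkij : k ∈ ((Finset.univ : Finset (Fin (n + 1))).erase i).erase j :=
    Finset.mem_erase.2 ⟨hjk.symm, Finset.mem_erase.2 ⟨hk, Finset.mem_univ _⟩⟩
  have c1 := Finset.card_erase_add_one (Finset.mem_univ i)
  have c2 := Finset.card_erase_add_one hji
  have c3 := Finset.card_erase_add_one hkij
  rw [Finset.card_univ, Fintype.card_fin] at c1
  rw [e]
  omega

/-- one functional of the strip -/
theorem tr_geo_rank_strip_aux (R : ℝ) (a u v w d : E n) (ha : ‖a‖ = 1) (c s t A ρ : ℝ) (hu : ‖u‖ ≤ 2 * R) (hv : ‖v‖ ≤ 2 * R)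
    (hw : ⟪a, w⟫_ℝ = 0) (hd : d - c • (s • u + t • v) = w) (hc : |c| ≤ A) (hs : |s| ≤ ρ) (ht : |t| ≤ ρ) :
    |⟪a, d⟫_ℝ| ≤ 4 * R * A * ρ := by
  have e : d = w + c • (s • u + t • v) := by rw [← hd]; abel
  have hR : 0 ≤ 2 * R := (norm_nonneg u).trans hu
  have hρ : 0 ≤ ρ := (abs_nonneg s).trans hs
  have hA : 0 ≤ A := (abs_nonneg c).trans hc
  have iu : |⟪a, u⟫_ℝ| ≤ 2 * R := by
    have := abs_real_inner_le_norm a u
    rw [ha, one_mul] at this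
    exact this.trans hu
  have iv : |⟪a, v⟫_ℝ| ≤ 2 * R := by
    have := abs_real_inner_le_norm a v
    rw [ha, one_mul] at this
    exact this.trans hv
  rw [e, inner_add_right, hw, zero_add, inner_smul_right, inner_add_right, inner_smul_right, inner_smul_right, abs_mul]
  have h1 : |s * ⟪a, u⟫_ℝ + t * ⟪a, v⟫_ℝ| ≤ ρ * (2 * R) + ρ * (2 * R) := by
    refine (abs_add_le _ _).trans ?_
    rw [abs_mul, abs_mul]
    exact add_le_add (mul_le_mul hs iu (abs_nonneg _) hρ) (mul_le_mul ht iv (abs_nonneg _) hρ)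
  calc |c| * |s * ⟪a, u⟫_ℝ + t * ⟪a, v⟫_ℝ| ≤ A * (ρ * (2 * R) + ρ * (2 * R)) :=
        mul_le_mul hc h1 (abs_nonneg _) hA
    _ = 4 * R * A * ρ := by ring

/-- **t:rank, final form**: frequencies whose two ratios are `ρ`-close to those of `ζ'` lie in ONE codimension-two strip of width `4 R A ρ` (`A` bounds the normalising coefficient).
From `tr_geo_rank`, `tr_geo_orth_pair`, `tr_geo_coord_vdir_spec`; `a, b` depend only on `ξ, ζ', i, j, k`. -/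
theorem tr_geo_rank_strip (Q R : ℝ) (ξ : Fin (n + 1) → E n) (h : Trv Q ξ) (hR : ∀ l, ‖ξ l‖ ≤ R) (i j k : Fin (n + 1)) (hj : j ≠ i) (hk : k ≠ i) (hjk : j ≠ k)
    (ζ' : E n) (hζ' : ‖ζ'‖ ≤ R) (h0' : coord ξ (vdir ζ') i ≠ 0) :
    ∃ a b : E n, ‖a‖ = 1 ∧ ‖b‖ = 1 ∧ ⟪a, b⟫_ℝ = 0 ∧ ∀ (ζ : E n) (A ρ : ℝ), coord ξ (vdir ζ) i ≠ 0 → |coord ξ (vdir ζ) i| ≤ A →
      |coord ξ (vdir ζ) j / coord ξ (vdir ζ) i - coord ξ (vdir ζ') j / coord ξ (vdir ζ') i| ≤ ρ →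
      |coord ξ (vdir ζ) k / coord ξ (vdir ζ) i - coord ξ (vdir ζ') k / coord ξ (vdir ζ') i| ≤ ρ →
      |⟪a, ζ⟫_ℝ - ⟪a, ζ'⟫_ℝ| ≤ 4 * R * A * ρ ∧ |⟪b, ζ⟫_ℝ - ⟪b, ζ'⟫_ℝ| ≤ 4 * R * A * ρ := by
  obtain ⟨a, b, ha, hb, hab, hsp⟩ := tr_geo_orth_pair (n := n)
    (le_of_eq (tr_geo_card_three i j k hj hk hjk))
    (fun l : {l : Fin (n + 1) // l ≠ i ∧ l ≠ j ∧ l ≠ k} => ξ l - ζ')
  refine ⟨a, b, ha, hb, hab, ?_⟩
  intro ζ A ρ h0 hA hρj hρk
  obtain ⟨e1, e2⟩ := tr_geo_coord_vdir_spec Q ξ h ζ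
  obtain ⟨e1', e2'⟩ := tr_geo_coord_vdir_spec Q ξ h ζ'
  have hr := tr_geo_rank ξ i j k hj hk hjk (coord ξ (vdir ζ)) (coord ξ (vdir ζ')) e2 e2' h0 h0'
  rw [e1, e1'] at hr
  have hu : ∀ l, ‖ξ l - ζ'‖ ≤ 2 * R := fun l => by
    have := norm_sub_le (ξ l) ζ'
    have := hR l
    linarith
  rw [← inner_sub_right, ← inner_sub_right]
  exact ⟨tr_geo_rank_strip_aux R a _ _ _ _ ha _ _ _ A ρ (hu j) (hu k) (hsp _ hr).1 rfl hA hρj hρk,
    tr_geo_rank_strip_aux R b _ _ _ _ hb _ _ _ A ρ (hu j) (hu k) (hsp _ hr).2 rfl hA hρj hρk⟩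

end Claimed.Agent.R257.TR
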