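import Claimed.Agent.R257.TR.Good
import Claimed.Agent.R257.TR.GeoA
import Claimed.Agent.R257.TR.GeoB

/-!
# R257 / TR / GeoC : shared API of the FACTS, part C: the model      (chief FACTS: helper84)

* `M.er K = K L^{K ε}` THE error factor (every `L^{o(1)}` and every constant of the paper), `M.Sm K δ : er K ≤ L^δ` THE smallness condition; along a countersequence `Sm K δ` holds eventually for all `K`, `δ > 0` (`tr_geo_sm_ev`).
  CONVENTION for finite-scale facts:  `∃ K, 0 ≤ K ∧ ∀ c₁ Cτ M, M.Ok R₀ c₁ Cτ → … → M.Sm K bs → … ≤ M.er K * M.L ^ a`   (`K` depends on `n, R₀` only; the prover chooses it).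
* `tr_geo_agr_*`    what agreement on the named observations means
* `tr_geo_law_*`    the sampling law: positivity, marginals, conditional independence of one tube given everything else
* `tr_geo_trv_*`    transversality of exact, binned and replaced reference families
* `tr_geo_inc*`     incidence
* `tr_geo_strip*`   the strip law with a subpower enlargement; the strip law for two ratios (t:rank + (t:strip-law))
-/

set_option autoImplicit false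

namespace Claimed.Agent.R257.TR

open Claimed.Agent.R255 Claimed.Agent.R257 MeasureTheory Filter Topology
open scoped BigOperators ENNReal InnerProductSpace
open Classical

variable {n : ℕ}

/-! ### the error factor -/

/-- the error factor `K L^{K ε}` -/
noncomputable def TModel.er (M : TModel n) (K : ℝ) : ℝ := K * M.L ^ (K * M.ε)

/-- `L^δ` beats the error factor -/
def TModel.Sm (M : TModel n) (K δ : ℝ) : Prop := M.er K ≤ M.L ^ δ

variable {M : TModel n} {R₀ c₁ Cτ : ℝ}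

theorem tr_geo_er_nonneg (hM : M.Ok R₀ c₁ Cτ) (K : ℝ) (hK : 0 ≤ K) : 0 ≤ M.er K := by
  have hL : 0 < M.L := by linarith [hM.L_ge]
  unfold TModel.er
  positivity

theorem tr_geo_er_mono (hM : M.Ok R₀ c₁ Cτ) (K K' : ℝ) (hK : 0 ≤ K) (h : K ≤ K') : M.er K ≤ M.er K' := by
  have hL : 1 ≤ M.L := by linarith [hM.L_ge]
  have hL0 : 0 < M.L := by linarith
  unfold TModel.er
  refine mul_le_mul h (Real.rpow_le_rpow_of_exponent_le hL (mul_le_mul_of_nonneg_right h hM.ε_pos.le)) (by positivity) (hK.trans h)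

/-- how to bound by an error factor -/
theorem tr_geo_er_le (hM : M.Ok R₀ c₁ Cτ) (C k K : ℝ) (hC : 0 ≤ C) (hCK : C ≤ K) (hk : k ≤ K) : C * M.L ^ (k * M.ε) ≤ M.er K := by
  have hL : 1 ≤ M.L := by linarith [hM.L_ge]
  have hL0 : 0 < M.L := by linarith
  unfold TModel.er
  refine mul_le_mul hCK (Real.rpow_le_rpow_of_exponent_le hL (mul_le_mul_of_nonneg_right hk hM.ε_pos.le)) (by positivity) (hC.trans hCK)

/-- constants -/
theorem tr_geo_er_const (hM : M.Ok R₀ c₁ Cτ) (C K : ℝ) (hK : 0 ≤ K) (hCK : C ≤ K) : C ≤ M.er K := by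
  have hL : 1 ≤ M.L := by linarith [hM.L_ge]
  unfold TModel.er
  have h1 : 1 ≤ M.L ^ (K * M.ε) := Real.one_le_rpow hL (mul_nonneg hK hM.ε_pos.le)
  nlinarith

theorem tr_geo_er_mul (hM : M.Ok R₀ c₁ Cτ) (K K' : ℝ) (hK : 0 ≤ K) (hK' : 0 ≤ K') : M.er K * M.er K' ≤ M.er (K * K' + K + K') := by
  have hL0 : 0 < M.L := by linarith [hM.L_ge]
  have h1 : M.er K * M.er K' = (K * K') * M.L ^ ((K + K') * M.ε) := by
    unfold TModel.er
    rw [add_mul, Real.rpow_add hL0]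
    ring
  rw [h1]
  have h2 : 0 ≤ K * K' := mul_nonneg hK hK'
  exact tr_geo_er_le hM _ _ _ h2 (by linarith) (by linarith)

theorem tr_geo_er_add (hM : M.Ok R₀ c₁ Cτ) (K K' : ℝ) (hK : 0 ≤ K) (hK' : 0 ≤ K') : M.er K + M.er K' ≤ M.er (K + K') := by
  have h1 := tr_geo_er_le hM K K (K + K') hK (by linarith) (by linarith)
  have hL : 1 ≤ M.L := by linarith [hM.L_ge]
  have hL0 : 0 < M.L := by linarith
  unfold TModel.er
  have h2 : M.L ^ (K * M.ε) ≤ M.L ^ ((K + K') * M.ε) :=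
    Real.rpow_le_rpow_of_exponent_le hL (mul_le_mul_of_nonneg_right (by linarith) hM.ε_pos.le)
  have h3 : M.L ^ (K' * M.ε) ≤ M.L ^ ((K + K') * M.ε) :=
    Real.rpow_le_rpow_of_exponent_le hL (mul_le_mul_of_nonneg_right (by linarith) hM.ε_pos.le)
  nlinarith

theorem tr_geo_er_pow (hM : M.Ok R₀ c₁ Cτ) (K : ℝ) (hK : 0 ≤ K) (m : ℕ) : M.er K ^ m ≤ M.er (K ^ m + m * K) := by
  have hL0 : 0 < M.L := by linarith [hM.L_ge]
  have h1 : M.er K ^ m = K ^ m * M.L ^ ((m * K) * M.ε) := by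
    unfold TModel.er
    rw [mul_pow, ← Real.rpow_natCast (M.L ^ (K * M.ε)), ← Real.rpow_mul hL0.le]
    congr 2
    ring
  rw [h1]
  have h2 : 0 ≤ K ^ m := pow_nonneg hK m
  have h3 : 0 ≤ (m : ℝ) * K := mul_nonneg (Nat.cast_nonneg m) hK
  exact tr_geo_er_le hM _ _ _ h2 (by linarith) (by linarith)

theorem tr_geo_sm_mono (hM : M.Ok R₀ c₁ Cτ) (K K' δ δ' : ℝ) (hK : 0 ≤ K') (h : K' ≤ K) (hδ : δ ≤ δ') (hs : M.Sm K δ) : M.Sm K' δ' := by
  have hL : 1 ≤ M.L := by linarith [hM.L_ge]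
  exact ((tr_geo_er_mono hM K' K hK h).trans hs).trans (Real.rpow_le_rpow_of_exponent_le hL hδ)

/-- how to use `Sm` -/
theorem tr_geo_sm_use (hM : M.Ok R₀ c₁ Cτ) (C k K δ : ℝ) (hC : 0 ≤ C) (hCK : C ≤ K) (hk : k ≤ K) (hs : M.Sm K δ) :
    C * M.L ^ (k * M.ε) ≤ M.L ^ δ :=
  (tr_geo_er_le hM C k K hC hCK hk).trans hs

theorem tr_geo_L_pos (hM : M.Ok R₀ c₁ Cτ) : 0 < M.L := by
  have := hM.L_ge
  linarith

theorem tr_geo_one_le_Q (hM : M.Ok R₀ c₁ Cτ) : 1 ≤ M.L ^ M.ε := by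
  exact Real.one_le_rpow (by linarith [hM.L_ge]) hM.ε_pos.le

/-- `τ` is nonempty and `R₀ ≥ 0` -/
theorem tr_geo_R_nonneg (hM : M.Ok R₀ c₁ Cτ) : 0 ≤ R₀ := by
  obtain ⟨x⟩ := M.neπ
  have h1 := M.κ_sum 0 x
  have hne : Nonempty M.τ := by
    by_contra hemp
    rw [not_nonempty_iff] at hemp
    rw [Finset.univ_eq_empty, Finset.sum_empty] at h1
    exact zero_ne_one h1
  obtain ⟨T⟩ := hne
  exact (norm_nonneg _).trans (hM.fr_bd 0 T)

/-- number of points -/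
theorem tr_geo_card_hi (hM : M.Ok R₀ c₁ Cτ) : (Fintype.card M.π : ℝ) ≤ M.L ^ ((n : ℝ) + M.ε) := by
  have hL : 1 ≤ M.L := by linarith [hM.L_ge]
  have h1 := hM.ball 0 1 (inv_le_one_of_one_le₀ hL) le_rfl
  rw [one_pow, mul_one] at h1
  refine le_trans (le_of_eq ?_) h1
  congr 1
  rw [Finset.filter_true_of_mem, Finset.card_univ]
  intro x _
  rw [mem_closedBall_zero_iff]
  exact hM.pos_bd x

/-- along a countersequence the smallness condition holds eventually.  (`K ε_m ≤ δ/2` eventually, `K ≤ L_m^{δ/2}` eventually; `uf_le_atTop`.) -/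
theorem tr_geo_sm_ev {M : ℕ → TModel n} (hM : TSeqOk M R₀ c₁ Cτ) (K δ : ℝ) (hδ : 0 < δ) : ∀ᶠ m in uf, (M m).Sm K δ := by
  have hev1 : ∀ᶠ m in atTop, K * (M m).ε < δ / 2 := by
    have h1 : Tendsto (fun m => K * (M m).ε) atTop (𝓝 (K * 0)) := hM.eps.const_mul K
    rw [mul_zero] at h1
    exact h1.eventually (gt_mem_nhds (by linarith))
  have hev2 : ∀ᶠ m in atTop, K ≤ (M m).L ^ (δ / 2) :=
    ((tendsto_rpow_atTop (by linarith : 0 < δ / 2)).comp hM.L_top).eventually_ge_atTop K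
  refine uf_le_atTop (hev1.and hev2 |>.mono ?_)
  rintro m ⟨h1, h2⟩
  have hL : 1 ≤ (M m).L := by linarith [(hM.ok m).L_ge]
  have hL0 : 0 < (M m).L := by linarith
  unfold TModel.Sm TModel.er
  have h3 : (M m).L ^ (K * (M m).ε) ≤ (M m).L ^ (δ / 2) := Real.rpow_le_rpow_of_exponent_le hL h1.le
  have h4 : 0 < (M m).L ^ (K * (M m).ε) := Real.rpow_pos_of_pos hL0 _
  have h5 : 0 < (M m).L ^ (δ / 2) := Real.rpow_pos_of_pos hL0 _
  calc K * (M m).L ^ (K * (M m).ε) ≤ (M m).L ^ (δ / 2) * (M m).L ^ (K * (M m).ε) := by gcongr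
    _ ≤ (M m).L ^ (δ / 2) * (M m).L ^ (δ / 2) := by gcongr
    _ = (M m).L ^ δ := by rw [← Real.rpow_add hL0]; congr 1; ring

/-- `er K L^{-δ} → 0` -/
theorem tr_geo_sm_tendsto {M : ℕ → TModel n} (hM : TSeqOk M R₀ c₁ Cτ) (K δ : ℝ) (hδ : 0 < δ) :
    Tendsto (fun m => (M m).er K * (M m).L ^ (-δ)) uf (𝓝 0) := by
  have h1 := tr_geo_sm_ev hM |K| (δ / 2) (by linarith)
  have h2 : Tendsto (fun m => (M m).L ^ (-(δ / 2))) uf (𝓝 0) :=
    ((tendsto_rpow_neg_atTop (by linarith : 0 < δ / 2)).comp hM.L_top).mono_left uf_le_atTop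
  refine squeeze_zero_norm' (h1.mono ?_) h2
  intro m hm
  have hL : 1 ≤ (M m).L := by linarith [(hM.ok m).L_ge]
  have hL0 : 0 < (M m).L := by linarith
  have h3 : 0 < (M m).L ^ (-δ) := Real.rpow_pos_of_pos hL0 _
  have h4 : 0 < (M m).L ^ (K * (M m).ε) := Real.rpow_pos_of_pos hL0 _
  unfold TModel.Sm at hm
  have h5 : ‖(M m).er K * (M m).L ^ (-δ)‖ ≤ (M m).er |K| * (M m).L ^ (-δ) := by
    unfold TModel.er
    rw [Real.norm_eq_abs, abs_mul, abs_mul, abs_of_pos h3, abs_of_pos h4]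
    have h6 : (M m).L ^ (K * (M m).ε) ≤ (M m).L ^ (|K| * (M m).ε) :=
      Real.rpow_le_rpow_of_exponent_le hL (mul_le_mul_of_nonneg_right (le_abs_self K) (hM.ok m).ε_pos.le)
    gcongr
  refine h5.trans ?_
  calc (M m).er |K| * (M m).L ^ (-δ) ≤ (M m).L ^ (δ / 2) * (M m).L ^ (-δ) := by gcongr
    _ = (M m).L ^ (-(δ / 2)) := by rw [← Real.rpow_add hL0]; congr 1; ring

/-! ### agreement on the named observations -/

theorem tr_geo_agr_X (M : TModel n) (s : ℚ) (ω ω' : M.Om) :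
    M.sys.Agr {TNm.X s} ω ω' ↔ cellL (sc M.L s) (M.pos ω.1) = cellL (sc M.L s) (M.pos ω'.1) := by
  exact tr_geo_agr_singleton M.sys (TNm.X s) ω ω'

theorem tr_geo_agr_T (M : TModel n) (i : Fin (n + 1)) (β : Bool) (ω ω' : M.Om) :
    M.sys.Agr {TNm.T i β} ω ω' ↔ ω.2 (i, β) = ω'.2 (i, β) := by
  exact tr_geo_agr_singleton M.sys (TNm.T i β) ω ω'

theorem tr_geo_agr_B (M : TModel n) (i : Fin (n + 1)) (β : Bool) (bs : ℚ) (ω ω' : M.Om) :
    M.sys.Agr {TNm.B i β bs} ω ω' ↔ binL (sc M.L bs) (M.fr i (ω.2 (i, β))) = binL (sc M.L bs) (M.fr i (ω'.2 (i, β))) := by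
  exact tr_geo_agr_singleton M.sys (TNm.B i β bs) ω ω'

theorem tr_geo_agr_Z (M : TModel n) (ρ : Rf n) (bs r : ℚ) (i : Fin (n + 1)) (ω ω' : M.Om) :
    M.sys.Agr {TNm.Z ρ bs r i} ω ω' ↔ ⌊(2 : ℝ) ^ (sc M.L r) * M.gc ρ bs ω i⌋ = ⌊(2 : ℝ) ^ (sc M.L r) * M.gc ρ bs ω' i⌋ := by
  exact tr_geo_agr_singleton M.sys (TNm.Z ρ bs r i) ω ω'

theorem tr_geo_agr_Pi (M : TModel n) (bs r : ℚ) (j : Fin (n + 1)) (ω ω' : M.Om) :
    M.sys.Agr {TNm.Pi bs r j} ω ω' ↔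
      ⌊(2 : ℝ) ^ (sc M.L r) * (M.gc (rf0 n) bs ω j - M.art bs j ω * M.gc (rf0 n) bs ω 0)⌋
        = ⌊(2 : ℝ) ^ (sc M.L r) * (M.gc (rf0 n) bs ω' j - M.art bs j ω' * M.gc (rf0 n) bs ω' 0)⌋ := by
  exact tr_geo_agr_singleton M.sys (TNm.Pi bs r j) ω ω'

theorem tr_geo_agr_nZ (M : TModel n) (ρ : Rf n) (bs r : ℚ) (A : Finset (Fin (n + 1))) (ω ω' : M.Om) :
    M.sys.Agr (nZ ρ bs r A) ω ω' ↔ ∀ i ∈ A, ⌊(2 : ℝ) ^ (sc M.L r) * M.gc ρ bs ω i⌋ = ⌊(2 : ℝ) ^ (sc M.L r) * M.gc ρ bs ω' i⌋ := by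
  constructor
  · intro h i hi
    exact h (TNm.Z ρ bs r i) (Finset.mem_image_of_mem _ hi)
  · intro h a ha
    obtain ⟨i, hi, rfl⟩ := Finset.mem_image.1 ha
    exact h i hi

/-- the reference bins determine the bin-defined basis -/
theorem tr_geo_agr_nD0 (M : TModel n) (ρ : Rf n) (bs : ℚ) (ω ω' : M.Om) (h : M.sys.Agr (nD0 ρ bs) ω ω') : M.rbin ρ bs ω = M.rbin ρ bs ω' := by
  funext i
  exact tr_geo_binR_congr _ _ _ (h (TNm.B i (ρ i) bs) (Finset.mem_image_of_mem _ (Finset.mem_univ i)))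

/-- `D₁` determines the basis, the representative of the bin of `T_0'` and the approximate ratios -/
theorem tr_geo_agr_nD1 (M : TModel n) (bs : ℚ) (ω ω' : M.Om) (h : M.sys.Agr (nD1 n bs) ω ω') :
    M.rbin (rf0 n) bs ω = M.rbin (rf0 n) bs ω' ∧
      binR (sc M.L bs) (M.fr 0 (ω.2 (0, true))) = binR (sc M.L bs) (M.fr 0 (ω'.2 (0, true))) ∧ ∀ j, M.art bs j ω = M.art bs j ω' := by
  obtain ⟨h1, h2⟩ := (tr_geo_agr_union M.sys _ _ ω ω').1 h
  have e1 := tr_geo_agr_nD0 M (rf0 n) bs ω ω' h1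
  have e2 : binR (sc M.L bs) (M.fr 0 (ω.2 (0, true))) = binR (sc M.L bs) (M.fr 0 (ω'.2 (0, true))) :=
    tr_geo_binR_congr _ _ _ ((tr_geo_agr_B M 0 true bs ω ω').1 h2)
  refine ⟨e1, e2, fun j => ?_⟩
  unfold TModel.art
  rw [e1, e2]

/-- count of cells: on `E` the positions vary by `lam₁ 2^{-k}` in space and `lam₂ 2^{-k}` in time (`tr_geo_cnt_box` with `J = Fin n ⊕ Unit`) -/
theorem tr_geo_cnt_cell (M : TModel n) (E : M.Om → Prop) (r : ℚ) (lam₁ lam₂ : ℝ) (h₁ : 0 ≤ lam₁) (h₂ : 0 ≤ lam₂)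
    (h : ∀ ω ω', E ω → E ω' → ‖(M.pos ω.1).1 - (M.pos ω'.1).1‖ ≤ lam₁ * ((2 : ℝ) ^ (sc M.L r))⁻¹ ∧
      |(M.pos ω.1).2 - (M.pos ω'.1).2| ≤ lam₂ * ((2 : ℝ) ^ (sc M.L r))⁻¹) :
    M.sys.Cnt E {TNm.X r} ((2 * lam₁ + 2) ^ n * (2 * lam₂ + 2)) := by
  have hk : (0 : ℝ) < (2 : ℝ) ^ (sc M.L r) := by positivity
  have h3 := tr_geo_cnt_box M.sys E {TNm.X r} (J := Fin n ⊕ Unit)
    (fun ω j => Sum.elim (fun i => (2 : ℝ) ^ (sc M.L r) * (M.pos ω.1).1 i) (fun _ => (2 : ℝ) ^ (sc M.L r) * (M.pos ω.1).2) j)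
    (fun j => Sum.elim (fun _ => lam₁) (fun _ => lam₂) j) (by rintro (j | j) <;> simpa) ?_ ?_
  · simpa [Fintype.prod_sum_type] using h3
  · intro (ω : M.Om) (ω' : M.Om) _ _ hj
    refine (tr_geo_agr_X M r ω ω').2 ?_
    unfold cellL
    refine Prod.ext (funext fun i => hj (Sum.inl i)) (hj (Sum.inr ()))
  · intro (ω : M.Om) (ω' : M.Om) hω hω' j
    obtain ⟨a1, a2⟩ := h ω ω' hω hω'
    rcases j with i | i
    · simp only [Sum.elim_inl]
      rw [← mul_sub, abs_mul, abs_of_pos hk]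
      have h4 : |(M.pos ω.1).1 i - (M.pos ω'.1).1 i| ≤ ‖(M.pos ω.1).1 - (M.pos ω'.1).1‖ := tr_geo_abs_le_norm ((M.pos ω.1).1 - (M.pos ω'.1).1) i
      calc (2 : ℝ) ^ (sc M.L r) * |(M.pos ω.1).1 i - (M.pos ω'.1).1 i| ≤ (2 : ℝ) ^ (sc M.L r) * (lam₁ * ((2 : ℝ) ^ (sc M.L r))⁻¹) :=
            mul_le_mul_of_nonneg_left (h4.trans a1) hk.le
        _ = lam₁ := by field_simp
    · simp only [Sum.elim_inr]
      rw [← mul_sub, abs_mul, abs_of_pos hk]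
      calc (2 : ℝ) ^ (sc M.L r) * |(M.pos ω.1).2 - (M.pos ω'.1).2| ≤ (2 : ℝ) ^ (sc M.L r) * (lam₂ * ((2 : ℝ) ^ (sc M.L r))⁻¹) :=
            mul_le_mul_of_nonneg_left a2 hk.le
        _ = lam₂ := by field_simp

/-- count of coordinate labels -/
theorem tr_geo_cnt_Z (M : TModel n) (E : M.Om → Prop) (ρ : Rf n) (bs r : ℚ) (A : Finset (Fin (n + 1))) (lam : ℝ) (h₁ : 0 ≤ lam)
    (h : ∀ ω ω', E ω → E ω' → ∀ i ∈ A, |M.gc ρ bs ω i - M.gc ρ bs ω' i| ≤ lam * ((2 : ℝ) ^ (sc M.L r))⁻¹) :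
    M.sys.Cnt E (nZ ρ bs r A) ((2 * lam + 2) ^ (n + 1)) := by
  have hk : (0 : ℝ) < (2 : ℝ) ^ (sc M.L r) := by positivity
  have h3 := tr_geo_cnt_box M.sys E (nZ ρ bs r A) (J := Fin (n + 1))
    (fun ω j => if j ∈ A then (2 : ℝ) ^ (sc M.L r) * M.gc ρ bs ω j else 0) (fun _ => lam) (fun _ => h₁) ?_ ?_
  · simpa using h3
  · intro (ω : M.Om) (ω' : M.Om) _ _ hj
    refine (tr_geo_agr_nZ M ρ bs r A ω ω').2 ?_
    intro i hi
    have := hj i
    simpa only [if_pos hi] using this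
  · intro (ω : M.Om) (ω' : M.Om) hω hω' j
    by_cases hj : j ∈ A
    · simp only [if_pos hj]
      rw [← mul_sub, abs_mul, abs_of_pos hk]
      calc (2 : ℝ) ^ (sc M.L r) * |M.gc ρ bs ω j - M.gc ρ bs ω' j| ≤ (2 : ℝ) ^ (sc M.L r) * (lam * ((2 : ℝ) ^ (sc M.L r))⁻¹) :=
            mul_le_mul_of_nonneg_left (h ω ω' hω hω' j hj) hk.le
        _ = lam := by field_simp
    · simp only [if_neg hj, sub_self, abs_zero]
      exact h₁

/-- count of projection labels -/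
theorem tr_geo_cnt_Pi (M : TModel n) (E : M.Om → Prop) (bs r : ℚ) (j : Fin (n + 1)) (lam : ℝ) (h₁ : 0 ≤ lam)
    (h : ∀ ω ω', E ω → E ω' → |(M.gc (rf0 n) bs ω j - M.art bs j ω * M.gc (rf0 n) bs ω 0)
      - (M.gc (rf0 n) bs ω' j - M.art bs j ω' * M.gc (rf0 n) bs ω' 0)| ≤ lam * ((2 : ℝ) ^ (sc M.L r))⁻¹) :
    M.sys.Cnt E {TNm.Pi bs r j} (2 * lam + 2) := by
  have hk : (0 : ℝ) < (2 : ℝ) ^ (sc M.L r) := by positivity
  have h3 := tr_geo_cnt_box M.sys E {TNm.Pi bs r j} (J := Unit)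
    (fun ω _ => (2 : ℝ) ^ (sc M.L r) * (M.gc (rf0 n) bs ω j - M.art bs j ω * M.gc (rf0 n) bs ω 0)) (fun _ => lam) (fun _ => h₁) ?_ ?_
  · simpa using h3
  · intro (ω : M.Om) (ω' : M.Om) _ _ hj
    exact (tr_geo_agr_Pi M bs r j ω ω').2 (hj ())
  · intro (ω : M.Om) (ω' : M.Om) hω hω' _
    rw [← mul_sub, abs_mul, abs_of_pos hk]
    calc _ ≤ (2 : ℝ) ^ (sc M.L r) * (lam * ((2 : ℝ) ^ (sc M.L r))⁻¹) := mul_le_mul_of_nonneg_left (h ω ω' hω hω') hk.le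
      _ = lam := by field_simp

/-! ### the sampling law -/

theorem tr_geo_law_pos (M : TModel n) (ω : M.Om) (h : 0 < M.law.p ω) (q : Fin (n + 1) × Bool) : 0 < M.κ q.1 ω.1 (ω.2 q) := by
  have h1 : M.κ q.1 ω.1 (ω.2 q) ≠ 0 := by
    intro h0
    have h2 : ∏ q : Fin (n + 1) × Bool, M.κ q.1 ω.1 (ω.2 q) = 0 := Finset.prod_eq_zero (Finset.mem_univ q) h0
    have h3 : M.law.p ω = (Fintype.card M.π : ℝ)⁻¹ * ∏ q : Fin (n + 1) × Bool, M.κ q.1 ω.1 (ω.2 q) := rfl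
    rw [h3, h2, mul_zero] at h
    exact lt_irrefl _ h
  exact lt_of_le_of_ne (M.κ_nonneg _ _ _) h1.symm

/-- splitting off one coordinate of the product law -/
theorem tr_geo_law_split (M : TModel n) (x : M.π) (q : Fin (n + 1) × Bool) (F : M.τ → ({j // j ≠ q} → M.τ) → ℝ) :
    ∑ T : Fin (n + 1) × Bool → M.τ, (∏ q' : Fin (n + 1) × Bool, M.κ q'.1 x (T q')) * F (T q) (fun j => T j)
      = ∑ r : {j // j ≠ q} → M.τ, (∏ j : {j // j ≠ q}, M.κ j.1.1 x (r j)) * ∑ t, M.κ q.1 x t * F t r := by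
  rw [Fintype.sum_equiv (Equiv.funSplitAt q M.τ)
    (fun T : Fin (n + 1) × Bool → M.τ => (∏ q' : Fin (n + 1) × Bool, M.κ q'.1 x (T q')) * F (T q) (fun j => T j))
    (fun z : M.τ × ({j // j ≠ q} → M.τ) => (M.κ q.1 x z.1 * ∏ j : {j // j ≠ q}, M.κ j.1.1 x (z.2 j)) * F z.1 z.2) ?_]
  · rw [Fintype.sum_prod_type_right]
    refine Finset.sum_congr rfl fun r _ => ?_
    rw [Finset.mul_sum]
    refine Finset.sum_congr rfl fun t _ => ?_
    ring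
  · intro T
    rw [Fintype.prod_eq_mul_prod_subtype_ne (fun q' : Fin (n + 1) × Bool => M.κ q'.1 x (T q')) q]
    rfl

/-- the remaining weights sum to one -/
theorem tr_geo_law_rest (M : TModel n) (x : M.π) (q : Fin (n + 1) × Bool) :
    ∑ r : {j // j ≠ q} → M.τ, ∏ j : {j // j ≠ q}, M.κ j.1.1 x (r j) = 1 := by
  have h2 := Finset.prod_univ_sum (fun _ : {j // j ≠ q} => (Finset.univ : Finset M.τ)) (fun j T => M.κ j.1.1 x T)
  rw [Fintype.piFinset_univ] at h2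
  rw [← h2]
  simp [M.κ_sum]

/-- the probability of an event, point by point -/
theorem tr_geo_law_pr (M : TModel n) (Ev : M.Om → Prop) :
    M.law.pr Ev = (Fintype.card M.π : ℝ)⁻¹ * ∑ x, ∑ T : Fin (n + 1) × Bool → M.τ, (∏ q' : Fin (n + 1) × Bool, M.κ q'.1 x (T q')) * (if Ev (x, T) then 1 else 0) := by
  unfold FLaw.pr
  rw [Fintype.sum_prod_type, Finset.mul_sum]
  refine Finset.sum_congr rfl fun x _ => ?_
  rw [Finset.mul_sum]
  refine Finset.sum_congr rfl fun T _ => ?_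
  have h3 : M.law.p (x, T) = (Fintype.card M.π : ℝ)⁻¹ * ∏ q : Fin (n + 1) × Bool, M.κ q.1 x (T q) := rfl
  split_ifs
  · rw [h3, mul_one]
  · rw [mul_zero, mul_zero]

theorem tr_geo_law_card (M : TModel n) (c : ℝ) : (Fintype.card M.π : ℝ)⁻¹ * ∑ _x : M.π, c = c := by
  rw [Finset.sum_const, Finset.card_univ, nsmul_eq_mul, ← mul_assoc, inv_mul_cancel₀ (Nat.cast_ne_zero.2 Fintype.card_ne_zero), one_mul]

/-- **conditional independence**: given the point and all the other tubes, the tube `q` has the law `κ q.1 X`.  `G ω T` does not depend on the coordinate `q` of `ω`.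
PLAN: fix `x`; `Equiv.funSplitAt q M.τ` splits `∑_T ∏_{q'} κ` (`Fintype.prod_eq_mul_prod_compl` / `Finset.mul_prod_erase`); inner sum `≤ η`; the remaining weights sum to `1` (`Finset.prod_univ_sum`, `κ_sum`). -/
theorem tr_geo_law_one (M : TModel n) (q : Fin (n + 1) × Bool) (G : M.Om → M.τ → Prop)
    (hG : ∀ (ω : M.Om) (T T' : M.τ), G (ω.1, Function.update ω.2 q T') T ↔ G ω T) (η : ℝ)
    (h : ∀ ω : M.Om, ∑ T with G ω T, M.κ q.1 ω.1 T ≤ η) : M.law.pr (fun ω => G ω (ω.2 q)) ≤ η := by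
  rw [tr_geo_law_pr]
  have hx : ∀ x : M.π, ∑ T : Fin (n + 1) × Bool → M.τ, (∏ q' : Fin (n + 1) × Bool, M.κ q'.1 x (T q')) * (if G (x, T) (T q) then 1 else 0) ≤ η := by
    intro x
    have e1 : ∀ T : Fin (n + 1) × Bool → M.τ, (Equiv.funSplitAt q M.τ).symm (T q, fun j : {j // j ≠ q} => T j) = T :=
      fun T => (Equiv.funSplitAt q M.τ).symm_apply_apply T
    have key := tr_geo_law_split M x q (fun t r => if G (x, (Equiv.funSplitAt q M.τ).symm (t, r)) t then (1 : ℝ) else 0)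
    simp only [e1] at key
    rw [key]
    have h2 : ∀ r : {j // j ≠ q} → M.τ, ∑ t, M.κ q.1 x t * (if G (x, (Equiv.funSplitAt q M.τ).symm (t, r)) t then (1 : ℝ) else 0) ≤ η := by
      intro r
      rcases isEmpty_or_nonempty M.τ with he | ⟨⟨t₀⟩⟩
      · have h1 := M.κ_sum 0 x
        rw [Finset.univ_eq_empty, Finset.sum_empty] at h1
        exact absurd h1 zero_ne_one
      refine le_trans (le_of_eq ?_) (h (x, (Equiv.funSplitAt q M.τ).symm (t₀, r)))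
      rw [Finset.sum_filter]
      refine Finset.sum_congr rfl fun t _ => ?_
      have e2 : (Equiv.funSplitAt q M.τ).symm (t, r) = Function.update ((Equiv.funSplitAt q M.τ).symm (t₀, r)) q t := by
        funext j
        by_cases hj : j = q
        · subst hj
          simp [Equiv.funSplitAt, Equiv.piSplitAt]
        · simp [Equiv.funSplitAt, Equiv.piSplitAt, hj]
      have e3 : G (x, (Equiv.funSplitAt q M.τ).symm (t, r)) t ↔ G (x, (Equiv.funSplitAt q M.τ).symm (t₀, r)) t := by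
        rw [e2]
        exact hG (x, (Equiv.funSplitAt q M.τ).symm (t₀, r)) t t
      simp only [e3]
      split_ifs <;> simp
    calc ∑ r : {j // j ≠ q} → M.τ, (∏ j : {j // j ≠ q}, M.κ j.1.1 x (r j)) * ∑ t, M.κ q.1 x t * (if G (x, (Equiv.funSplitAt q M.τ).symm (t, r)) t then (1 : ℝ) else 0)
        ≤ ∑ r : {j // j ≠ q} → M.τ, (∏ j : {j // j ≠ q}, M.κ j.1.1 x (r j)) * η :=
          Finset.sum_le_sum fun r _ => mul_le_mul_of_nonneg_left (h2 r) (Finset.prod_nonneg fun j _ => M.κ_nonneg _ _ _)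
      _ = η := by rw [← Finset.sum_mul, tr_geo_law_rest, one_mul]
  calc (Fintype.card M.π : ℝ)⁻¹ * ∑ x, ∑ T : Fin (n + 1) × Bool → M.τ, (∏ q' : Fin (n + 1) × Bool, M.κ q'.1 x (T q')) * (if G (x, T) (T q) then 1 else 0)
      ≤ (Fintype.card M.π : ℝ)⁻¹ * ∑ _x : M.π, η := mul_le_mul_of_nonneg_left (Finset.sum_le_sum fun x _ => hx x) (by positivity)
    _ = η := tr_geo_law_card M η

/-- marginal of (point, one tube) -/
theorem tr_geo_law_marg (M : TModel n) (q : Fin (n + 1) × Bool) (G : M.π → M.τ → Prop) :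
    M.law.pr (fun ω => G ω.1 (ω.2 q)) = (Fintype.card M.π : ℝ)⁻¹ * ∑ x, ∑ T with G x T, M.κ q.1 x T := by
  rw [tr_geo_law_pr]
  congr 1
  refine Finset.sum_congr rfl fun x _ => ?_
  rw [tr_geo_law_split M x q (fun t _ => if G x t then 1 else 0), ← Finset.sum_mul, tr_geo_law_rest, one_mul, Finset.sum_filter]
  refine Finset.sum_congr rfl fun t _ => ?_
  split_ifs <;> simp

/-- marginal of the point -/
theorem tr_geo_law_pt (M : TModel n) (G : M.π → Prop) :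
    M.law.pr (fun ω => G ω.1) = (Fintype.card M.π : ℝ)⁻¹ * ((Finset.univ.filter G).card : ℝ) := by
  rw [tr_geo_law_pr]
  congr 1
  rw [Finset.card_filter]
  push_cast
  refine Finset.sum_congr rfl fun x _ => ?_
  have h2 := Finset.prod_univ_sum (fun _ : Fin (n + 1) × Bool => (Finset.univ : Finset M.τ)) (fun q T => M.κ q.1 x T)
  rw [Fintype.piFinset_univ] at h2
  have h3 : ∑ T : Fin (n + 1) × Bool → M.τ, ∏ q' : Fin (n + 1) × Bool, M.κ q'.1 x (T q') = 1 := by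
    rw [← h2]
    simp [M.κ_sum]
  calc ∑ T : Fin (n + 1) × Bool → M.τ, (∏ q' : Fin (n + 1) × Bool, M.κ q'.1 x (T q')) * (if G x then (1 : ℝ) else 0)
      = (∑ T : Fin (n + 1) × Bool → M.τ, ∏ q' : Fin (n + 1) × Bool, M.κ q'.1 x (T q')) * (if G x then (1 : ℝ) else 0) := by
        rw [Finset.sum_mul]
    _ = _ := by rw [h3, one_mul]

/-! ### transversality of the reference families -/

theorem tr_geo_trv_rfr (hM : M.Ok R₀ c₁ Cτ) (ρ : Rf n) (ω : M.Om) : Trv (M.L ^ M.ε) (M.rfr ρ ω) :=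
  hM.trans (fun i => ω.2 (i, ρ i))

theorem tr_geo_trv_rfr_upd (hM : M.Ok R₀ c₁ Cτ) (ρ : Rf n) (ω : M.Om) (i : Fin (n + 1)) (T : M.τ) :
    Trv (M.L ^ M.ε) (Function.update (M.rfr ρ ω) i (M.fr i T)) := by
  have h1 : Function.update (M.rfr ρ ω) i (M.fr i T) = fun j => M.fr j (Function.update (fun j => ω.2 (j, ρ j)) i T j) := by
    funext j
    by_cases hj : j = i
    · subst hj
      simp
    · simp [Function.update_of_ne hj, TModel.rfr]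
  rw [h1]
  exact hM.trans _

/-- master statement: any family of tubes, some of the frequencies replaced by the representatives of their bins (`tr_geo_trv_perturb`, `d = 2 n L^{-bs}`, `tr_geo_binR_dist`, `tr_geo_sc_inv_le`) -/
theorem tr_geo_trv_mix (hM : M.Ok R₀ c₁ Cτ) (bs : ℚ) (hs : 4 * (n : ℝ) * M.L ^ M.ε ≤ M.L ^ (bs : ℝ)) (T : Fin (n + 1) → M.τ) (b : Fin (n + 1) → Bool) :
    Trv (2 * M.L ^ M.ε) (fun i => if b i then binR (sc M.L bs) (M.fr i (T i)) else M.fr i (T i)) := by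
  have hL : 2 ≤ M.L := hM.L_ge
  have hL0 : 0 < M.L := by linarith
  have hQ : 0 < M.L ^ M.ε := Real.rpow_pos_of_pos hL0 _
  have hb0 : 0 < M.L ^ (bs : ℝ) := Real.rpow_pos_of_pos hL0 _
  refine tr_geo_trv_perturb (M.L ^ M.ε) (2 * n * M.L ^ (-(bs : ℝ))) (fun i => M.fr i (T i)) _ (hM.trans T) ?_ ?_
  · intro i
    by_cases hb : b i
    · simp only [hb, if_true]
      calc ‖binR (sc M.L bs) (M.fr i (T i)) - M.fr i (T i)‖ ≤ n * ((2 : ℝ) ^ (sc M.L bs))⁻¹ := tr_geo_binR_dist _ _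
        _ ≤ n * (2 * M.L ^ (-(bs : ℝ))) := mul_le_mul_of_nonneg_left (tr_geo_sc_inv_le M.L hL bs) (Nat.cast_nonneg n)
        _ = 2 * n * M.L ^ (-(bs : ℝ)) := by ring
    · simp only [hb, Bool.false_eq_true, if_false, sub_self, norm_zero]
      positivity
  · rw [Real.rpow_neg hL0.le]
    have h2 : M.L ^ M.ε * (2 * n * (M.L ^ (bs : ℝ))⁻¹) = (4 * (n : ℝ) * M.L ^ M.ε) / (2 * M.L ^ (bs : ℝ)) := by
      field_simp
      ring
    rw [h2, div_le_iff₀ (by positivity)]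
    linarith

theorem tr_geo_trv_rbin (hM : M.Ok R₀ c₁ Cτ) (bs : ℚ) (hs : 4 * (n : ℝ) * M.L ^ M.ε ≤ M.L ^ (bs : ℝ)) (ρ : Rf n) (ω : M.Om) :
    Trv (2 * M.L ^ M.ε) (M.rbin ρ bs ω) := by
  have h1 := tr_geo_trv_mix hM bs hs (fun i => ω.2 (i, ρ i)) (fun _ => true)
  simp only [if_true] at h1
  exact h1

/-- one binned reference replaced by an EXACT frequency of the same family -/
theorem tr_geo_trv_rbin_upd (hM : M.Ok R₀ c₁ Cτ) (bs : ℚ) (hs : 4 * (n : ℝ) * M.L ^ M.ε ≤ M.L ^ (bs : ℝ)) (ρ : Rf n) (ω : M.Om)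
    (i : Fin (n + 1)) (T : M.τ) : Trv (2 * M.L ^ M.ε) (Function.update (M.rbin ρ bs ω) i (M.fr i T)) := by
  have h1 := tr_geo_trv_mix hM bs hs (Function.update (fun j => ω.2 (j, ρ j)) i T) (fun j => decide (j ≠ i))
  have h2 : Function.update (M.rbin ρ bs ω) i (M.fr i T)
      = fun j => if (decide (j ≠ i)) = true then binR (sc M.L bs) (M.fr j (Function.update (fun j => ω.2 (j, ρ j)) i T j))
        else M.fr j (Function.update (fun j => ω.2 (j, ρ j)) i T j) := by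
    funext j
    by_cases hj : j = i
    · subst hj
      simp
    · simp [Function.update_of_ne hj, TModel.rbin, hj]
  rw [h2]
  exact h1

/-- one binned reference replaced by a BINNED frequency of the same family -/
theorem tr_geo_trv_rbin_updb (hM : M.Ok R₀ c₁ Cτ) (bs : ℚ) (hs : 4 * (n : ℝ) * M.L ^ M.ε ≤ M.L ^ (bs : ℝ)) (ρ : Rf n) (ω : M.Om)
    (i : Fin (n + 1)) (T : M.τ) : Trv (2 * M.L ^ M.ε) (Function.update (M.rbin ρ bs ω) i (binR (sc M.L bs) (M.fr i T))) := by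
  have h1 := tr_geo_trv_mix hM bs hs (Function.update (fun j => ω.2 (j, ρ j)) i T) (fun _ => true)
  have h2 : Function.update (M.rbin ρ bs ω) i (binR (sc M.L bs) (M.fr i T))
      = fun j => if true = true then binR (sc M.L bs) (M.fr j (Function.update (fun j => ω.2 (j, ρ j)) i T j))
        else M.fr j (Function.update (fun j => ω.2 (j, ρ j)) i T j) := by
    funext j
    by_cases hj : j = i
    · subst hj
      simp
    · simp [Function.update_of_ne hj, TModel.rbin]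
  rw [h2]
  exact h1

theorem tr_geo_rbin_norm (hM : M.Ok R₀ c₁ Cτ) (ρ : Rf n) (bs : ℚ) (ω : M.Om) (i : Fin (n + 1)) : ‖M.rbin ρ bs ω i‖ ≤ R₀ + n := by
  exact (tr_geo_binR_norm _ _).trans (by linarith [hM.fr_bd i (ω.2 (i, ρ i))])

/-- distance of the binned and the exact references -/
theorem tr_geo_rbin_dist (hM : M.Ok R₀ c₁ Cτ) (ρ : Rf n) (bs : ℚ) (ω : M.Om) (i : Fin (n + 1)) :
    ‖M.rbin ρ bs ω i - M.rfr ρ ω i‖ ≤ 2 * n * M.L ^ (-(bs : ℝ)) := by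
  calc ‖M.rbin ρ bs ω i - M.rfr ρ ω i‖ ≤ n * ((2 : ℝ) ^ (sc M.L bs))⁻¹ := tr_geo_binR_dist _ _
    _ ≤ n * (2 * M.L ^ (-(bs : ℝ))) := mul_le_mul_of_nonneg_left (tr_geo_sc_inv_le M.L hM.L_ge bs) (Nat.cast_nonneg n)
    _ = 2 * n * M.L ^ (-(bs : ℝ)) := by ring

/-! ### incidence -/

theorem tr_geo_inc (hM : M.Ok R₀ c₁ Cτ) (ω : M.Om) (hp : 0 < M.law.p ω) (q : Fin (n + 1) × Bool) :
    ‖(M.pos ω.1).1 - M.ic q.1 (ω.2 q) - (2 * (M.pos ω.1).2) • M.fr q.1 (ω.2 q)‖ ≤ M.L ^ (-1 + M.ε) :=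
  hM.inc _ _ _ (tr_geo_law_pos M ω hp q)

/-- **two points on one tube** differ by a multiple of the direction up to `2 L^{-1+ε}` -/
theorem tr_geo_inc_diff (hM : M.Ok R₀ c₁ Cτ) (ω ω' : M.Om) (hp : 0 < M.law.p ω) (hp' : 0 < M.law.p ω') (q : Fin (n + 1) × Bool) (hT : ω.2 q = ω'.2 q) :
    ∃ e : E n, ‖e‖ ≤ 2 * M.L ^ (-1 + M.ε) ∧
      M.pos ω.1 - M.pos ω'.1 = ((M.pos ω.1).2 - (M.pos ω'.1).2) • vdir (M.fr q.1 (ω.2 q)) + ((e, 0) : ST n) := by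
  have h1 := tr_geo_inc hM ω hp q
  have h2 := tr_geo_inc hM ω' hp' q
  rw [← hT] at h2
  refine ⟨((M.pos ω.1).1 - M.ic q.1 (ω.2 q) - (2 * (M.pos ω.1).2) • M.fr q.1 (ω.2 q))
    - ((M.pos ω'.1).1 - M.ic q.1 (ω.2 q) - (2 * (M.pos ω'.1).2) • M.fr q.1 (ω.2 q)), ?_, ?_⟩
  · exact (norm_sub_le _ _).trans (by linarith)
  · unfold vdir
    ext1
    · simp only [Prod.fst_sub, Prod.fst_add, Prod.smul_fst, smul_smul]
      module
    · simp

/-- the same in bin-defined coordinates (same basis for `ω`, `ω'`) -/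
theorem tr_geo_inc_gc (hM : M.Ok R₀ c₁ Cτ) (bs : ℚ) (hs : 4 * (n : ℝ) * M.L ^ M.ε ≤ M.L ^ (bs : ℝ)) (ρ : Rf n) (ω ω' : M.Om)
    (hp : 0 < M.law.p ω) (hp' : 0 < M.law.p ω') (q : Fin (n + 1) × Bool) (hT : ω.2 q = ω'.2 q) (hb : M.rbin ρ bs ω = M.rbin ρ bs ω') :
    ∃ c : Fin (n + 1) → ℝ, ∑ i, |c i| ≤ 2 * M.L ^ (-1 + 2 * M.ε) ∧
      M.gc ρ bs ω - M.gc ρ bs ω' = ((M.pos ω.1).2 - (M.pos ω'.1).2) • coord (M.rbin ρ bs ω) (vdir (M.fr q.1 (ω.2 q))) + c := by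
  obtain ⟨e, he, hd⟩ := tr_geo_inc_diff hM ω ω' hp hp' q hT
  have hL0 : 0 < M.L := by linarith [hM.L_ge]
  have htr := tr_geo_trv_rbin hM bs hs ρ ω
  refine ⟨coord (M.rbin ρ bs ω) ((e, 0) : ST n), ?_, ?_⟩
  · have h1 := tr_geo_coord_bound _ _ htr ((e, 0) : ST n)
    simp only [abs_zero, add_zero] at h1
    refine h1.trans ?_
    have hQ : 0 < M.L ^ M.ε := Real.rpow_pos_of_pos hL0 _
    calc 2 * M.L ^ M.ε * (‖e‖ / 2) ≤ 2 * M.L ^ M.ε * ((2 * M.L ^ (-1 + M.ε)) / 2) := by gcongr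
      _ = 2 * (M.L ^ M.ε * M.L ^ (-1 + M.ε)) := by ring
      _ = 2 * M.L ^ (-1 + 2 * M.ε) := by rw [← Real.rpow_add hL0]; congr 2; ring
  · unfold TModel.gc
    rw [← hb, ← tr_geo_coord_sub _ _ htr, hd, tr_geo_coord_add _ _ htr, tr_geo_coord_smul _ _ htr]

/-! ### the strip law -/

/-- the strip law with an enlargement `W ≥ 1` of the width: apply `hM.strip` with `α = u - logb L W ∈ [0, 1/8]`; `L^{-α} = W L^{-u}`, `L^{-c₁ α} = W^{c₁} L^{-c₁ u} ≤ W L^{-c₁ u}` -/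
theorem tr_geo_strip (hM : M.Ok R₀ c₁ Cτ) (hc : 0 ≤ c₁) (hc1 : c₁ ≤ 1) (i : Fin (n + 1)) (x : M.π) (a b : E n) (α₀ β₀ W u : ℝ)
    (ha : ‖a‖ = 1) (hb : ‖b‖ = 1) (hab : ⟪a, b⟫_ℝ = 0) (hW : 1 ≤ W) (hu : u ≤ 1 / 8) (hWu : W ≤ M.L ^ u) :
    ∑ T with |⟪a, M.fr i T⟫_ℝ - α₀| ≤ W * M.L ^ (-u) ∧ |⟪b, M.fr i T⟫_ℝ - β₀| ≤ W * M.L ^ (-u), M.κ i x T ≤ W * M.L ^ (-c₁ * u + M.ε) := by
  have hL : 2 ≤ M.L := hM.L_ge
  have hL0 : 0 < M.L := by linarith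
  have hL1 : 1 < M.L := by linarith
  have hW0 : 0 < W := by linarith
  obtain ⟨lw, hlw⟩ : ∃ lw : ℝ, lw = Real.logb M.L W := ⟨_, rfl⟩
  have hWe : M.L ^ lw = W := by rw [hlw]; exact Real.rpow_logb hL0 hL1.ne' hW0
  have hlw0 : 0 ≤ lw := by rw [hlw]; exact Real.logb_nonneg hL1 hW
  have hlwu : lw ≤ u := by
    rw [hlw, Real.logb_le_iff_le_rpow hL1 hW0]
    exact hWu
  have e1 : M.L ^ (-(u - lw)) = W * M.L ^ (-u) := by
    rw [← hWe, ← Real.rpow_add hL0]; congr 1; ring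
  have h1 := hM.strip i x a b α₀ β₀ (u - lw) ha hb hab (by linarith) (by linarith)
  rw [e1] at h1
  refine h1.trans ?_
  have e2 : M.L ^ (-c₁ * (u - lw) + M.ε) = M.L ^ (c₁ * lw) * M.L ^ (-c₁ * u + M.ε) := by
    rw [← Real.rpow_add hL0]; congr 1; ring
  rw [e2]
  have h3 : M.L ^ (c₁ * lw) ≤ W := by
    rw [← hWe]
    exact Real.rpow_le_rpow_of_exponent_le hL1.le (by nlinarith)
  have h4 : 0 < M.L ^ (-c₁ * u + M.ε) := Real.rpow_pos_of_pos hL0 _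
  gcongr

/-- **the strip law for two ratios** (H t:rank + (t:strip-law)).  Centre: the ratios of ANY bounded frequency `ζ'` with non-zero normalising coefficient (`ζ' = fr i T'` for (t:angular-sum), `ζ' =` the `i`-th reference, ratios `0`, for t:common).
From `tr_geo_rank_strip` (`A = L^ε (R₀ + 1)` by `tr_geo_coord_bound`, non-vanishing by `tr_geo_repl_low`, `tr_geo_trv_rfr_upd`), `tr_geo_strip` with `W = 4 (R₀+1)² L^ε`. -/
theorem tr_geo_ratio_strip (n : ℕ) (R₀ : ℝ) : ∃ K : ℝ, 0 ≤ K ∧ ∀ (c₁ Cτ : ℝ) (M : TModel n), M.Ok R₀ c₁ Cτ → 0 ≤ c₁ → c₁ ≤ 1 →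
    ∀ (i j k : Fin (n + 1)), j ≠ i → k ≠ i → j ≠ k → ∀ (ω : M.Om) (ζ' : E n), ‖ζ'‖ ≤ R₀ → coord (M.rfr (rf0 n) ω) (vdir ζ') i ≠ 0 →
    ∀ u : ℝ, 0 ≤ u → u ≤ 1 / 8 → M.Sm K u →
      ∑ T with |M.rat i j ω T - coord (M.rfr (rf0 n) ω) (vdir ζ') j / coord (M.rfr (rf0 n) ω) (vdir ζ') i| ≤ M.L ^ (-u) ∧
          |M.rat i k ω T - coord (M.rfr (rf0 n) ω) (vdir ζ') k / coord (M.rfr (rf0 n) ω) (vdir ζ') i| ≤ M.L ^ (-u), M.κ i ω.1 T
        ≤ M.er K * M.L ^ (-c₁ * u) := by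
  refine ⟨4 * (R₀ + 1) ^ 2 + 2, by positivity, ?_⟩
  intro c₁ Cτ M hM hc hc1 i j k hj hk hjk ω ζ' hζ' h0' u hu0 hu hs
  have hL0 : 0 < M.L := tr_geo_L_pos hM
  have hR0 : 0 ≤ R₀ := tr_geo_R_nonneg hM
  have hQ1 : 1 ≤ M.L ^ M.ε := tr_geo_one_le_Q hM
  have hQ0 : 0 < M.L ^ M.ε := by linarith
  have htr := tr_geo_trv_rfr hM (rf0 n) ω
  have hRb : ∀ l, ‖M.rfr (rf0 n) ω l‖ ≤ R₀ := fun l => hM.fr_bd _ _
  obtain ⟨a, b, ha, hb, hab, hst⟩ := tr_geo_rank_strip _ R₀ _ htr hRb i j k hj hk hjk ζ' hζ' h0'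
  obtain ⟨W, hW⟩ : ∃ W : ℝ, W = 4 * (R₀ + 1) ^ 2 * M.L ^ M.ε := ⟨_, rfl⟩
  have hW1 : 1 ≤ W := by
    rw [hW]
    have : 1 ≤ 4 * (R₀ + 1) ^ 2 := by nlinarith
    nlinarith
  have hWu : W ≤ M.L ^ u := by
    have h1 := tr_geo_sm_use hM (4 * (R₀ + 1) ^ 2) 1 _ u (by positivity) (by linarith) (by nlinarith [sq_nonneg (R₀ + 1)]) hs
    rwa [one_mul, ← hW] at h1
  have h2 := tr_geo_strip hM hc hc1 i ω.1 a b ⟪a, ζ'⟫_ℝ ⟪b, ζ'⟫_ℝ W u ha hb hab hW1 hu hWu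
  have hu0' : 0 < M.L ^ (-u) := Real.rpow_pos_of_pos hL0 _
  have hsub : (Finset.univ.filter fun T => |M.rat i j ω T - coord (M.rfr (rf0 n) ω) (vdir ζ') j / coord (M.rfr (rf0 n) ω) (vdir ζ') i| ≤ M.L ^ (-u) ∧
      |M.rat i k ω T - coord (M.rfr (rf0 n) ω) (vdir ζ') k / coord (M.rfr (rf0 n) ω) (vdir ζ') i| ≤ M.L ^ (-u))
      ⊆ Finset.univ.filter fun T => |⟪a, M.fr i T⟫_ℝ - ⟪a, ζ'⟫_ℝ| ≤ W * M.L ^ (-u) ∧ |⟪b, M.fr i T⟫_ℝ - ⟪b, ζ'⟫_ℝ| ≤ W * M.L ^ (-u) := by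
    intro T hT
    obtain ⟨-, hT1, hT2⟩ := Finset.mem_filter.1 hT
    have hlow := tr_geo_repl_low _ R₀ _ i (M.fr i T) htr (tr_geo_trv_rfr_upd hM (rf0 n) ω i T) (hRb i)
    have hne : coord (M.rfr (rf0 n) ω) (vdir (M.fr i T)) i ≠ 0 := by
      intro h0
      rw [h0, abs_zero, mul_zero] at hlow
      linarith
    have hA : |coord (M.rfr (rf0 n) ω) (vdir (M.fr i T)) i| ≤ M.L ^ M.ε * (R₀ + 1) := by
      refine (tr_geo_coord_bound_one _ _ htr _ i).trans ?_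
      have h3 : ‖(vdir (M.fr i T)).1‖ / 2 + |(vdir (M.fr i T)).2| = ‖M.fr i T‖ + 1 := by
        unfold vdir
        simp only [norm_smul, Real.norm_ofNat, abs_one]
        ring
      rw [h3]
      have := hM.fr_bd i T
      gcongr
    obtain ⟨g1, g2⟩ := hst (M.fr i T) _ _ hne hA hT1 hT2
    have hle : 4 * R₀ * (M.L ^ M.ε * (R₀ + 1)) * M.L ^ (-u) ≤ W * M.L ^ (-u) := by
      rw [hW]
      have : 4 * R₀ * (M.L ^ M.ε * (R₀ + 1)) ≤ 4 * (R₀ + 1) ^ 2 * M.L ^ M.ε := by nlinarith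
      gcongr
    exact Finset.mem_filter.2 ⟨Finset.mem_univ _, g1.trans hle, g2.trans hle⟩
  refine (Finset.sum_le_sum_of_subset_of_nonneg hsub fun T _ _ => M.κ_nonneg _ _ _).trans (h2.trans ?_)
  have e1 : W * M.L ^ (-c₁ * u + M.ε) = (4 * (R₀ + 1) ^ 2 * M.L ^ (2 * M.ε)) * M.L ^ (-c₁ * u) := by
    rw [hW, Real.rpow_add hL0, two_mul, Real.rpow_add hL0]
    ring
  rw [e1]
  have h4 := tr_geo_er_le hM (4 * (R₀ + 1) ^ 2) 2 (4 * (R₀ + 1) ^ 2 + 2) (by positivity) (by linarith) (by nlinarith [sq_nonneg (R₀ + 1)])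
  have h5 : 0 < M.L ^ (-c₁ * u) := Real.rpow_pos_of_pos hL0 _
  gcongr

end Claimed.Agent.R257.TR
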