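import Claimed.Agent.R257.TR.GeoC

/-!
# R257 / TR / FactT : regularity of the sampled systems and the transfer rules in the form used by the FACTS      (chief FACTS: helper84)

`tr_seq_reg : ISeqReg (tSys M)`, `tLim M` is a probability measure and a limiting law, and the rules of `TR/Calc.lean`, `TR/Lim.lean` with the error factor `M.er K`:
* `tr_fact_det`, `tr_fact_det0`   `[A | B] ≤ a` from a count `≤ er K · L^a` (restricted to an open cylinder / unrestricted)
* `tr_fact_low`                   `a ≤ [A | B]` from `P{L^{-a+δ} ms B < ms (A ∪ B)} ≤ er K · L^{-δ}`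
* `tr_fact_null`                  an open cylinder of probability `≤ er K · L^{-δ}` is null
* `tr_fact_ae_le`                 an inequality that is exact at finite scale at the points of positive mass
-/

set_option autoImplicit false

namespace Claimed.Agent.R257.TR

open Claimed.Agent.R255 Claimed.Agent.R257 MeasureTheory Filter Topology
open scoped BigOperators ENNReal InnerProductSpace
open Classical

variable {n : ℕ} {M : ℕ → TModel n} {R₀ c₁ Cτ : ℝ}

theorem tr_fact_clip_mem (t : ℝ) : 0 ≤ clip01 t ∧ clip01 t ≤ 1 := by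
  unfold clip01
  constructor
  · exact le_min zero_le_one (le_max_left _ _)
  · exact min_le_left _ _

theorem tr_fact_xv_mem (M : TModel n) (e : TEx n) (ω : M.Om) : 0 ≤ M.xv e ω ∧ M.xv e ω ≤ 1 := by
  cases e with
  | r i j =>
    show 0 ≤ (if M.rat i j ω (ω.2 (i, true)) = 0 then (1 : ℝ) else _) ∧ (if M.rat i j ω (ω.2 (i, true)) = 0 then (1 : ℝ) else _) ≤ 1
    split_ifs
    · exact ⟨zero_le_one, le_refl _⟩
    · exact tr_fact_clip_mem _
  | h j u => exact tr_fact_clip_mem _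

/-- number of sample points -/
theorem tr_fact_card_Om {M : TModel n} (hM : M.Ok R₀ c₁ Cτ) :
    (Fintype.card M.Om : ℝ) ≤ M.L ^ ((n : ℝ) + 1 + 2 * ((n : ℝ) + 1) * Cτ) := by
  have hL : 1 ≤ M.L := by linarith [hM.L_ge]
  have hL0 : 0 < M.L := by linarith
  have h1 := tr_geo_card_hi hM
  have h2 := hM.card_τ
  have e : Fintype.card M.Om = Fintype.card M.π * Fintype.card M.τ ^ ((n + 1) * 2) := by
    rw [Fintype.card_prod, Fintype.card_fun, Fintype.card_prod, Fintype.card_fin, Fintype.card_bool]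
  rw [e]
  push_cast
  have h3 : (Fintype.card M.τ : ℝ) ^ ((n + 1) * 2) ≤ M.L ^ (2 * ((n : ℝ) + 1) * Cτ) := by
    calc (Fintype.card M.τ : ℝ) ^ ((n + 1) * 2) ≤ (M.L ^ Cτ) ^ ((n + 1) * 2) :=
          pow_le_pow_left₀ (Nat.cast_nonneg _) h2 _
      _ = M.L ^ (2 * ((n : ℝ) + 1) * Cτ) := by
        rw [← Real.rpow_natCast, ← Real.rpow_mul hL0.le]
        congr 1
        push_cast
        ring
  have h4 : (Fintype.card M.π : ℝ) ≤ M.L ^ ((n : ℝ) + 1) :=
    h1.trans (Real.rpow_le_rpow_of_exponent_le hL (by linarith [hM.ε_le]))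
  rw [Real.rpow_add hL0]
  exact mul_le_mul h4 h3 (by positivity) (by positivity)

/-- **the sampled systems of a countersequence are admissible** -/
theorem tr_seq_reg (hM : TSeqOk M R₀ c₁ Cτ) : ISeqReg (tSys M) where
  L_top := hM.L_top.mono_left uf_le_atTop
  lab := fun a => ⟨(n : ℝ) + 1 + 2 * ((n : ℝ) + 1) * Cτ, Filter.Eventually.of_forall fun m F _ _ => by
    refine le_trans ?_ (tr_fact_card_Om (hM.ok m))
    exact_mod_cast Finset.card_le_univ F⟩
  xv_bdd := fun e => ⟨1, fun m ω => by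
    have h : 0 ≤ (tSys M m).xv e ω ∧ (tSys M m).xv e ω ≤ 1 := tr_fact_xv_mem (M m) e ω
    exact abs_le.2 ⟨by linarith [h.1], h.2⟩⟩

theorem tr_fact_prob (hM : TSeqOk M R₀ c₁ Cτ) : IsProbabilityMeasure (tLim M) :=
  tr_lim_prob _ (tr_calc_tight _ (tr_seq_reg hM))

theorem tr_fact_isLim (hM : TSeqOk M R₀ c₁ Cτ) : (iSeqV (tSys M)).IsLim (tLim M) :=
  tr_lim_isLim _ (tr_calc_tight _ (tr_seq_reg hM))

theorem tr_fact_ifun (hM : TSeqOk M R₀ c₁ Cτ) : ∀ᵐ x ∂(tLim M), IFun x :=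
  have := tr_fact_prob hM
  tr_calc_ifun _ (tr_seq_reg hM) _ (tr_fact_isLim hM)

/-- restricted determination with the error factor -/
theorem tr_fact_det (hM : TSeqOk M R₀ c₁ Cτ) (U : Set (TSp n)) (T : Finset (Finset (TNm n) ⊕ TEx n)) (hU : IsOpen U) (hT : FinDep U T)
    (A B : Finset (TNm n)) (a K : ℝ)
    (h : ∀ᶠ m in uf, ∀ ω₀ : (M m).Om, (M m).sys.Cnt (fun ω => (M m).sys.vec ω ∈ U ∧ 0 < (M m).law.p ω ∧ (M m).sys.Agr B ω ω₀) A
      ((M m).er K * (M m).L ^ a)) :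
    ∀ᵐ x ∂(tLim M), x ∈ U → cI x A B ≤ a := by
  have := tr_fact_prob hM
  refine tr_calc_det _ (tr_seq_reg hM) _ (tr_fact_isLim hM) U T hU hT A B a ?_
  intro δ hδ
  filter_upwards [h, tr_geo_sm_ev hM K δ hδ] with m hm hs ω₀
  refine tr_geo_cnt_mono _ _ _ _ _ _ (fun ω hω => hω) ?_ (hm ω₀)
  have hL : 0 < (M m).L := tr_geo_L_pos (hM.ok m)
  show (M m).er K * (M m).L ^ a ≤ (M m).L ^ (a + δ)
  rw [add_comm, Real.rpow_add hL]
  exact mul_le_mul_of_nonneg_right hs (Real.rpow_nonneg hL.le _)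

/-- unrestricted determination with the error factor -/
theorem tr_fact_det0 (hM : TSeqOk M R₀ c₁ Cτ) (A B : Finset (TNm n)) (a K : ℝ)
    (h : ∀ᶠ m in uf, ∀ ω₀ : (M m).Om, (M m).sys.Cnt (fun ω => 0 < (M m).law.p ω ∧ (M m).sys.Agr B ω ω₀) A ((M m).er K * (M m).L ^ a)) :
    ∀ᵐ x ∂(tLim M), cI x A B ≤ a := by
  have := tr_fact_det hM Set.univ ∅ isOpen_univ (fun _ _ _ => Iff.rfl) A B a K (by
    filter_upwards [h] with m hm ω₀
    exact tr_geo_cnt_mono _ _ _ _ _ _ (fun ω hω => hω.2) le_rfl (hm ω₀))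
  filter_upwards [this] with x hx
  exact hx (Set.mem_univ _)

/-- a sequence squeezed by `er K L^{-δ}` tends to zero -/
theorem tr_fact_squeeze (hM : TSeqOk M R₀ c₁ Cτ) (f : ℕ → ℝ) (K δ : ℝ) (hδ : 0 < δ) (h0 : ∀ m, 0 ≤ f m)
    (h : ∀ᶠ m in uf, f m ≤ (M m).er K * (M m).L ^ (-δ)) : Tendsto f uf (𝓝 0) :=
  tendsto_of_tendsto_of_tendsto_of_le_of_le' tendsto_const_nhds (tr_geo_sm_tendsto hM K δ hδ) (Filter.Eventually.of_forall h0) h

/-- lower bound of a conditional information with the error factor -/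
theorem tr_fact_low (hM : TSeqOk M R₀ c₁ Cτ) (A B : Finset (TNm n)) (a K : ℝ)
    (h : ∀ δ : ℝ, 0 < δ → ∀ᶠ m in uf, (M m).law.pr (fun ω => (M m).L ^ (-a + δ) * (M m).sys.ms B ω < (M m).sys.ms (A ∪ B) ω)
      ≤ (M m).er K * (M m).L ^ (-δ)) :
    ∀ᵐ x ∂(tLim M), a ≤ cI x A B := by
  have := tr_fact_prob hM
  have := tr_calc_low _ (tr_seq_reg hM) _ (tr_fact_isLim hM) Set.univ ∅ isOpen_univ (fun _ _ _ => Iff.rfl) A B a (by
    intro δ hδ
    refine tr_fact_squeeze hM _ K δ hδ (fun m => tr_info_pr_nonneg _ _) ?_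
    filter_upwards [h δ hδ] with m hm
    refine le_trans (tr_info_pr_congr _ _ _ ?_) hm
    intro ω _ hω
    exact hω.2)
  filter_upwards [this] with x hx
  exact hx (Set.mem_univ _)

/-- null cylinders with the error factor -/
theorem tr_fact_null (hM : TSeqOk M R₀ c₁ Cτ) (U : Set (TSp n)) (T : Finset (Finset (TNm n) ⊕ TEx n)) (hU : IsOpen U) (hT : FinDep U T)
    (K δ : ℝ) (hδ : 0 < δ)
    (h : ∀ᶠ m in uf, (M m).law.pr (fun ω => (M m).sys.vec ω ∈ U) ≤ (M m).er K * (M m).L ^ (-δ)) : tLim M U = 0 := by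
  have := tr_fact_prob hM
  refine tr_lim_null _ _ (tr_fact_isLim hM) U T hU hT ?_
  exact tr_fact_squeeze hM _ K δ hδ (fun m => tr_info_pr_nonneg _ _) h

/-- inequalities that are exact at finite scale at the points of positive mass -/
theorem tr_fact_ae_le (hM : TSeqOk M R₀ c₁ Cτ) (T : Finset (Finset (TNm n) ⊕ TEx n)) (f : TSp n → ℝ) (hf : Continuous f)
    (hfT : ∀ x y : TSp n, (∀ i ∈ T, x i = y i) → f x = f y) (a : ℝ)
    (h : ∀ᶠ m in uf, ∀ ω : (M m).Om, 0 < (M m).law.p ω → f ((M m).sys.vec ω) ≤ a) : ∀ᵐ x ∂(tLim M), f x ≤ a := by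
  have := tr_fact_prob hM
  have := tr_lim_ae_le _ _ (tr_fact_isLim hM) Set.univ T isOpen_univ (fun _ _ _ => Iff.rfl) f hf hfT a (by
    intro δ hδ
    refine tendsto_of_tendsto_of_tendsto_of_le_of_le' tendsto_const_nhds tendsto_const_nhds
      (Filter.Eventually.of_forall fun m => tr_info_pr_nonneg _ _) ?_
    filter_upwards [h] with m hm
    have h1 := tr_info_pr_congr (M m).law (fun ω => (M m).sys.vec ω ∈ Set.univ ∧ a + δ < f ((M m).sys.vec ω)) (fun _ => False) (by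
      intro ω hp hω
      have := hm ω hp
      linarith [hω.2])
    refine le_trans h1 ?_
    simp [FLaw.pr])
  filter_upwards [this] with x hx
  exact hx (Set.mem_univ _)

end Claimed.Agent.R257.TR
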