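import Claimed.Agent.R257.TR.Top
import Claimed.Agent.R257.TR.FactT
import Claimed.Agent.R257.TR.NJ.Main

/-!
# R257 / TR / Main : final wiring of Proposition t:transverse      (captain TR: helper217)

EXIT of the package: `tr_stmt : 2 ≤ n → TrStmt n` in `TR/Exit.lean`.   `tr_wire : 2 ≤ n → GoodAe n → BtAll n → TubesStmt n → TrStmt n`.   The three hypotheses are the exits of the posts FACTS (`tr_good_ae`), BT (`tr_bt_fin`), TUBES (`tr_tb_main`);
`tr_seq_reg` (FactT), `tr_nj_fin` (NJ/Main), `tr_seq_false`, `tr_model_false` (Comb), `tr_main` (Top) are cited directly.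
-/

set_option autoImplicit false

namespace Claimed.Agent.R257.TR

open Claimed.Agent.R255 Claimed.Agent.R257 MeasureTheory Filter Topology
open scoped BigOperators ENNReal
open Classical

/-- exit of the post FACTS -/
def GoodAe (n : ℕ) : Prop :=
  ∀ (R₀ c₁ Cτ : ℝ) (M : ℕ → TModel n), 0 < c₁ → c₁ ≤ 1 → TSeqOk M R₀ c₁ Cτ → ∀ᵐ x ∂(tLim M), TGood c₁ x

/-- exit of the post BT -/
def BtAll (n : ℕ) : Prop :=
  ∀ (R₀ c₁ Cτ : ℝ) (M : ℕ → TModel n), 0 < c₁ → c₁ ≤ 1 → TSeqOk M R₀ c₁ Cτ → BTFin M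

/-- the combinatorial half -/
theorem tr_wire_model {n : ℕ} (hn : 2 ≤ n) (hg : GoodAe n) (hb : BtAll n) : ModelFalse n :=
  tr_model_false n fun R₀ c₁ Cτ M hc hc1 hM =>
    tr_seq_false hn M c₁ hc (tr_seq_reg hM) (hg R₀ c₁ Cτ M hc hc1 hM) (hb R₀ c₁ Cτ M hc hc1 hM) (tr_nj_fin hn M hc hM)

/-- **Proposition t:transverse** from the exits of the posts -/
theorem tr_wire {n : ℕ} (hn : 2 ≤ n) (hg : GoodAe n) (hb : BtAll n) (hT : TubesStmt n) : TrStmt n :=
  tr_main n hT (tr_wire_model hn hg hb)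

/-- Stores the on-demand equation lemmas of the definitions above in THIS module (rule 6 hygiene). -/
theorem tr_wire_forced : True := by
  have := @GoodAe.eq_1
  have := @BtAll.eq_1
  trivial

end Claimed.Agent.R257.TR
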