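import Claimed.Agent.R257.TR.Lim

/-!
# R257 / TR / Calc : the limiting information calculus      (captain TR: helper217)

PAPER-FREE (H Lemma t:information).  An `ISys Nm Ex` is ONE finite sampled system: a finite law, a scale `L`, NAMED observations `ob a` (`a : Nm`, label type `Lab a`) and extra real variables `xv e` (`e : Ex`).
For a finite set of names `A` the sampled information of the joint label is `I0 A ω = - log_L P(labels of A = labels of A at ω)`.
CONDITIONAL information is by definition a difference, `I(A | B) = I0 (A ∪ B) - I0 B`: the chain rule is an identity.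

For a sequence `S : ℕ → ISys Nm Ex` (`L → ∞`, polynomially many labels for every name, bounded extra variables) the limiting law `μ` lives on `x : Finset Nm ⊕ Ex → ℝ`; almost every `x` is an INFORMATION FUNCTION (`IFun`):
`x ∅ = 0`, monotone, submodular (= "conditioning lowers information").  Determination rules: `tr_calc_det`.
REMARK (simplification of the paper): in the limit the costs telescope POINTWISE (`cI x D (e_k ∪ W) - cI x D (e_{k+1} ∪ W)`), so no expectation, entropy or uniform integrability is needed anywhere.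
-/

set_option autoImplicit false

namespace Claimed.Agent.R257.TR

open Claimed.Agent.R255 MeasureTheory Filter Topology
open scoped BigOperators ENNReal
open Classical

/-- one finite sampled system with named observations -/
structure ISys (Nm Ex : Type) where
  /-- sample space -/
  Ω : Type
  /-- finiteness -/
  fΩ : Fintype Ω
  /-- the law -/
  P : @FLaw Ω fΩ
  /-- the scale -/
  L : ℝ
  /-- label types -/
  Lab : Nm → Type
  /-- the named observations -/
  ob : ∀ a : Nm, Ω → Lab a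
  /-- extra real variables -/
  xv : Ex → Ω → ℝ

attribute [instance] ISys.fΩ

variable {Nm Ex : Type}

/-- the joint observation of a finite set of names -/
def ISys.jo (S : ISys Nm Ex) (A : Finset Nm) (ω : S.Ω) : ∀ a : Nm, a ∈ A → S.Lab a := fun a _ => S.ob a ω

/-- the mass of the joint label of `A` at the sampled point -/
noncomputable def ISys.ms (S : ISys Nm Ex) (A : Finset Nm) (ω : S.Ω) : ℝ := S.P.fib (S.jo A) ω

/-- sampled information `- log_L P(label of A)` -/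
noncomputable def ISys.I0 (S : ISys Nm Ex) (A : Finset Nm) (ω : S.Ω) : ℝ := - Real.logb S.L (S.ms A ω)

/-- the vector of all variables -/
noncomputable def ISys.vec (S : ISys Nm Ex) (ω : S.Ω) : Finset Nm ⊕ Ex → ℝ :=
  Sum.elim (fun A => S.I0 A ω) (fun e => S.xv e ω)

/-- two sample points have the same labels for all names in `A` -/
def ISys.Agr (S : ISys Nm Ex) (A : Finset Nm) (ω ω' : S.Ω) : Prop := ∀ a ∈ A, S.ob a ω = S.ob a ω'

/-- among the points satisfying `E` at most `K` joint labels of `A` occur -/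
def ISys.Cnt (S : ISys Nm Ex) (E : S.Ω → Prop) (A : Finset Nm) (K : ℝ) : Prop :=
  ∀ F : Finset S.Ω, (∀ ω ∈ F, E ω) → (∀ ω ∈ F, ∀ ω' ∈ F, S.Agr A ω ω' → ω = ω') → (F.card : ℝ) ≤ K

/-- the sequence of variables attached to a sequence of systems -/
noncomputable def iSeqV (S : ℕ → ISys Nm Ex) : VSeq (Finset Nm ⊕ Ex) where
  Ω := fun m => (S m).Ω
  fΩ := fun m => (S m).fΩ
  P := fun m => (S m).P
  v := fun m ω => (S m).vec ω

/-- admissible sequences -/
structure ISeqReg (S : ℕ → ISys Nm Ex) : Prop where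
  L_top : Tendsto (fun m => (S m).L) uf atTop
  lab : ∀ a : Nm, ∃ C : ℝ, ∀ᶠ m in uf, (S m).Cnt (fun _ => True) {a} ((S m).L ^ C)
  xv_bdd : ∀ e : Ex, ∃ C : ℝ, ∀ m ω, |(S m).xv e ω| ≤ C

/-- conditional information `I(A | B)` read on a point of the limit space -/
noncomputable def cI (x : Finset Nm ⊕ Ex → ℝ) (A B : Finset Nm) : ℝ := x (Sum.inl (A ∪ B)) - x (Sum.inl B)

/-- information functions -/
structure IFun (x : Finset Nm ⊕ Ex → ℝ) : Prop where
  empty : x (Sum.inl ∅) = 0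
  mono : ∀ A B : Finset Nm, A ⊆ B → x (Sum.inl A) ≤ x (Sum.inl B)
  submod : ∀ A B W : Finset Nm, cI x A (B ∪ W) ≤ cI x A B

theorem tr_jo_eq_iff (S : ISys Nm Ex) (A : Finset Nm) (ω ω' : S.Ω) : S.jo A ω = S.jo A ω' ↔ S.Agr A ω ω' :=
  ⟨fun h a ha => congrFun (congrFun h a) ha, fun h => funext fun a => funext fun ha => h a ha⟩

theorem tr_agr_union (S : ISys Nm Ex) (A B : Finset Nm) (ω ω' : S.Ω) : S.Agr (A ∪ B) ω ω' ↔ S.Agr A ω ω' ∧ S.Agr B ω ω' := by
  constructor
  · intro h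
    exact ⟨fun a ha => h a (Finset.mem_union_left _ ha), fun a ha => h a (Finset.mem_union_right _ ha)⟩
  · rintro ⟨h1, h2⟩ a ha
    rcases Finset.mem_union.1 ha with h | h
    · exact h1 a h
    · exact h2 a h

theorem tr_fib_congr {Ω : Type} [Fintype Ω] {α β : Type} (P : FLaw Ω) (X : Ω → α) (Y : Ω → β) (ω : Ω)
    (h : ∀ ω', X ω' = X ω ↔ Y ω' = Y ω) : P.fib X ω = P.fib Y ω := by
  unfold FLaw.fib
  exact congrArg P.pr (funext fun ω' => propext (h ω'))

/-- `ms` of a union is the fibre of the pair -/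
theorem tr_calc_ms_union (S : ISys Nm Ex) (A B : Finset Nm) (ω : S.Ω) :
    S.ms (A ∪ B) ω = S.P.fib (FLaw.pair (S.jo A) (S.jo B)) ω := by
  unfold ISys.ms
  refine tr_fib_congr _ _ _ _ fun ω' => ?_
  rw [tr_jo_eq_iff, tr_agr_union, ← tr_jo_eq_iff, ← tr_jo_eq_iff]
  unfold FLaw.pair
  exact Prod.mk.injEq _ _ _ _ ▸ Iff.rfl

/-- number of joint labels: product of the numbers of labels -/
theorem tr_calc_cnt_union (S : ISys Nm Ex) (E : S.Ω → Prop) (A B : Finset Nm) (K K' : ℝ) (hK : 0 ≤ K)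
    (hA : S.Cnt E A K) (hB : S.Cnt E B K') : S.Cnt E (A ∪ B) (K * K') := by
  intro F hFE hFinj
  have hK' : 0 ≤ K' := by
    have := hB ∅ (by simp) (by simp)
    simpa using this
  obtain ⟨R, hRF, hRinj, hRim⟩ := Finset.exists_subset_injOn_image_eq_of_surjOn (f := S.jo A) (↑F : Set S.Ω) (F.image (S.jo A))
    (by rw [Finset.coe_image]; exact Set.surjOn_image _ _)
  have hRc : ((F.image (S.jo A)).card : ℝ) ≤ K := by
    rw [← hRim, Finset.card_image_of_injOn hRinj]
    refine hA R (fun ω hω => hFE ω (hRF hω)) (fun ω hω ω' hω' hag => hRinj hω hω' ((tr_jo_eq_iff S A ω ω').2 hag))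
  have hfib : ∀ b ∈ F.image (S.jo A), ((F.filter (fun ω => S.jo A ω = b)).card : ℝ) ≤ K' := by
    intro b _
    refine hB _ (fun ω hω => hFE ω (Finset.mem_filter.1 hω).1) (fun ω hω ω' hω' hag => ?_)
    obtain ⟨h1, h2⟩ := Finset.mem_filter.1 hω
    obtain ⟨h1', h2'⟩ := Finset.mem_filter.1 hω'
    exact hFinj ω h1 ω' h1' ((tr_agr_union S A B ω ω').2 ⟨(tr_jo_eq_iff S A ω ω').1 (h2.trans h2'.symm), hag⟩)
  calc (F.card : ℝ) = ∑ b ∈ F.image (S.jo A), ((F.filter (fun ω => S.jo A ω = b)).card : ℝ) := by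
        rw [Finset.card_eq_sum_card_image (S.jo A) F]
        push_cast
        rfl
    _ ≤ ∑ _b ∈ F.image (S.jo A), K' := Finset.sum_le_sum hfib
    _ = ((F.image (S.jo A)).card : ℝ) * K' := by rw [Finset.sum_const, nsmul_eq_mul]
    _ ≤ K * K' := mul_le_mul_of_nonneg_right hRc hK'

theorem tr_tendsto_zero_of_le (x y : ℕ → ℝ) (h0 : ∀ m, 0 ≤ x m) (hle : ∀ᶠ m in uf, x m ≤ y m) (hy : Tendsto y uf (𝓝 0)) :
    Tendsto x uf (𝓝 0) :=
  tendsto_of_tendsto_of_tendsto_of_le_of_le' tendsto_const_nhds hy (Eventually.of_forall h0) hle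

theorem tr_calc_cnt_all (S : ℕ → ISys Nm Ex) (hS : ISeqReg S) (A : Finset Nm) :
    ∃ C : ℝ, ∀ᶠ m in uf, (S m).Cnt (fun _ => True) A ((S m).L ^ C) := by
  induction A using Finset.induction_on with
  | empty =>
    refine ⟨0, Eventually.of_forall fun m F _ hF => ?_⟩
    rw [Real.rpow_zero]
    have : F.card ≤ 1 := Finset.card_le_one.2 fun ω hω ω' hω' => hF ω hω ω' hω' (fun a ha => absurd ha (Finset.notMem_empty a))
    exact_mod_cast this
  | insert a A _ ih =>
    obtain ⟨C, hC⟩ := ih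
    obtain ⟨Ca, hCa⟩ := hS.lab a
    refine ⟨Ca + C, ?_⟩
    filter_upwards [hC, hCa, hS.L_top.eventually_gt_atTop 0] with m h1 h2 h3
    rw [Finset.insert_eq, Real.rpow_add h3]
    exact tr_calc_cnt_union (S m) _ _ _ _ _ (Real.rpow_nonneg h3.le _) h2 h1

theorem tr_calc_I0_nonneg (S : ISys Nm Ex) (hL : 1 < S.L) (A : Finset Nm) (ω : S.Ω) (hω : 0 < S.P.p ω) : 0 ≤ S.I0 A ω := by
  unfold ISys.I0
  have h1 : 0 < S.ms A ω := tr_info_fib_pos _ _ _ hω
  have h2 : S.ms A ω ≤ 1 := tr_info_fib_le_one _ _ _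
  have := Real.logb_nonpos hL h1.le h2
  linarith

/-- tightness.  `P{ I0 A > C_A + 1 } = P{ ms A < L^{-C_A-1} } ≤ L^{-1}` by `tr_info_tail`; `I0 A ≥ 0` at points of positive mass. -/
theorem tr_calc_tight (S : ℕ → ISys Nm Ex) (hS : ISeqReg S) : (iSeqV S).Tight := by
  intro i
  rcases i with A | e
  · obtain ⟨C, hC⟩ := tr_calc_cnt_all S hS A
    refine ⟨C + 1, ?_⟩
    refine tr_tendsto_zero_of_le _ (fun m => ((S m).L)⁻¹) (fun m => tr_info_pr_nonneg _ _) ?_ (tendsto_inv_atTop_zero.comp hS.L_top)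
    filter_upwards [hC, hS.L_top.eventually_gt_atTop 1] with m h1 h2
    have hL0 : 0 < (S m).L := by linarith
    show (S m).P.pr (fun ω => C + 1 < |(S m).I0 A ω|) ≤ _
    calc (S m).P.pr (fun ω => C + 1 < |(S m).I0 A ω|)
        ≤ (S m).P.pr (fun ω => (S m).P.fib ((S m).jo A) ω < (S m).L ^ (-(C + 1))) := by
          refine tr_info_pr_congr _ _ _ fun ω hω hlt => ?_
          rw [abs_of_nonneg (tr_calc_I0_nonneg (S m) h2 A ω hω)] at hlt
          have hpos : 0 < (S m).ms A ω := tr_info_fib_pos _ _ _ hω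
          unfold ISys.I0 at hlt
          have h3 : Real.logb (S m).L ((S m).ms A ω) < -(C + 1) := by linarith
          rw [Real.logb_lt_iff_lt_rpow h2 hpos] at h3
          exact h3
      _ ≤ (S m).L ^ (-(C + 1)) * (S m).L ^ C := by
          refine tr_info_tail _ _ _ _ (Real.rpow_nonneg hL0.le _) fun F hF => ?_
          exact h1 F (fun _ _ => trivial) (fun ω hω ω' hω' hag => hF hω hω' ((tr_jo_eq_iff (S m) A ω ω').2 hag))
      _ = ((S m).L)⁻¹ := by
          rw [← Real.rpow_add hL0, ← Real.rpow_neg_one]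
          congr 1
          ring
  · obtain ⟨C, hC⟩ := hS.xv_bdd e
    refine ⟨C, ?_⟩
    have : (fun m => ((iSeqV S).P m).pr (fun ω => C < |(iSeqV S).v m ω (Sum.inr e)|)) = fun _ => 0 := by
      funext m
      refine le_antisymm ?_ (tr_info_pr_nonneg _ _)
      have h1 : ((iSeqV S).P m).pr (fun _ => False) = 0 := by
        unfold FLaw.pr
        simp
      rw [← h1]
      refine tr_info_pr_congr _ _ _ fun ω _ hlt => ?_
      exact absurd (hC m ω) (not_le.2 hlt)
    rw [this]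
    exact tendsto_const_nhds

theorem tr_calc_ae_le (S : ℕ → ISys Nm Ex) (μ : Measure (Finset Nm ⊕ Ex → ℝ)) [IsProbabilityMeasure μ]
    (hμ : (iSeqV S).IsLim μ) (T : Finset (Finset Nm ⊕ Ex)) (f : (Finset Nm ⊕ Ex → ℝ) → ℝ) (hf : Continuous f)
    (hfT : ∀ x y : Finset Nm ⊕ Ex → ℝ, (∀ i ∈ T, x i = y i) → f x = f y)
    (h0 : ∀ δ : ℝ, 0 < δ → Tendsto (fun m => (S m).P.pr (fun ω => δ < f ((S m).vec ω))) uf (𝓝 0)) : ∀ᵐ x ∂μ, f x ≤ 0 := by
  have h := tr_lim_ae_le (iSeqV S) μ hμ Set.univ T isOpen_univ (fun x y _ => by simp) f hf hfT 0 (fun δ hδ => by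
    have e : (fun m => ((iSeqV S).P m).pr (fun ω => (iSeqV S).v m ω ∈ Set.univ ∧ 0 + δ < f ((iSeqV S).v m ω)))
        = fun m => (S m).P.pr (fun ω => δ < f ((S m).vec ω)) := by
      funext m
      refine congrArg (S m).P.pr (funext fun ω => propext ?_)
      simp only [Set.mem_univ, true_and, zero_add]
      exact Iff.rfl
    rw [e]
    exact h0 δ hδ)
  filter_upwards [h] with x hx
  exact hx (Set.mem_univ x)

theorem tr_pr_false {Ω : Type} [Fintype Ω] (P : FLaw Ω) : P.pr (fun _ => False) = 0 := by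
  unfold FLaw.pr
  simp

/-- an event without points of positive mass -/
theorem tr_pr_eq_zero {Ω : Type} [Fintype Ω] (P : FLaw Ω) (E : Ω → Prop) (h : ∀ ω, 0 < P.p ω → ¬ E ω) : P.pr E = 0 := by
  refine le_antisymm ?_ (tr_info_pr_nonneg _ _)
  rw [← tr_pr_false P]
  exact tr_info_pr_congr _ _ _ fun ω hω hE => h ω hω hE

theorem tr_calc_I0_empty (S : ISys Nm Ex) (ω : S.Ω) : S.I0 ∅ ω = 0 := by
  have h1 : S.ms ∅ ω = 1 := by
    unfold ISys.ms FLaw.fib
    have e : (fun ω' => S.jo ∅ ω' = S.jo ∅ ω) = fun _ => True := by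
      funext ω'
      refine propext ⟨fun _ => trivial, fun _ => ?_⟩
      exact (tr_jo_eq_iff S ∅ ω' ω).2 (fun a ha => absurd ha (Finset.notMem_empty a))
    rw [e]
    unfold FLaw.pr
    simp [S.P.sum_one]
  unfold ISys.I0
  rw [h1, Real.logb_one, neg_zero]

theorem tr_calc_I0_mono (S : ISys Nm Ex) (hL : 1 < S.L) (A B : Finset Nm) (hAB : A ⊆ B) (ω : S.Ω) (hω : 0 < S.P.p ω) :
    S.I0 A ω ≤ S.I0 B ω := by
  have h1 : 0 < S.ms B ω := tr_info_fib_pos _ _ _ hω
  have h2 : S.ms B ω ≤ S.ms A ω := by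
    refine tr_info_fib_mono _ _ _ (fun ω₁ ω₂ h => ?_) ω
    rw [tr_jo_eq_iff] at h ⊢
    exact fun a ha => h a (hAB ha)
  unfold ISys.I0
  have := Real.logb_le_logb_of_le hL h1 h2
  linarith

theorem tr_calc_sub_event (S : ISys Nm Ex) (hL : 1 < S.L) (A B W : Finset Nm) (δ : ℝ) (ω : S.Ω) (hω : 0 < S.P.p ω)
    (h : δ < (S.I0 (A ∪ (B ∪ W)) ω - S.I0 (B ∪ W) ω) - (S.I0 (A ∪ B) ω - S.I0 B ω)) :
    S.L ^ δ * (S.P.fib (FLaw.pair (S.jo A) (FLaw.pair (S.jo B) (S.jo W))) ω * S.P.fib (S.jo B) ω)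
      < S.P.fib (FLaw.pair (S.jo A) (S.jo B)) ω * S.P.fib (FLaw.pair (S.jo B) (S.jo W)) ω := by
  have hL0 : 0 < S.L := by linarith
  have e1 : S.P.fib (FLaw.pair (S.jo A) (FLaw.pair (S.jo B) (S.jo W))) ω = S.ms (A ∪ (B ∪ W)) ω := by
    unfold ISys.ms
    refine tr_fib_congr _ _ _ _ fun ω' => ?_
    rw [tr_jo_eq_iff, tr_agr_union, tr_agr_union, ← tr_jo_eq_iff, ← tr_jo_eq_iff, ← tr_jo_eq_iff]
    unfold FLaw.pair
    simp only [Prod.mk.injEq]
  rw [e1, ← tr_calc_ms_union, ← tr_calc_ms_union]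
  show S.L ^ δ * (S.ms (A ∪ (B ∪ W)) ω * S.ms B ω) < _
  have pa : 0 < S.ms (A ∪ (B ∪ W)) ω := tr_info_fib_pos _ _ _ hω
  have pb : 0 < S.ms (B ∪ W) ω := tr_info_fib_pos _ _ _ hω
  have pc : 0 < S.ms (A ∪ B) ω := tr_info_fib_pos _ _ _ hω
  have pd : 0 < S.ms B ω := tr_info_fib_pos _ _ _ hω
  unfold ISys.I0 at h
  have hLd : 0 < S.L ^ δ := Real.rpow_pos_of_pos hL0 _
  rw [← Real.logb_lt_logb_iff hL (by positivity) (by positivity), Real.logb_mul hLd.ne' (by positivity), Real.logb_mul pa.ne' pd.ne',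
    Real.logb_mul pc.ne' pb.ne', Real.logb_rpow hL0 hL.ne']
  linarith

/-- **almost every point of the limit space is an information function**.
`empty`, `mono`: exact at finite scale at points of positive mass (`tr_info_fib_mono`).  `submod`: `tr_info_cond` with `Lam = L^δ`, `tr_lim_ae_le`.  Countably many statements. -/
theorem tr_calc_ifun [Countable Nm] (S : ℕ → ISys Nm Ex) (hS : ISeqReg S) (μ : Measure (Finset Nm ⊕ Ex → ℝ)) [IsProbabilityMeasure μ]
    (hμ : (iSeqV S).IsLim μ) : ∀ᵐ x ∂μ, IFun x := by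
  have hzero : ∀ (E : ∀ m, (S m).Ω → Prop), (∀ᶠ m in uf, ∀ ω, 0 < (S m).P.p ω → ¬ E m ω) →
      Tendsto (fun m => (S m).P.pr (E m)) uf (𝓝 0) := by
    intro E hE
    refine tendsto_const_nhds.congr' ?_
    filter_upwards [hE] with m hm
    exact (tr_pr_eq_zero _ _ hm).symm
  have hL1 := hS.L_top.eventually_gt_atTop 1
  -- empty
  have he1 : ∀ᵐ x ∂μ, x (Sum.inl ∅) ≤ 0 := by
    refine tr_calc_ae_le S μ hμ {Sum.inl ∅} (fun x => x (Sum.inl ∅)) (continuous_apply _) (fun x y h => h _ (Finset.mem_singleton_self _))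
      (fun δ hδ => hzero _ (Eventually.of_forall fun m ω _ hlt => ?_))
    have : (S m).vec ω (Sum.inl ∅) = 0 := tr_calc_I0_empty (S m) ω
    rw [this] at hlt
    linarith
  have he2 : ∀ᵐ x ∂μ, -x (Sum.inl ∅) ≤ 0 := by
    refine tr_calc_ae_le S μ hμ {Sum.inl ∅} (fun x => -x (Sum.inl ∅)) (continuous_apply _).neg
      (fun x y h => by rw [h _ (Finset.mem_singleton_self _)])
      (fun δ hδ => hzero _ (Eventually.of_forall fun m ω _ hlt => ?_))
    have : (S m).vec ω (Sum.inl ∅) = 0 := tr_calc_I0_empty (S m) ω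
    rw [this] at hlt
    linarith
  -- mono
  have hm : ∀ A B : Finset Nm, A ⊆ B → ∀ᵐ x ∂μ, x (Sum.inl A) - x (Sum.inl B) ≤ 0 := by
    intro A B hAB
    refine tr_calc_ae_le S μ hμ {Sum.inl A, Sum.inl B} (fun x => x (Sum.inl A) - x (Sum.inl B))
      ((continuous_apply _).sub (continuous_apply _))
      (fun x y h => by rw [h (Sum.inl A) (by simp), h (Sum.inl B) (by simp)])
      (fun δ hδ => hzero _ ?_)
    filter_upwards [hL1] with m hLm ω hω hlt
    have h1 := tr_calc_I0_mono (S m) hLm A B hAB ω hω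
    have h2 : δ < (S m).I0 A ω - (S m).I0 B ω := hlt
    linarith
  -- submod
  have hs : ∀ A B W : Finset Nm, ∀ᵐ x ∂μ, cI x A (B ∪ W) - cI x A B ≤ 0 := by
    intro A B W
    refine tr_calc_ae_le S μ hμ {Sum.inl (A ∪ (B ∪ W)), Sum.inl (B ∪ W), Sum.inl (A ∪ B), Sum.inl B} (fun x => cI x A (B ∪ W) - cI x A B)
      (by unfold cI; fun_prop)
      (fun x y h => by
        unfold cI
        rw [h (Sum.inl (A ∪ (B ∪ W))) (by simp), h (Sum.inl (B ∪ W)) (by simp), h (Sum.inl (A ∪ B)) (by simp), h (Sum.inl B) (by simp)])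
      (fun δ hδ => ?_)
    refine tr_tendsto_zero_of_le _ (fun m => ((S m).L ^ δ)⁻¹) (fun m => tr_info_pr_nonneg _ _) ?_
      (tendsto_inv_atTop_zero.comp ((tendsto_rpow_atTop hδ).comp hS.L_top))
    filter_upwards [hL1] with m hLm
    have hL0 : 0 < (S m).L := by linarith
    calc (S m).P.pr (fun ω => δ < cI ((S m).vec ω) A (B ∪ W) - cI ((S m).vec ω) A B)
        ≤ (S m).P.pr (fun ω => (S m).L ^ δ * ((S m).P.fib (FLaw.pair ((S m).jo A) (FLaw.pair ((S m).jo B) ((S m).jo W))) ω * (S m).P.fib ((S m).jo B) ω)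
            < (S m).P.fib (FLaw.pair ((S m).jo A) ((S m).jo B)) ω * (S m).P.fib (FLaw.pair ((S m).jo B) ((S m).jo W)) ω) :=
          tr_info_pr_congr _ _ _ fun ω hω hlt => tr_calc_sub_event (S m) hLm A B W δ ω hω hlt
      _ ≤ 1 / (S m).L ^ δ := tr_info_cond _ _ _ _ _ (Real.rpow_pos_of_pos hL0 _)
      _ = ((S m).L ^ δ)⁻¹ := one_div _
  have hm' : ∀ᵐ x ∂μ, ∀ A B : Finset Nm, A ⊆ B → x (Sum.inl A) - x (Sum.inl B) ≤ 0 := by
    rw [ae_all_iff]; intro A
    rw [ae_all_iff]; intro B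
    by_cases hAB : A ⊆ B
    · filter_upwards [hm A B hAB] with x hx _
      exact hx
    · exact Eventually.of_forall fun x h => absurd h hAB
  have hs' : ∀ᵐ x ∂μ, ∀ A B W : Finset Nm, cI x A (B ∪ W) - cI x A B ≤ 0 := by
    rw [ae_all_iff]; intro A
    rw [ae_all_iff]; intro B
    rw [ae_all_iff]; intro W
    exact hs A B W
  filter_upwards [he1, he2, hm', hs'] with x h1 h2 h3 h4
  exact ⟨by linarith, fun A B hAB => by linarith [h3 A B hAB], fun A B W => by linarith [h4 A B W]⟩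

theorem tr_findep_mono {ι : Type} {U : Set (ι → ℝ)} {T T' : Finset ι} (h : FinDep U T) (hTT : T ⊆ T') : FinDep U T' :=
  fun x y hxy => h x y fun i hi => hxy i (hTT hi)

/-- the sampled conditional information against the conditional mass -/
theorem tr_calc_cI_vec (S : ISys Nm Ex) (A B : Finset Nm) (ω : S.Ω) :
    cI (S.vec ω) A B = - Real.logb S.L (S.ms (A ∪ B) ω) + Real.logb S.L (S.ms B ω) := by
  show S.I0 (A ∪ B) ω - S.I0 B ω = _
  unfold ISys.I0
  ring

theorem tr_calc_up_pt (S : ISys Nm Ex) (hL : 1 < S.L) (A B : Finset Nm) (c : ℝ) (ω : S.Ω) (hω : 0 < S.P.p ω) (h : c < cI (S.vec ω) A B) :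
    S.ms (A ∪ B) ω < S.L ^ (-c) * S.ms B ω := by
  have hL0 : 0 < S.L := by linarith
  rw [tr_calc_cI_vec] at h
  have pa : 0 < S.ms (A ∪ B) ω := tr_info_fib_pos _ _ _ hω
  have pb : 0 < S.ms B ω := tr_info_fib_pos _ _ _ hω
  have hp : 0 < S.L ^ (-c) := Real.rpow_pos_of_pos hL0 _
  rw [← Real.logb_lt_logb_iff hL pa (by positivity), Real.logb_mul hp.ne' pb.ne', Real.logb_rpow hL0 hL.ne']
  linarith

theorem tr_calc_low_pt (S : ISys Nm Ex) (hL : 1 < S.L) (A B : Finset Nm) (c : ℝ) (ω : S.Ω) (hω : 0 < S.P.p ω) (h : cI (S.vec ω) A B < c) :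
    S.L ^ (-c) * S.ms B ω < S.ms (A ∪ B) ω := by
  have hL0 : 0 < S.L := by linarith
  rw [tr_calc_cI_vec] at h
  have pa : 0 < S.ms (A ∪ B) ω := tr_info_fib_pos _ _ _ hω
  have pb : 0 < S.ms B ω := tr_info_fib_pos _ _ _ hω
  have hp : 0 < S.L ^ (-c) := Real.rpow_pos_of_pos hL0 _
  rw [← Real.logb_lt_logb_iff hL (by positivity) pa, Real.logb_mul hp.ne' pb.ne', Real.logb_rpow hL0 hL.ne']
  linarith

/-- upper bound of a conditional information from a lower bound of the conditional mass, on an open cylinder `U` -/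
theorem tr_calc_up (S : ℕ → ISys Nm Ex) (hS : ISeqReg S) (μ : Measure (Finset Nm ⊕ Ex → ℝ)) [IsProbabilityMeasure μ]
    (hμ : (iSeqV S).IsLim μ) (U : Set (Finset Nm ⊕ Ex → ℝ)) (T : Finset (Finset Nm ⊕ Ex)) (hU : IsOpen U) (hT : FinDep U T)
    (A B : Finset Nm) (a : ℝ)
    (h : ∀ δ : ℝ, 0 < δ → Tendsto (fun m => (S m).P.pr (fun ω => (S m).vec ω ∈ U ∧
      (S m).ms (A ∪ B) ω < (S m).L ^ (-a - δ) * (S m).ms B ω)) uf (𝓝 0)) :
    ∀ᵐ x ∂μ, x ∈ U → cI x A B ≤ a := by
  refine tr_lim_ae_le (iSeqV S) μ hμ U (T ∪ {Sum.inl (A ∪ B), Sum.inl B}) hU (tr_findep_mono hT Finset.subset_union_left)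
    (fun x => cI x A B) (by unfold cI; fun_prop)
    (fun x y hxy => by
      unfold cI
      rw [hxy (Sum.inl (A ∪ B)) (by simp), hxy (Sum.inl B) (by simp)]) a (fun δ hδ => ?_)
  refine tr_tendsto_zero_of_le _ _ (fun m => tr_info_pr_nonneg _ _) ?_ (h δ hδ)
  filter_upwards [hS.L_top.eventually_gt_atTop 1] with m hL
  show (S m).P.pr (fun ω => (S m).vec ω ∈ U ∧ a + δ < cI ((S m).vec ω) A B) ≤ _
  refine tr_info_pr_congr _ _ _ fun ω hω hE => ⟨hE.1, ?_⟩
  have := tr_calc_up_pt (S m) hL A B (a + δ) ω hω hE.2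
  rwa [neg_add'] at this

/-- lower bound of a conditional information from an upper bound of the conditional mass, on an open cylinder `U` -/
theorem tr_calc_low (S : ℕ → ISys Nm Ex) (hS : ISeqReg S) (μ : Measure (Finset Nm ⊕ Ex → ℝ)) [IsProbabilityMeasure μ]
    (hμ : (iSeqV S).IsLim μ) (U : Set (Finset Nm ⊕ Ex → ℝ)) (T : Finset (Finset Nm ⊕ Ex)) (hU : IsOpen U) (hT : FinDep U T)
    (A B : Finset Nm) (a : ℝ)
    (h : ∀ δ : ℝ, 0 < δ → Tendsto (fun m => (S m).P.pr (fun ω => (S m).vec ω ∈ U ∧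
      (S m).L ^ (-a + δ) * (S m).ms B ω < (S m).ms (A ∪ B) ω)) uf (𝓝 0)) :
    ∀ᵐ x ∂μ, x ∈ U → a ≤ cI x A B := by
  have key : ∀ᵐ x ∂μ, x ∈ U → - cI x A B ≤ -a := by
    refine tr_lim_ae_le (iSeqV S) μ hμ U (T ∪ {Sum.inl (A ∪ B), Sum.inl B}) hU (tr_findep_mono hT Finset.subset_union_left)
      (fun x => - cI x A B) (by unfold cI; fun_prop)
      (fun x y hxy => by
        unfold cI
        rw [hxy (Sum.inl (A ∪ B)) (by simp), hxy (Sum.inl B) (by simp)]) (-a) (fun δ hδ => ?_)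
    refine tr_tendsto_zero_of_le _ _ (fun m => tr_info_pr_nonneg _ _) ?_ (h δ hδ)
    filter_upwards [hS.L_top.eventually_gt_atTop 1] with m hL
    show (S m).P.pr (fun ω => (S m).vec ω ∈ U ∧ -a + δ < - cI ((S m).vec ω) A B) ≤ _
    refine tr_info_pr_congr _ _ _ fun ω hω hE => ⟨hE.1, ?_⟩
    have := tr_calc_low_pt (S m) hL A B (a - δ) ω hω (by linarith [hE.2])
    rwa [neg_sub', sub_neg_eq_add] at this
  filter_upwards [key] with x hx hxU
  linarith [hx hxU]

/-- **restricted determination rule** (H t:information).  On the open cylinder `U`: if, for every `δ`, for `𝓤`-most `m`, among the sample points of positive mass whose vector lies in `U` and which agree on `B` with a given point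
at most `L^{a+δ}` joint labels of `A` occur, then `I(A | B) ≤ a` almost surely on `U`.   (`tr_info_det` with `lam = L^{-a-2δ}` + `tr_calc_up`.)   Unrestricted rule: `U = univ`, `T = ∅`. -/
theorem tr_calc_det (S : ℕ → ISys Nm Ex) (hS : ISeqReg S) (μ : Measure (Finset Nm ⊕ Ex → ℝ)) [IsProbabilityMeasure μ]
    (hμ : (iSeqV S).IsLim μ) (U : Set (Finset Nm ⊕ Ex → ℝ)) (T : Finset (Finset Nm ⊕ Ex)) (hU : IsOpen U) (hT : FinDep U T)
    (A B : Finset Nm) (a : ℝ)
    (h : ∀ δ : ℝ, 0 < δ → ∀ᶠ m in uf, ∀ ω₀ : (S m).Ω,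
      (S m).Cnt (fun ω => (S m).vec ω ∈ U ∧ 0 < (S m).P.p ω ∧ (S m).Agr B ω ω₀) A ((S m).L ^ (a + δ))) :
    ∀ᵐ x ∂μ, x ∈ U → cI x A B ≤ a := by
  refine tr_calc_up S hS μ hμ U T hU hT A B a fun δ hδ => ?_
  have hδ2 : 0 < δ / 2 := by linarith
  refine tr_tendsto_zero_of_le _ (fun m => ((S m).L ^ (δ / 2))⁻¹) (fun m => tr_info_pr_nonneg _ _) ?_
    (tendsto_inv_atTop_zero.comp ((tendsto_rpow_atTop hδ2).comp hS.L_top))
  filter_upwards [h (δ / 2) hδ2, hS.L_top.eventually_gt_atTop 1] with m hm hL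
  have hL0 : 0 < (S m).L := by linarith
  have h1 := tr_info_det (S m).P ((S m).jo A) ((S m).jo B) (fun ω => (S m).vec ω ∈ U) ((S m).L ^ (a + δ / 2)) ((S m).L ^ (-a - δ))
    (Real.rpow_nonneg hL0.le _) (fun ω₀ F hF hinj => hm ω₀ F
      (fun ω hω => ⟨(hF ω hω).1, (hF ω hω).2.1, (tr_jo_eq_iff (S m) B ω ω₀).1 (hF ω hω).2.2⟩)
      (fun ω hω ω' hω' hag => hinj hω hω' ((tr_jo_eq_iff (S m) A ω ω').2 hag)))
  have e : (S m).L ^ (-a - δ) * (S m).L ^ (a + δ / 2) = ((S m).L ^ (δ / 2))⁻¹ := by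
    rw [← Real.rpow_add hL0, ← Real.rpow_neg hL0.le]
    congr 1
    ring
  rw [e] at h1
  refine le_trans (le_of_eq ?_) h1
  refine congrArg (S m).P.pr (funext fun ω => ?_)
  rw [tr_calc_ms_union]
  rfl

/-! ### algebra of information functions (deterministic) -/

variable {x : Finset Nm ⊕ Ex → ℝ}

theorem IFun.cI_nonneg (hx : IFun x) (A B : Finset Nm) : 0 ≤ cI x A B := by
  unfold cI
  have := hx.mono B (A ∪ B) Finset.subset_union_right
  linarith

/-- chain rule -/
theorem cI_chain (x : Finset Nm ⊕ Ex → ℝ) (A A' B : Finset Nm) : cI x (A ∪ A') B = cI x A B + cI x A' (A ∪ B) := by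
  unfold cI
  have e : A ∪ A' ∪ B = A' ∪ (A ∪ B) := by
    ext a; simp only [Finset.mem_union]; tauto
  rw [e]
  ring

/-- monotonicity in the first argument -/
theorem IFun.cI_mono_left (hx : IFun x) (A A' B : Finset Nm) (h : A ⊆ A') : cI x A B ≤ cI x A' B := by
  unfold cI
  have := hx.mono (A ∪ B) (A' ∪ B) (Finset.union_subset_union_left h)
  linarith

/-- conditioning on more lowers information -/
theorem IFun.cI_anti_right (hx : IFun x) (A B B' : Finset Nm) (h : B ⊆ B') : cI x A B' ≤ cI x A B := by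
  have := hx.submod A B B'
  rwa [Finset.union_eq_right.2 h] at this

/-- subadditivity -/
theorem IFun.cI_union_le (hx : IFun x) (A A' B : Finset Nm) : cI x (A ∪ A') B ≤ cI x A B + cI x A' B := by
  rw [cI_chain]
  have := hx.cI_anti_right A' B (A ∪ B) Finset.subset_union_right
  linarith

/-- names determined by the conditioning can be added to or removed from the first argument -/
theorem IFun.cI_of_det (hx : IFun x) (A A' B : Finset Nm) (h : cI x A' (A ∪ B) ≤ 0) : cI x (A ∪ A') B = cI x A B := by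
  rw [cI_chain]
  have := hx.cI_nonneg A' (A ∪ B)
  linarith

/-- names determined by the conditioning can be added to the conditioning: if `I(W | B) ≤ 0` then `I(A | B ∪ W) = I(A | B)` -/
theorem IFun.cI_cond_det (hx : IFun x) (A B W : Finset Nm) (h : cI x W B ≤ 0) : cI x A (B ∪ W) = cI x A B := by
  have h1 := hx.cI_nonneg W B
  have h2 := hx.cI_nonneg W (A ∪ B)
  have h3 := hx.cI_anti_right W B (A ∪ B) Finset.subset_union_right
  unfold cI at *
  have e1 : A ∪ (B ∪ W) = W ∪ (A ∪ B) := by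
    ext a; simp only [Finset.mem_union]; tauto
  have e2 : B ∪ W = W ∪ B := Finset.union_comm _ _
  rw [e1, e2]
  linarith

/-- exchange: if `A` and `A'` determine each other given `B` then they carry the same information given `B` -/
theorem IFun.cI_exchange (hx : IFun x) (A A' B : Finset Nm) (h : cI x A' (A ∪ B) ≤ 0) (h' : cI x A (A' ∪ B) ≤ 0) :
    cI x A B = cI x A' B := by
  rw [← hx.cI_of_det A A' B h, ← hx.cI_of_det A' A B h', Finset.union_comm]

/-- the symmetric form of a cost: `I(A | B) - I(A | B ∪ D) = I(D | B) - I(D | A ∪ B)` -/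
theorem cI_cost_symm (x : Finset Nm ⊕ Ex → ℝ) (A B D : Finset Nm) :
    cI x A B - cI x A (B ∪ D) = cI x D B - cI x D (A ∪ B) := by
  unfold cI
  have e1 : A ∪ (B ∪ D) = D ∪ (A ∪ B) := by
    ext a; simp only [Finset.mem_union]; tauto
  have e2 : B ∪ D = D ∪ B := Finset.union_comm _ _
  rw [e1, e2]
  ring

/-- Stores the on-demand equation lemmas of the definitions above in THIS module (rule 6 hygiene). -/
theorem tr_calc_forced : True := by
  have := @ISys.jo.eq_1
  have := @ISys.ms.eq_1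
  have := @ISys.I0.eq_1
  have := @ISys.vec.eq_1
  have := @ISys.Agr.eq_1
  have := @ISys.Cnt.eq_1
  have := @iSeqV.eq_1
  have := @cI.eq_1
  trivial

end Claimed.Agent.R257.TR
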