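import Claimed.Agent.R257.TR.Alg

/-!
# R257 / TR / Comb : the combinatorial half of t:transverse: there is no model with small `ε` and large `L`      (captain TR: helper217)

Chain:   `tr_model_false` ⟸ `tr_seq_false` ⟸ `tr_engine` (Eng/Main) with `μ = tLim M`, `X = tPath`, fed by
* `tr_seq_reg`, `tr_good_ae`  (FACTS: `TR/Fact*.lean`, on the geometric API `TR/Geo*.lean`),
* `tr_alg_*`                  (Alg.lean),
* `tr_bt_fin : BTFin M`       (`TR/BT*.lean`),     `tr_nj_fin : NJFin M`   (`TR/NJ*.lean`).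
The four inputs are HYPOTHESES here (Prop contracts); `TR/Top.lean` will plug the producers in.
-/

set_option autoImplicit false

namespace Claimed.Agent.R257.TR

open Claimed.Agent.R255 Claimed.Agent.R257 MeasureTheory Filter Topology
open scoped BigOperators ENNReal
open Classical

variable {n : ℕ}

/-- continuous functions of finitely many coordinates -/
def TrCylF {ι : Type} (f : (ι → ℝ) → ℝ) : Prop := Continuous f ∧ ∃ T : Finset ι, ∀ x y : ι → ℝ, (∀ i ∈ T, x i = y i) → f x = f y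

/-- open cylinders -/
def TrCyl {ι : Type} (U : Set (ι → ℝ)) : Prop := IsOpen U ∧ ∃ T, FinDep U T

theorem tr_cylF_const {ι : Type} (c : ℝ) : TrCylF (fun _ : ι → ℝ => c) := ⟨continuous_const, ∅, fun _ _ _ => rfl⟩

theorem tr_cylF_eval {ι : Type} (i : ι) : TrCylF (fun x : ι → ℝ => x i) :=
  ⟨continuous_apply i, {i}, fun _ _ h => h i (Finset.mem_singleton_self i)⟩

theorem TrCylF.sub {ι : Type} {f g : (ι → ℝ) → ℝ} (hf : TrCylF f) (hg : TrCylF g) : TrCylF (fun x => f x - g x) := by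
  obtain ⟨hf1, T, hT⟩ := hf
  obtain ⟨hg1, T', hT'⟩ := hg
  refine ⟨hf1.sub hg1, T ∪ T', fun x y h => ?_⟩
  show f x - g x = f y - g y
  rw [hT x y fun i hi => h i (Finset.mem_union_left _ hi), hT' x y fun i hi => h i (Finset.mem_union_right _ hi)]

theorem TrCylF.abs {ι : Type} {f : (ι → ℝ) → ℝ} (hf : TrCylF f) : TrCylF (fun x => |f x|) := by
  obtain ⟨hf1, T, hT⟩ := hf
  exact ⟨hf1.abs, T, fun x y h => by show |f x| = |f y|; rw [hT x y h]⟩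

theorem tr_cylF_cI {Nm Ex : Type} (A B : Finset Nm) : TrCylF (fun x : Finset Nm ⊕ Ex → ℝ => cI x A B) :=
  (tr_cylF_eval _).sub (tr_cylF_eval _)

theorem tr_cyl_lt {ι : Type} {f g : (ι → ℝ) → ℝ} (hf : TrCylF f) (hg : TrCylF g) : TrCyl {x | f x < g x} := by
  obtain ⟨hf1, T, hT⟩ := hf
  obtain ⟨hg1, T', hT'⟩ := hg
  refine ⟨isOpen_lt hf1 hg1, T ∪ T', fun x y h => ?_⟩
  show f x < g x ↔ f y < g y
  rw [hT x y fun i hi => h i (Finset.mem_union_left _ hi), hT' x y fun i hi => h i (Finset.mem_union_right _ hi)]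

theorem TrCyl.inter {ι : Type} {U V : Set (ι → ℝ)} (hU : TrCyl U) (hV : TrCyl V) : TrCyl (U ∩ V) := by
  obtain ⟨hU1, T, hT⟩ := hU
  obtain ⟨hV1, T', hT'⟩ := hV
  refine ⟨hU1.inter hV1, T ∪ T', fun x y h => ?_⟩
  rw [Set.mem_inter_iff, Set.mem_inter_iff, hT x y fun i hi => h i (Finset.mem_union_left _ hi),
    hT' x y fun i hi => h i (Finset.mem_union_right _ hi)]

theorem tr_cyl_biInter {ι κ : Type} (s : Finset κ) (U : κ → Set (ι → ℝ)) (h : ∀ k ∈ s, TrCyl (U k)) : TrCyl (⋂ k ∈ s, U k) := by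
  induction s using Finset.induction_on with
  | empty =>
    have e : (⋂ k ∈ (∅ : Finset κ), U k) = Set.univ := by simp
    rw [e]
    exact ⟨isOpen_univ, ∅, fun _ _ _ => Iff.rfl⟩
  | insert a s _ ih =>
    rw [Finset.set_biInter_insert]
    exact (h a (Finset.mem_insert_self a s)).inter (ih fun k hk => h k (Finset.mem_insert_of_mem hk))

theorem tr_ubt_open (d d₀ κ₀ α : ℝ) (N : ℕ) (j : Fin (n + 1)) (s b bs : ℚ) :
    IsOpen (UBT d d₀ κ₀ α N j s b bs : Set (TSp n)) ∧ ∃ T, FinDep (UBT d d₀ κ₀ α N j s b bs : Set (TSp n)) T := by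
  have e : (UBT d d₀ κ₀ α N j s b bs : Set (TSp n)) =
      {x | |cI x (nY n bs (s + b) j) ({TNm.X s} ∪ nD0 (rf0 n) bs) - 2 * d * b| < α * b} ∩
      ({x | |cI x (nY n bs (s + b) j) ({TNm.X s} ∪ nD1 n bs) - 2 * d * b| < α * b} ∩
      ({x | cI x {TNm.Pi bs (s + b) j} ({TNm.X s} ∪ nD1 n bs) < d * b + α * b} ∩
      ({x | cI x {TNm.Z (rf0 n) bs (s + b) 0} ({TNm.X s} ∪ nD0 (rf0 n) bs) < d * b + α * b} ∩
      ⋂ k ∈ Finset.Icc 1 N,
        ({x | 2 * d₀ * ((b * k / N : ℚ) : ℝ) - α * b < cI x (nY n bs (s + b * k / N) j) ({TNm.X s} ∪ nD0 (rf0 n) bs)} ∩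
        ({x | d₀ * ((b * k / N : ℚ) : ℝ) - α * b < cI x {TNm.Z (rf0 n) bs (s + b * k / N) 0} ({TNm.X s} ∪ nD0 (rf0 n) bs)} ∩
        {x | κ₀ * ((b * k / N : ℚ) : ℝ) - α * b < x (Sum.inr (TEx.h j (b * k / N)))}))))) := by
    ext x
    simp only [UBT, Set.mem_ofPred_eq, Set.mem_inter_iff, Set.mem_iInter, Finset.mem_Icc, and_imp]
  rw [e]
  refine (tr_cyl_lt ((tr_cylF_cI _ _).sub (tr_cylF_const _)).abs (tr_cylF_const _)).inter
    ((tr_cyl_lt ((tr_cylF_cI _ _).sub (tr_cylF_const _)).abs (tr_cylF_const _)).inter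
    ((tr_cyl_lt (tr_cylF_cI _ _) (tr_cylF_const _)).inter
    ((tr_cyl_lt (tr_cylF_cI _ _) (tr_cylF_const _)).inter
    (tr_cyl_biInter _ _ fun k _ => (tr_cyl_lt (tr_cylF_const _) (tr_cylF_cI _ _)).inter
      ((tr_cyl_lt (tr_cylF_const _) (tr_cylF_cI _ _)).inter (tr_cyl_lt (tr_cylF_const _) (tr_cylF_eval _)))))))

theorem tr_unj_open (η : ℝ) (s b : ℚ) : IsOpen (UNJ η s b : Set (TSp n)) ∧ ∃ T, FinDep (UNJ η s b : Set (TSp n)) T := by
  have e : (UNJ η s b : Set (TSp n)) =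
      {x | |cI x {TNm.X (s + b)} {TNm.X s} - ((n : ℝ) + 1) * b / 2| < η * b} ∩
      ({x | ((n : ℝ) + 1) * b / 2 - η * b < cI x {TNm.X (s + b / 2)} {TNm.X s}} ∩
      {x | (b : ℝ) / 2 - η * b < cI x {TNm.X (s + b)} ({TNm.X s} ∪ {TNm.T 0 false})}) := by
    ext x
    simp only [UNJ, Set.mem_ofPred_eq, Set.mem_inter_iff]
  rw [e]
  exact (tr_cyl_lt ((tr_cylF_cI _ _).sub (tr_cylF_const _)).abs (tr_cylF_const _)).inter
    ((tr_cyl_lt (tr_cylF_const _) (tr_cylF_cI _ _)).inter (tr_cyl_lt (tr_cylF_const _) (tr_cylF_cI _ _)))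

theorem tr_pTot_meas (s t bs : ℚ) : Measurable (fun x : TSp n => pTot x s t bs) := by
  unfold pTot pCost cI
  refine Finset.measurable_fun_sum _ fun W _ => ?_
  fun_prop

theorem tr_pTot_nonneg (x : TSp n) (s t bs : ℚ) : 0 ≤ pTot x s t bs := by
  unfold pTot
  exact Finset.sum_nonneg fun W _ => add_nonneg (le_max_left _ _) (le_max_left _ _)

/-- E3 from the pointwise bound -/
theorem tr_comb_E3 (μ : Measure (TSp n)) [IsProbabilityMeasure μ] (c₁ : ℝ) (hg : ∀ᵐ x ∂μ, TGood c₁ x) :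
    ECostHyp μ (tPath (n := n)) (((n : ℝ) + 3) * (2 * (((n : ℝ) + 2) * n))) := by
  intro bs s₀ t K hbs _ hs₀ ht htb _
  show ∑ k ∈ Finset.range K, ∫⁻ x, ENNReal.ofReal (pTot x (s₀ + k * bs) t bs) ∂μ ≤ _
  rw [← lintegral_finsetSum _ fun k _ => (tr_pTot_meas _ _ _).ennreal_ofReal]
  calc ∫⁻ x, ∑ k ∈ Finset.range K, ENNReal.ofReal (pTot x (s₀ + k * bs) t bs) ∂μ
      ≤ ∫⁻ _x, ENNReal.ofReal (((n : ℝ) + 3) * (2 * (((n : ℝ) + 2) * n)) * bs) ∂μ := by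
        apply lintegral_mono_ae
        filter_upwards [hg] with x hx
        rw [← ENNReal.ofReal_sum_of_nonneg fun k _ => tr_pTot_nonneg _ _ _ _]
        exact ENNReal.ofReal_le_ofReal (tr_alg_tot_chain hx bs s₀ t K hbs hs₀ ht htb)
    _ = _ := by simp

/-- E4 from `BTFin` (`ζ = α/6`; `tr_lim_null`, `tr_ubt_open`, `tr_alg_bt`) -/
theorem tr_comb_E4 (hn : 2 ≤ n) (M : ℕ → TModel n) (μ : Measure (TSp n)) [IsProbabilityMeasure μ] (hμ : (iSeqV (tSys M)).IsLim μ)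
    (c₁ : ℝ) (hg : ∀ᵐ x ∂μ, TGood c₁ x) (hbt : BTFin M) : EBlockHyp μ (tPath (n := n)) := by
  intro d d₀ κ₀ hd0 hd1 hd₀ hκ₀ hlt
  obtain ⟨α, hα, N, hN, hnull⟩ := hbt d d₀ κ₀ hd0 hd1 hd₀ hκ₀ hlt
  refine ⟨α / 6, by positivity, N, hN, fun j s b bs hB hb hbs => ?_⟩
  obtain ⟨hopen, T, hT⟩ := tr_ubt_open (n := n) d d₀ κ₀ α N (jx n j) s b bs
  have h0 : μ (UBT d d₀ κ₀ α N (jx n j) s b bs) = 0 := tr_lim_null _ μ hμ _ T hopen hT (hnull j s b bs hB hb hbs)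
  have h1 : ∀ᵐ x ∂μ, x ∉ (UBT d d₀ κ₀ α N (jx n j) s b bs : Set (TSp n)) := compl_mem_ae_iff.2 h0
  filter_upwards [hg, h1] with x hx hx1 hS
  apply hx1
  have := tr_alg_bt hn hx d d₀ κ₀ (α / 6) (by positivity) N hN j s b bs hB hb hS
  rwa [show 6 * (α / 6) = α by ring] at this

/-- E5 from `NJFin` -/
theorem tr_comb_E5 (hn : 2 ≤ n) (M : ℕ → TModel n) (μ : Measure (TSp n)) [IsProbabilityMeasure μ] (hμ : (iSeqV (tSys M)).IsLim μ)
    (c₁ : ℝ) (hg : ∀ᵐ x ∂μ, TGood c₁ x) (hnj : NJFin M) : EJumpHyp μ (tPath (n := n)) := by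
  obtain ⟨η, hη, hnull⟩ := hnj
  have hn2 : (0:ℝ) < (n : ℝ) + 2 := by positivity
  refine ⟨η / ((n : ℝ) + 2), by positivity, fun s b hB => ?_⟩
  obtain ⟨hopen, T, hT⟩ := tr_unj_open (n := n) η s b
  have h0 : μ (UNJ η s b) = 0 := tr_lim_null _ μ hμ _ T hopen hT (hnull s b hB)
  have h1 : ∀ᵐ x ∂μ, x ∉ (UNJ η s b : Set (TSp n)) := compl_mem_ae_iff.2 h0
  filter_upwards [hg, h1] with x hx hx1 hJ
  apply hx1
  have := tr_alg_nj hn hx (η / ((n : ℝ) + 2)) (by positivity) s b hB hJ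
  rwa [show ((n : ℝ) + 2) * (η / ((n : ℝ) + 2)) = η by field_simp] at this

/-- **no countersequence of models** (contracts as hypotheses) -/
theorem tr_seq_false (hn : 2 ≤ n) (M : ℕ → TModel n) (c₁ : ℝ) (hc : 0 < c₁) (hreg : ISeqReg (tSys M))
    (hg : ∀ᵐ x ∂(tLim M), TGood c₁ x) (hbt : BTFin M) (hnj : NJFin M) : False := by
  have : IsProbabilityMeasure (tLim M) := tr_lim_prob _ (tr_calc_tight _ hreg)
  have hμ : (iSeqV (tSys M)).IsLim (tLim M) := tr_lim_isLim _ (tr_calc_tight _ hreg)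
  have hn0 : (0 : ℝ) < n := by
    have : 0 < n := by omega
    exact_mod_cast this
  refine tr_engine (tLim M) (tPath (n := n)) ((n : ℝ) / (n + 1)) c₁ (((n : ℝ) + 3) * (2 * (((n : ℝ) + 2) * n)))
    (by positivity) (by rw [div_lt_one (by positivity)]; linarith) hc (by positivity)
    (fun s t bs => tr_pTot_meas s t bs) (fun x s t bs => tr_pTot_nonneg x s t bs) ?_ (tr_comb_E3 _ c₁ hg)
    (tr_comb_E4 hn M _ hμ c₁ hg hbt) (tr_comb_E5 hn M _ hμ c₁ hg hnj)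
  filter_upwards [hg] with x hx
  exact tr_alg_reg hn hx

/-- the statement of the combinatorial half -/
def ModelFalse (n : ℕ) : Prop :=
  ∀ R₀ c₁ Cτ : ℝ, 0 < c₁ → c₁ ≤ 1 → ∃ ε₀ : ℝ, 0 < ε₀ ∧ ∃ L₀ : ℝ, ∀ M : TModel n, M.Ok R₀ c₁ Cτ → M.ε ≤ ε₀ → L₀ ≤ M.L → False

/-- from sequences to one model: if `ModelFalse` fails choose `M m` with `ε ≤ 1/(m+1)`, `L ≥ m` -/
theorem tr_model_false (n : ℕ)
    (h : ∀ (R₀ c₁ Cτ : ℝ) (M : ℕ → TModel n), 0 < c₁ → c₁ ≤ 1 → TSeqOk M R₀ c₁ Cτ → False) : ModelFalse n := by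
  intro R₀ c₁ Cτ hc0 hc1
  by_contra hcon
  push Not at hcon
  have hex : ∀ m : ℕ, ∃ M : TModel n, M.Ok R₀ c₁ Cτ ∧ M.ε ≤ 1 / ((m : ℝ) + 1) ∧ (m : ℝ) ≤ M.L := by
    intro m
    obtain ⟨M, h1, h2, h3, -⟩ := hcon (1 / ((m : ℝ) + 1)) (by positivity) m
    exact ⟨M, h1, h2, h3⟩
  choose M hM using hex
  refine h R₀ c₁ Cτ M hc0 hc1 ⟨fun m => (hM m).1, ?_, ?_⟩
  · exact squeeze_zero (fun m => (hM m).1.ε_pos.le) (fun m => (hM m).2.1) tendsto_one_div_add_atTop_nhds_zero_nat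
  · exact tendsto_atTop_mono (fun m => (hM m).2.2) tendsto_natCast_atTop_atTop

/-- Stores the on-demand equation lemmas of the definitions above in THIS module (rule 6 hygiene). -/
theorem tr_comb_forced : True := by
  have := @ModelFalse.eq_1
  have := @TrCylF.eq_1
  have := @TrCyl.eq_1
  trivial

end Claimed.Agent.R257.TR
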