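import Claimed.Agent.R257.TR.FactT

/-!
# R257 / TR / FactH : the angular exponents: fields `h0`, `hmono`, `hsum` of `TGood`      (helper125)

H (t:angular-sum), `transverse.tex` l.478-499.
* `tr_fh_plane`   PAPER-FREE planar lemma: a finite law with two real observations `a, b`; if every square of half side `r` centred at a sample point has mass `≤ Mx` then
                   `P{ P(|a - a T| ≤ r) · P(|b - b T| ≤ r) > lam³ Mx } ≤ 7 / lam`.
* `tr_fh_sum_fin`  the finite-scale form of (t:angular-sum): planar lemma + `tr_geo_ratio_strip` + `tr_geo_law_one`.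
* EXITS  `tr_fh_h0`, `tr_fh_hmono`, `tr_fh_hsum`: the three fields under `∀ᵐ x ∂(tLim M)`, all quantifiers inside.
-/

set_option autoImplicit false

namespace Claimed.Agent.R257.TR

open Claimed.Agent.R255 Claimed.Agent.R257 MeasureTheory Filter Topology
open scoped BigOperators ENNReal InnerProductSpace
open Classical

/-! ### the planar lemma -/

section planar

variable {Ω : Type} [Fintype Ω]

/-- independence defect: `P{ lam P(k,l) < P(k) P(l) } ≤ 1/lam` -/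
theorem tr_fh_indep {α β : Type} (P : FLaw Ω) (k : Ω → α) (l : Ω → β) (lam : ℝ) (hlam : 0 < lam) :
    P.pr (fun ω => lam * P.fib (FLaw.pair k l) ω < P.fib k ω * P.fib l ω) ≤ 1 / lam := by
  have h := tr_info_cond P k (fun _ => ()) l lam hlam
  refine le_trans (le_of_eq ?_) h
  refine ent_pr_congr P fun ω _ => ?_
  have e1 : P.fib (FLaw.pair k (FLaw.pair (fun _ => ()) l)) ω = P.fib (FLaw.pair k l) ω :=
    tr_fib_congr _ _ _ _ fun ω' => by simp [FLaw.pair]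
  have e2 : P.fib (fun _ => ()) ω = 1 := by
    unfold FLaw.fib
    simpa using ent_pr_true P
  have e3 : P.fib (FLaw.pair k (fun _ => ())) ω = P.fib k ω :=
    tr_fib_congr _ _ _ _ fun ω' => by simp [FLaw.pair]
  have e4 : P.fib (FLaw.pair (fun _ => ()) l) ω = P.fib l ω :=
    tr_fib_congr _ _ _ _ fun ω' => by simp [FLaw.pair]
  rw [e1, e2, e3, e4, mul_one]

/-- the three neighbouring columns: `P{ lam P(k) < P(|k' - k| ≤ 1) } ≤ 3/lam` -/
theorem tr_fh_col3 (P : FLaw Ω) (k : Ω → ℤ) (lam : ℝ) (hlam : 0 < lam) :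
    P.pr (fun ω => lam * P.fib k ω < P.pr (fun ω' => |k ω' - k ω| ≤ 1)) ≤ 3 / lam := by
  have hm := ent_markov P (f := fun ω => P.pr (fun ω' => |k ω' - k ω| ≤ 1) / P.fib k ω)
    (fun ω _ => div_nonneg (ent_pr_nonneg P _) (ent_fib_nonneg P _ _)) hlam
  have hev : P.ev (fun ω => P.pr (fun ω' => |k ω' - k ω| ≤ 1) / P.fib k ω) ≤ 3 := by
    unfold FLaw.ev
    have e1 : ∀ ω, P.p ω * (P.pr (fun ω' => |k ω' - k ω| ≤ 1) / P.fib k ω)
        = ∑ ω', P.p ω' * (if |k ω' - k ω| ≤ 1 then P.p ω / P.fib k ω else 0) := by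
      intro ω
      unfold FLaw.pr
      rw [Finset.sum_div, Finset.mul_sum]
      refine Finset.sum_congr rfl fun ω' _ => ?_
      split_ifs
      · ring
      · simp
    rw [Finset.sum_congr rfl fun ω _ => e1 ω, Finset.sum_comm]
    calc ∑ ω', ∑ ω, P.p ω' * (if |k ω' - k ω| ≤ 1 then P.p ω / P.fib k ω else 0)
        = ∑ ω', P.p ω' * ∑ ω with |k ω' - k ω| ≤ 1, P.p ω / P.fib k ω := by
          refine Finset.sum_congr rfl fun ω' _ => ?_
          rw [Finset.sum_filter, Finset.mul_sum]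
      _ ≤ ∑ ω', P.p ω' * 3 := by
          refine Finset.sum_le_sum fun ω' _ => mul_le_mul_of_nonneg_left ?_ (P.nonneg ω')
          refine (tr_info_share_card P k _).trans ?_
          have hsub : (Finset.univ.filter fun ω => |k ω' - k ω| ≤ 1).image k ⊆ Finset.Icc (k ω' - 1) (k ω' + 1) := by
            intro b hb
            obtain ⟨ω, hω, rfl⟩ := Finset.mem_image.1 hb
            have := abs_le.1 (Finset.mem_filter.1 hω).2
            exact Finset.mem_Icc.2 ⟨by linarith [this.2], by linarith [this.1]⟩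
          have hc := Finset.card_le_card hsub
          rw [Int.card_Icc] at hc
          have h3 : (k ω' + 1 + 1 - (k ω' - 1)).toNat = 3 := by
            have : k ω' + 1 + 1 - (k ω' - 1) = 3 := by ring
            rw [this]
            rfl
          rw [h3] at hc
          exact_mod_cast hc
      _ = 3 := by rw [← Finset.sum_mul, P.sum_one, one_mul]
  refine le_trans (ent_pr_mono P fun ω hω h => ?_) (hm.trans (div_le_div_of_nonneg_right hev hlam.le))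
  rw [le_div_iff₀ (ent_fib_pos P _ hω)]
  exact h.le

theorem tr_fh_floor_near (x y : ℝ) (h : |x - y| ≤ 1) : |⌊x⌋ - ⌊y⌋| ≤ 1 := by
  rw [abs_le] at h ⊢
  constructor
  · have : ⌊y - 1⌋ ≤ ⌊x⌋ := Int.floor_mono (by linarith [h.1])
    rw [Int.floor_sub_one] at this
    linarith
  · have : ⌊x⌋ ≤ ⌊y + 1⌋ := Int.floor_mono (by linarith [h.2])
    rw [Int.floor_add_one] at this
    linarith

/-- **the planar lemma** -/
theorem tr_fh_plane (P : FLaw Ω) (a b : Ω → ℝ) (r Mx lam : ℝ) (hr : 0 < r) (hlam : 0 < lam)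
    (hM : ∀ ω₀, P.pr (fun ω => |a ω - a ω₀| ≤ r ∧ |b ω - b ω₀| ≤ r) ≤ Mx) :
    P.pr (fun ω => lam ^ 3 * Mx < P.pr (fun ω' => |a ω' - a ω| ≤ r) * P.pr (fun ω' => |b ω' - b ω| ≤ r)) ≤ 7 / lam := by
  obtain ⟨k, hk⟩ : ∃ k : Ω → ℤ, k = fun ω => ⌊a ω / r⌋ := ⟨_, rfl⟩
  obtain ⟨l, hl⟩ : ∃ l : Ω → ℤ, l = fun ω => ⌊b ω / r⌋ := ⟨_, rfl⟩
  have hnear : ∀ (c : Ω → ℝ) (ω ω' : Ω), |c ω' - c ω| ≤ r → |⌊c ω' / r⌋ - ⌊c ω / r⌋| ≤ 1 := by
    intro c ω ω' h
    refine tr_fh_floor_near _ _ ?_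
    rw [← sub_div, abs_div, abs_of_pos hr, div_le_one hr]
    exact h
  have hsame : ∀ (c : Ω → ℝ) (ω ω' : Ω), ⌊c ω' / r⌋ = ⌊c ω / r⌋ → |c ω' - c ω| ≤ r := by
    intro c ω ω' h
    have h1 := Int.abs_sub_lt_one_of_floor_eq_floor h
    rw [← sub_div, abs_div, abs_of_pos hr, div_lt_one hr] at h1
    exact h1.le
  have h1 := tr_fh_indep P k l lam hlam
  have h2 := tr_fh_col3 P k lam hlam
  have h3 := tr_fh_col3 P l lam hlam
  have hsub : P.pr (fun ω => lam ^ 3 * Mx < P.pr (fun ω' => |a ω' - a ω| ≤ r) * P.pr (fun ω' => |b ω' - b ω| ≤ r)) ≤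
      P.pr (fun ω => (lam * P.fib (FLaw.pair k l) ω < P.fib k ω * P.fib l ω ∨ lam * P.fib k ω < P.pr (fun ω' => |k ω' - k ω| ≤ 1)) ∨
        lam * P.fib l ω < P.pr (fun ω' => |l ω' - l ω| ≤ 1)) := by
    refine ent_pr_mono P fun ω _ h => ?_
    by_contra hcon
    push Not at hcon
    obtain ⟨⟨c1, c2⟩, c3⟩ := hcon
    have m1 : P.pr (fun ω' => |a ω' - a ω| ≤ r) ≤ lam * P.fib k ω :=
      le_trans (ent_pr_mono P fun ω' _ h' => by rw [hk]; exact hnear a ω ω' h') c2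
    have m2 : P.pr (fun ω' => |b ω' - b ω| ≤ r) ≤ lam * P.fib l ω :=
      le_trans (ent_pr_mono P fun ω' _ h' => by rw [hl]; exact hnear b ω ω' h') c3
    have m3 : P.fib (FLaw.pair k l) ω ≤ Mx := by
      rw [ent_fib_pair]
      refine le_trans (ent_pr_mono P fun ω' _ h' => ?_) (hM ω)
      rw [hk, hl] at h'
      exact ⟨hsame a ω ω' h'.1, hsame b ω ω' h'.2⟩
    have n1 := ent_pr_nonneg P (fun ω' => |a ω' - a ω| ≤ r)
    have n2 := ent_pr_nonneg P (fun ω' => |b ω' - b ω| ≤ r)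
    have n3 := ent_fib_nonneg P k ω
    have n4 := ent_fib_nonneg P l ω
    have : P.pr (fun ω' => |a ω' - a ω| ≤ r) * P.pr (fun ω' => |b ω' - b ω| ≤ r) ≤ lam ^ 3 * Mx := by
      calc _ ≤ (lam * P.fib k ω) * (lam * P.fib l ω) := mul_le_mul m1 m2 n2 (mul_nonneg hlam.le n3)
        _ = lam ^ 2 * (P.fib k ω * P.fib l ω) := by ring
        _ ≤ lam ^ 2 * (lam * P.fib (FLaw.pair k l) ω) := mul_le_mul_of_nonneg_left c1 (by positivity)
        _ ≤ lam ^ 2 * (lam * Mx) := by gcongr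
        _ = lam ^ 3 * Mx := by ring
    linarith
  refine hsub.trans ((ent_pr_or_le P _ _).trans ?_)
  have := ent_pr_or_le P (fun ω => lam * P.fib (FLaw.pair k l) ω < P.fib k ω * P.fib l ω)
    (fun ω => lam * P.fib k ω < P.pr (fun ω' => |k ω' - k ω| ≤ 1))
  have e : 7 / lam = 1 / lam + 3 / lam + 3 / lam := by ring
  rw [e]
  linarith

end planar

/-! ### the model -/

variable {n : ℕ}

/-- the `κ 0 X`-mass of the ball of radius `L^{-u}` about the ratio `a_j/a_0` of the tube `T` -/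
noncomputable def TModel.fhM (M : TModel n) (j : Fin (n + 1)) (u : ℚ) (ω : M.Om) (T : M.τ) : ℝ :=
  ∑ T' with |M.rat 0 j ω T' - M.rat 0 j ω T| ≤ M.L ^ (-(u : ℝ)), M.κ 0 ω.1 T'

/-- the law `κ 0 x` -/
noncomputable def TModel.fhLaw (M : TModel n) (x : M.π) : FLaw M.τ := ⟨M.κ 0 x, M.κ_nonneg 0 x, M.κ_sum 0 x⟩

theorem tr_fh_xv (M : TModel n) (j : Fin (n + 1)) (u : ℚ) (ω : M.Om) :
    M.xv (TEx.h j u) ω = clip01 (- Real.logb M.L (M.fhM j u ω (ω.2 (0, true)))) := rfl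

theorem tr_fh_vec (M : TModel n) (e : TEx n) (ω : M.Om) : M.sys.vec ω (Sum.inr e) = M.xv e ω := rfl

theorem tr_fh_pr (M : TModel n) (x : M.π) (E : M.τ → Prop) : (M.fhLaw x).pr E = ∑ T with E T, M.κ 0 x T := by
  unfold FLaw.pr
  rw [Finset.sum_filter]
  rfl

theorem tr_fh_M_pos (M : TModel n) (hL : 0 < M.L) (j : Fin (n + 1)) (u : ℚ) (ω : M.Om) (T : M.τ) (h : 0 < M.κ 0 ω.1 T) : 0 < M.fhM j u ω T := by
  refine lt_of_lt_of_le h ?_
  unfold TModel.fhM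
  refine Finset.single_le_sum (f := fun T' => M.κ 0 ω.1 T') (fun T' _ => M.κ_nonneg _ _ _) ?_
  rw [Finset.mem_filter]
  refine ⟨Finset.mem_univ _, ?_⟩
  rw [sub_self, abs_zero]
  exact (Real.rpow_pos_of_pos hL _).le

theorem tr_fh_M_anti (M : TModel n) (hL : 1 ≤ M.L) (j : Fin (n + 1)) (u v : ℚ) (huv : u ≤ v) (ω : M.Om) (T : M.τ) :
    M.fhM j v ω T ≤ M.fhM j u ω T := by
  unfold TModel.fhM
  refine Finset.sum_le_sum_of_subset_of_nonneg ?_ (fun T' _ _ => M.κ_nonneg _ _ _)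
  intro T' hT'
  rw [Finset.mem_filter] at hT' ⊢
  refine ⟨hT'.1, hT'.2.trans (Real.rpow_le_rpow_of_exponent_le hL ?_)⟩
  have : (u : ℝ) ≤ v := by exact_mod_cast huv
  linarith

theorem tr_fh_clip_mono {s t : ℝ} (h : s ≤ t) : clip01 s ≤ clip01 t := by
  unfold clip01
  exact min_le_min_left _ (max_le_max_left _ h)

theorem tr_fh_clip_ge {t : ℝ} (h : clip01 t < 1) : t ≤ clip01 t := by
  unfold clip01 at *
  rcases le_total 1 (max 0 t) with h1 | h1
  · rw [min_eq_left h1] at h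
    exact absurd h (lt_irrefl _)
  · rw [min_eq_right h1]
    exact le_max_right _ _

/-- the ratios do not see the alternative tube -/
theorem tr_fh_rat_upd (M : TModel n) (j : Fin (n + 1)) (ω : M.Om) (T' T : M.τ) :
    M.rat 0 j (ω.1, Function.update ω.2 (0, true) T') T = M.rat 0 j ω T := by
  have e : M.rfr (rf0 n) (ω.1, Function.update ω.2 (0, true) T') = M.rfr (rf0 n) ω := by
    funext i
    unfold TModel.rfr rf0
    dsimp only
    rw [Function.update_of_ne (by simp)]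
  unfold TModel.rat
  rw [e]

theorem tr_fh_M_upd (M : TModel n) (j : Fin (n + 1)) (u : ℚ) (ω : M.Om) (T' T : M.τ) :
    M.fhM j u (ω.1, Function.update ω.2 (0, true) T') T = M.fhM j u ω T := by
  unfold TModel.fhM
  simp only [tr_fh_rat_upd]

theorem tr_fh_idx (hn : 2 ≤ n) : (1 : Fin (n + 1)) ≠ 0 ∧ (2 : Fin (n + 1)) ≠ 0 ∧ (1 : Fin (n + 1)) ≠ 2 := by
  have v0 : ((0 : Fin (n + 1)) : ℕ) = 0 := rfl
  have v1 : ((1 : Fin (n + 1)) : ℕ) = 1 := by
    rw [Fin.val_one']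
    exact Nat.mod_eq_of_lt (by omega)
  have v2 : ((2 : Fin (n + 1)) : ℕ) = 2 := by
    show 2 % (n + 1) = 2
    exact Nat.mod_eq_of_lt (by omega)
  refine ⟨fun h => ?_, fun h => ?_, fun h => ?_⟩
  · rw [h] at v1; omega
  · rw [h] at v2; omega
  · rw [h] at v1; omega

/-- **(t:angular-sum) at finite scale** -/
theorem tr_fh_sum_fin (n : ℕ) (hn : 2 ≤ n) (R₀ : ℝ) : ∃ K : ℝ, 0 ≤ K ∧ ∀ (c₁ Cτ : ℝ) (M : TModel n), M.Ok R₀ c₁ Cτ → 0 ≤ c₁ → c₁ ≤ 1 →
    ∀ (u : ℚ) (δ : ℝ), 0 < u → u < 1 / 8 → 0 < δ → M.Sm K u → M.Sm K (δ / 4) →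
      M.law.pr (fun ω => M.xv (TEx.h 1 u) ω + M.xv (TEx.h 2 u) ω < c₁ * u - δ) ≤ 7 * M.L ^ (-(δ / 4)) := by
  obtain ⟨K, hK0, hK⟩ := tr_geo_ratio_strip n R₀
  refine ⟨K, hK0, ?_⟩
  intro c₁ Cτ M hM hc0 hc1 u δ hu hu8 hδ hs1 hs2
  have hL0 : 0 < M.L := tr_geo_L_pos hM
  have hL1 : 1 < M.L := by linarith [hM.L_ge]
  have hur : (0 : ℝ) < u := by exact_mod_cast hu
  have hur8 : (u : ℝ) < 1 / 8 := by
    have : ((u : ℚ) : ℝ) < ((1 / 8 : ℚ) : ℝ) := by exact_mod_cast hu8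
    simpa using this
  obtain ⟨h10, h20, h12⟩ := tr_fh_idx hn
  -- step 1: the event in terms of the two masses
  have s1 : M.law.pr (fun ω => M.xv (TEx.h 1 u) ω + M.xv (TEx.h 2 u) ω < c₁ * u - δ) ≤
      M.law.pr (fun ω => M.L ^ (-c₁ * u + δ) < M.fhM 1 u ω (ω.2 (0, true)) * M.fhM 2 u ω (ω.2 (0, true))) := by
    refine tr_info_pr_congr _ _ _ fun ω hp hω => ?_
    have hκ := tr_geo_law_pos M ω hp (0, true)
    have m1 := tr_fh_M_pos M hL0 1 u ω _ hκ
    have m2 := tr_fh_M_pos M hL0 2 u ω _ hκ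
    rw [tr_fh_xv, tr_fh_xv] at hω
    have b1 := tr_fact_clip_mem (- Real.logb M.L (M.fhM 1 u ω (ω.2 (0, true))))
    have b2 := tr_fact_clip_mem (- Real.logb M.L (M.fhM 2 u ω (ω.2 (0, true))))
    have hcu : c₁ * u ≤ 1 := by nlinarith
    have g1 := tr_fh_clip_ge (t := - Real.logb M.L (M.fhM 1 u ω (ω.2 (0, true)))) (by linarith [b2.1])
    have g2 := tr_fh_clip_ge (t := - Real.logb M.L (M.fhM 2 u ω (ω.2 (0, true)))) (by linarith [b1.1])
    rw [← Real.lt_logb_iff_rpow_lt hL1 (mul_pos m1 m2), Real.logb_mul m1.ne' m2.ne']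
    linarith
  refine s1.trans ?_
  -- step 2: condition on the point and the other tubes
  refine tr_geo_law_one M (0, true) (fun ω T => M.L ^ (-c₁ * u + δ) < M.fhM 1 u ω T * M.fhM 2 u ω T)
    (fun ω T T' => by rw [tr_fh_M_upd, tr_fh_M_upd]) _ fun ω => ?_
  -- step 3: the planar lemma
  have hlam : 0 < M.L ^ (δ / 4) := Real.rpow_pos_of_pos hL0 _
  have hpl := tr_fh_plane (M.fhLaw ω.1) (M.rat 0 1 ω) (M.rat 0 2 ω) (M.L ^ (-(u : ℝ))) (M.er K * M.L ^ (-c₁ * u)) (M.L ^ (δ / 4))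
    (Real.rpow_pos_of_pos hL0 _) hlam (fun T₀ => by
      rw [tr_fh_pr]
      have hne : coord (M.rfr (rf0 n) ω) (vdir (M.fr 0 T₀)) 0 ≠ 0 := by
        intro h0
        have := tr_geo_repl_low (M.L ^ M.ε) R₀ (M.rfr (rf0 n) ω) 0 (M.fr 0 T₀) (tr_geo_trv_rfr hM _ ω) (tr_geo_trv_rfr_upd hM _ ω 0 T₀)
          (hM.fr_bd 0 _)
        rw [h0, abs_zero, mul_zero] at this
        linarith
      have e : ∀ j, coord (M.rfr (rf0 n) ω) (vdir (M.fr 0 T₀)) j / coord (M.rfr (rf0 n) ω) (vdir (M.fr 0 T₀)) 0 = M.rat 0 j ω T₀ :=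
        fun j => rfl
      have h6 := hK c₁ Cτ M hM hc0 hc1 0 1 2 h10 h20 h12 ω (M.fr 0 T₀) (hM.fr_bd 0 T₀) hne u hur.le hur8.le hs1
      rw [e, e] at h6
      convert h6)
  rw [tr_fh_pr] at hpl
  have e7 : 7 / M.L ^ (δ / 4) = 7 * M.L ^ (-(δ / 4)) := by
    rw [Real.rpow_neg hL0.le, div_eq_mul_inv]
  rw [e7] at hpl
  refine le_trans (Finset.sum_le_sum_of_subset_of_nonneg ?_ fun T _ _ => M.κ_nonneg _ _ _) hpl
  intro T hT
  rw [Finset.mem_filter] at hT ⊢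
  refine ⟨hT.1, lt_of_le_of_lt ?_ (lt_of_lt_of_eq hT.2 ?_)⟩
  · have e : M.L ^ (-c₁ * u + δ) = (M.L ^ (δ / 4)) ^ 3 * (M.L ^ (δ / 4) * M.L ^ (-c₁ * u)) := by
      rw [← Real.rpow_natCast, ← Real.rpow_mul hL0.le, ← Real.rpow_add hL0, ← Real.rpow_add hL0]
      congr 1
      push_cast
      ring
    rw [e]
    have h5 : 0 < M.L ^ (-c₁ * (u : ℝ)) := Real.rpow_pos_of_pos hL0 _
    unfold TModel.Sm at hs2
    gcongr
  · rw [tr_fh_pr, tr_fh_pr]
    rfl

/-! ### the exits -/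

variable {M : ℕ → TModel n} {R₀ c₁ Cτ : ℝ}

/-- field `h0` of `TGood` -/
theorem tr_fh_h0 (hM : TSeqOk M R₀ c₁ Cτ) : ∀ᵐ x ∂(tLim M), ∀ (j : Fin (n + 1)) (u : ℚ), 0 ≤ x (Sum.inr (TEx.h j u)) := by
  rw [ae_all_iff]
  intro j
  rw [ae_all_iff]
  intro u
  have := tr_fact_ae_le hM {Sum.inr (TEx.h j u)} (fun x => - x (Sum.inr (TEx.h j u))) (continuous_apply _).neg
    (fun x y h => by
      show - x _ = - y _
      rw [h _ (Finset.mem_singleton_self _)]) 0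
    (Eventually.of_forall fun m ω _ => by
      show - (M m).sys.vec ω (Sum.inr (TEx.h j u)) ≤ 0
      rw [tr_fh_vec]
      linarith [(tr_fact_xv_mem (M m) (TEx.h j u) ω).1])
  filter_upwards [this] with x hx
  linarith

/-- field `hmono` of `TGood` -/
theorem tr_fh_hmono (hM : TSeqOk M R₀ c₁ Cτ) :
    ∀ᵐ x ∂(tLim M), ∀ (j : Fin (n + 1)) (u v : ℚ), u ≤ v → x (Sum.inr (TEx.h j u)) ≤ x (Sum.inr (TEx.h j v)) := by
  rw [ae_all_iff]
  intro j
  rw [ae_all_iff]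
  intro u
  rw [ae_all_iff]
  intro v
  by_cases huv : u ≤ v
  swap
  · exact Eventually.of_forall fun x h => absurd h huv
  have := tr_fact_ae_le hM {Sum.inr (TEx.h j u), Sum.inr (TEx.h j v)} (fun x => x (Sum.inr (TEx.h j u)) - x (Sum.inr (TEx.h j v)))
    ((continuous_apply _).sub (continuous_apply _))
    (fun x y h => by
      show x _ - x _ = y _ - y _
      rw [h _ (by simp), h _ (by simp)]) 0
    (Eventually.of_forall fun m ω hp => by
      show (M m).sys.vec ω (Sum.inr (TEx.h j u)) - (M m).sys.vec ω (Sum.inr (TEx.h j v)) ≤ 0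
      rw [tr_fh_vec, tr_fh_vec, tr_fh_xv, tr_fh_xv, sub_nonpos]
      have hL0 : 0 < (M m).L := tr_geo_L_pos (hM.ok m)
      have hL1 : 1 < (M m).L := by linarith [(hM.ok m).L_ge]
      have hκ := tr_geo_law_pos (M m) ω hp (0, true)
      refine tr_fh_clip_mono (neg_le_neg ?_)
      exact Real.logb_le_logb_of_le hL1 (tr_fh_M_pos (M m) hL0 j v ω _ hκ) (tr_fh_M_anti (M m) hL1.le j u v huv ω _))
  filter_upwards [this] with x hx _
  linarith

/-- field `hsum` of `TGood` = (t:angular-sum) -/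
theorem tr_fh_hsum (hn : 2 ≤ n) (hM : TSeqOk M R₀ c₁ Cτ) (hc0 : 0 ≤ c₁) (hc1 : c₁ ≤ 1) :
    ∀ᵐ x ∂(tLim M), ∀ u : ℚ, 0 < u → u < 1 / 8 → c₁ * u ≤ x (Sum.inr (TEx.h 1 u)) + x (Sum.inr (TEx.h 2 u)) := by
  rw [ae_all_iff]
  intro u
  by_cases hu : 0 < u ∧ u < 1 / 8
  swap
  · exact Eventually.of_forall fun x h1 h2 => absurd ⟨h1, h2⟩ hu
  obtain ⟨K, hK0, hK⟩ := tr_fh_sum_fin n hn R₀
  have hur : (0 : ℝ) < u := by exact_mod_cast hu.1
  have := tr_fact_prob hM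
  have key := tr_lim_ae_le _ _ (tr_fact_isLim hM) Set.univ {Sum.inr (TEx.h 1 u), Sum.inr (TEx.h 2 u)} isOpen_univ (fun _ _ _ => Iff.rfl)
    (fun x => - x (Sum.inr (TEx.h 1 u)) - x (Sum.inr (TEx.h 2 u))) ((continuous_apply _).neg.sub (continuous_apply _))
    (fun x y h => by
      show - x _ - x _ = - y _ - y _
      rw [h _ (by simp), h _ (by simp)]) (-(c₁ * u)) (by
      intro δ hδ
      refine tr_fact_squeeze hM _ 7 (δ / 4) (by positivity) (fun m => tr_info_pr_nonneg _ _) ?_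
      filter_upwards [tr_geo_sm_ev hM K u hur, tr_geo_sm_ev hM K (δ / 4) (by positivity)] with m h1 h2
      have h3 := hK c₁ Cτ (M m) (hM.ok m) hc0 hc1 u δ hu.1 hu.2 hδ h1 h2
      have hL0 : 0 < (M m).L := tr_geo_L_pos (hM.ok m)
      have h4 : 7 * (M m).L ^ (-(δ / 4)) ≤ (M m).er 7 * (M m).L ^ (-(δ / 4)) :=
        mul_le_mul_of_nonneg_right (tr_geo_er_const (hM.ok m) 7 7 (by norm_num) le_rfl) (Real.rpow_pos_of_pos hL0 _).le
      refine le_trans ?_ (h3.trans h4)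
      refine tr_info_pr_congr (M m).law _ _ fun ω _ hω => ?_
      have h5 : -(c₁ * u) + δ < - (M m).sys.vec ω (Sum.inr (TEx.h 1 u)) - (M m).sys.vec ω (Sum.inr (TEx.h 2 u)) := hω.2
      rw [tr_fh_vec, tr_fh_vec] at h5
      linarith)
  filter_upwards [key] with x hx _ _
  have := hx (Set.mem_univ _)
  linarith

/-- Stores the on-demand equation lemmas of the definitions above in THIS module (rule 6 hygiene). -/
theorem tr_fh_forced : True := by
  have := @TModel.fhM.eq_1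
  have := @TModel.fhLaw.eq_1
  trivial

end Claimed.Agent.R257.TR
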