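import Claimed.Agent.R257.TR.FactY
import Claimed.Agent.R257.TR.FactS.Main
import Claimed.Agent.R257.TR.FactH

/-!
# R257 / TR / Fact : almost every point of the limit space of a countersequence of models is good      (chief FACTS: helper84)

Glue: `FactY` (helper84: ifun, nest, F_*, G_one, child, bin, zx, xz, off), `FactS/Main` (helper53: slope, r_nonneg, onepos, pi1-3), `FactH` (helper125: h0, hmono, hsum).   EXIT: `tr_good_ae`.
-/

set_option autoImplicit false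

namespace Claimed.Agent.R257.TR

open Claimed.Agent.R255 Claimed.Agent.R257 MeasureTheory Filter Topology
open scoped BigOperators ENNReal InnerProductSpace
open Classical

variable {n : ℕ} {M : ℕ → TModel n} {R₀ c₁ Cτ : ℝ}

theorem tr_good_of (hM : TSeqOk M R₀ c₁ Cτ) (hc : 0 < c₁) (hc1 : c₁ ≤ 1)
    (h0 : ∀ᵐ x ∂(tLim M), ∀ (j : Fin (n + 1)) (u : ℚ), 0 ≤ x (Sum.inr (TEx.h j u)))
    (hmono : ∀ᵐ x ∂(tLim M), ∀ (j : Fin (n + 1)) (u v : ℚ), u ≤ v → x (Sum.inr (TEx.h j u)) ≤ x (Sum.inr (TEx.h j v)))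
    (hsum : ∀ᵐ x ∂(tLim M), ∀ u : ℚ, 0 < u → u < 1 / 8 → c₁ * u ≤ x (Sum.inr (TEx.h 1 u)) + x (Sum.inr (TEx.h 2 u))) :
    ∀ᵐ x ∂(tLim M), TGood c₁ x := by
  have := tr_fact_prob hM
  have hreg := tr_seq_reg hM
  have hμ := tr_fact_isLim hM
  filter_upwards [tr_fact_ifun hM, tr_fact_nest hM, tr_fact_Flow hM, tr_fact_Fone hM, tr_fact_Fzero hM, tr_fact_Gone hM, tr_fact_child hM,
    tr_fact_bin hM, tr_fact_zx hM, tr_fact_xz hM, tr_fact_off hM, tr_fs_slope hM hreg _ hμ, tr_fs_r_nonneg _ hμ, tr_fs_onepos hM hc hc1 _ hμ,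
    tr_fs_pi1 hM hreg _ hμ, tr_fs_pi2 hM hreg _ hμ, tr_fs_pi3 hM hreg _ hμ, h0, hmono, hsum]
    with x a1 a2 a3 a4 a5 a6 a7 a8 a9 a10 a11 a12 a13 a14 a15 a16 a17 a18 a19 a20
  exact ⟨a1, a2, a3, a4, a5, a6, a7, a8, a9, a10, a11, a12, a13, a14, a15, a16, a17, a18, a19, a20⟩

/-- **EXIT of the post FACTS**: almost every point of the limit space is good -/
theorem tr_good_ae (hn : 2 ≤ n) (hM : TSeqOk M R₀ c₁ Cτ) (hc : 0 < c₁) (hc1 : c₁ ≤ 1) : ∀ᵐ x ∂(tLim M), TGood c₁ x :=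
  tr_good_of hM hc hc1 (tr_fh_h0 hM) (tr_fh_hmono hM) (tr_fh_hsum hn hM hc.le hc1)

end Claimed.Agent.R257.TR
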