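import Claimed.Agent.R257.TR.FactT

/-!
# R257 / TR / FactX : the finite-scale facts behind the fields `nest, F_low, F_one, F_zero, G_one, child, bin, zx, xz, off` of `TGood`      (chief FACTS: helper84)

One model `M` with `M.Ok R₀ c₁ Cτ`.  Convention of `GeoC`: `∃ K` (depending on `n, R₀` only), error factor `M.er K`, smallness `M.Sm K bs`.   Proof notes: `TR/Plan.lean` section 2 and the docstrings.   The almost sure versions are in `FactY.lean`.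
TECHNICAL: `M.sys.Ω` is `M.Om` only up to unfolding, so `rw [tr_geo_agr_X]` may fail: use `(tr_geo_agr_X M s ω ω').1 h` / `.2`.
-/

set_option autoImplicit false

namespace Claimed.Agent.R257.TR

open Claimed.Agent.R255 Claimed.Agent.R257 MeasureTheory Filter Topology
open scoped BigOperators ENNReal InnerProductSpace
open Classical

variable {n : ℕ} {R₀ c₁ Cτ : ℝ}

/-- nested grids -/
theorem tr_fact_nest_fin {M : TModel n} (hM : M.Ok R₀ c₁ Cτ) (s s' : ℚ) (h : s ≤ s') (ω₀ : M.Om) :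
    M.sys.Cnt (fun ω => M.sys.Agr {TNm.X s'} ω ω₀) {TNm.X s} 1 := by
  refine tr_geo_cnt_one _ _ _ ?_
  intro ω ω' hω hω'
  have h1 := tr_geo_agr_trans _ _ _ _ _ hω (tr_geo_agr_symm _ _ _ _ hω')
  exact (tr_geo_agr_X M s ω ω').2 (tr_geo_cell_nest _ _ (tr_geo_sc_mono _ hM.L_ge _ _ h) _ _ ((tr_geo_agr_X M s' ω ω').1 h1))

/-- **number of points in a cell** of exponent `s ∈ [0,1]`.  The cell lies in `closedBall (pos x₀) r`, `r = (n+1) 2^{-k}` (`tr_geo_cell_close`, sup norm of `ST n`), `L⁻¹ ≤ 2^{-k} ≤ 2 L^{-s}`.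
If `r ≤ 1`: `hM.ball`.  If `r > 1`: `#π ≤ L^{n+ε}` (`tr_geo_card_hi`) and `1 ≤ r^n`.  In both cases `# ≤ L^{n+ε} r^n ≤ L^{n+ε} (2(n+1))^n L^{-ns}`. -/
theorem tr_fact_cell_card {M : TModel n} (hM : M.Ok R₀ c₁ Cτ) (s : ℚ) (hs : 0 ≤ s) (hs1 : s ≤ 1) (x₀ : M.π) :
    ((Finset.univ.filter (fun x => cellL (sc M.L s) (M.pos x) = cellL (sc M.L s) (M.pos x₀))).card : ℝ)
      ≤ (2 * ((n : ℝ) + 1)) ^ n * M.L ^ ((n : ℝ) + M.ε) * M.L ^ (-(n : ℝ) * s) := by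
  have hL0 : 0 < M.L := tr_geo_L_pos hM
  have hL1 : 1 ≤ M.L := by linarith [hM.L_ge]
  have hs1' : (s : ℝ) ≤ 1 := by exact_mod_cast hs1
  obtain ⟨d, hd⟩ : ∃ d : ℝ, d = ((2 : ℝ) ^ (sc M.L s))⁻¹ := ⟨_, rfl⟩
  have hd0 : 0 < d := by rw [hd]; positivity
  have hdlo : M.L⁻¹ ≤ d := by
    rw [hd]
    refine le_trans ?_ (tr_geo_sc_inv_ge M.L hM.L_ge s hs)
    rw [← Real.rpow_neg_one]
    exact Real.rpow_le_rpow_of_exponent_le hL1 (by linarith)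
  have hdhi : d ≤ 2 * M.L ^ (-(s : ℝ)) := by
    rw [hd]
    exact tr_geo_sc_inv_le M.L hM.L_ge s
  have hn0 : (0 : ℝ) ≤ n := Nat.cast_nonneg n
  have hr0 : 0 ≤ ((n : ℝ) + 1) * d := by positivity
  have hLp : 0 < M.L ^ ((n : ℝ) + M.ε) := Real.rpow_pos_of_pos hL0 _
  have hsub : (Finset.univ.filter (fun x => cellL (sc M.L s) (M.pos x) = cellL (sc M.L s) (M.pos x₀)))
      ⊆ Finset.univ.filter (fun x => M.pos x ∈ Metric.closedBall (M.pos x₀) (((n : ℝ) + 1) * d)) := by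
    intro x hx
    rw [Finset.mem_filter] at hx ⊢
    refine ⟨Finset.mem_univ _, ?_⟩
    obtain ⟨-, h1, h2⟩ := tr_geo_cell_close _ _ _ hx.2
    rw [← hd] at h1 h2
    rw [Metric.mem_closedBall, dist_eq_norm, Prod.norm_def]
    refine max_le ?_ ?_
    · show ‖(M.pos x).1 - (M.pos x₀).1‖ ≤ _
      nlinarith
    · show ‖(M.pos x).2 - (M.pos x₀).2‖ ≤ _
      rw [Real.norm_eq_abs]
      nlinarith
  have hcard : ((Finset.univ.filter (fun x => cellL (sc M.L s) (M.pos x) = cellL (sc M.L s) (M.pos x₀))).card : ℝ)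
      ≤ M.L ^ ((n : ℝ) + M.ε) * (((n : ℝ) + 1) * d) ^ n := by
    by_cases hr : ((n : ℝ) + 1) * d ≤ 1
    · refine le_trans ?_ (hM.ball (M.pos x₀) _ (hdlo.trans (by nlinarith)) hr)
      exact_mod_cast Finset.card_le_card hsub
    · push Not at hr
      have h1 : ((Finset.univ.filter (fun x => cellL (sc M.L s) (M.pos x) = cellL (sc M.L s) (M.pos x₀))).card : ℝ) ≤ (Fintype.card M.π : ℝ) := by
        exact_mod_cast Finset.card_le_univ _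
      have h2 : (1 : ℝ) ≤ (((n : ℝ) + 1) * d) ^ n := one_le_pow₀ hr.le
      calc _ ≤ (Fintype.card M.π : ℝ) := h1
        _ ≤ M.L ^ ((n : ℝ) + M.ε) := tr_geo_card_hi hM
        _ = M.L ^ ((n : ℝ) + M.ε) * 1 := (mul_one _).symm
        _ ≤ _ := mul_le_mul_of_nonneg_left h2 hLp.le
  have hpow : (((n : ℝ) + 1) * d) ^ n ≤ (2 * ((n : ℝ) + 1)) ^ n * M.L ^ (-(n : ℝ) * s) := by
    have e : M.L ^ (-(n : ℝ) * s) = (M.L ^ (-(s : ℝ))) ^ n := by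
      rw [← Real.rpow_natCast, ← Real.rpow_mul hL0.le]
      congr 1
      ring
    rw [e, ← mul_pow]
    refine pow_le_pow_left₀ hr0 ?_ n
    calc ((n : ℝ) + 1) * d ≤ ((n : ℝ) + 1) * (2 * M.L ^ (-(s : ℝ))) := mul_le_mul_of_nonneg_left hdhi (by positivity)
      _ = _ := by ring
  calc _ ≤ M.L ^ ((n : ℝ) + M.ε) * (((n : ℝ) + 1) * d) ^ n := hcard
    _ ≤ M.L ^ ((n : ℝ) + M.ε) * ((2 * ((n : ℝ) + 1)) ^ n * M.L ^ (-(n : ℝ) * s)) := mul_le_mul_of_nonneg_left hpow hLp.le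
    _ = _ := by ring

/-- mass of a cell (`tr_geo_ms_eq`, `tr_geo_agr_X`, `tr_geo_law_pt`) -/
theorem tr_fact_ms_X (M : TModel n) (s : ℚ) (ω : M.Om) :
    M.sys.ms {TNm.X s} ω = (Fintype.card M.π : ℝ)⁻¹ *
      ((Finset.univ.filter (fun x => cellL (sc M.L s) (M.pos x) = cellL (sc M.L s) (M.pos ω.1))).card : ℝ) := by
  calc M.sys.ms {TNm.X s} ω = M.law.pr (fun ω' => M.sys.Agr {TNm.X s} ω' ω) := tr_geo_ms_eq M.sys _ ω
    _ = M.law.pr (fun ω' => cellL (sc M.L s) (M.pos ω'.1) = cellL (sc M.L s) (M.pos ω.1)) :=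
        congrArg M.law.pr (funext fun ω' => propext (tr_geo_agr_X M s ω' ω))
    _ = _ := by
        rw [tr_geo_law_pt M (fun x => cellL (sc M.L s) (M.pos x) = cellL (sc M.L s) (M.pos ω.1))]
        congr!

/-- mass of a tube (`tr_geo_law_marg`) -/
theorem tr_fact_ms_T (M : TModel n) (i : Fin (n + 1)) (β : Bool) (ω : M.Om) :
    M.sys.ms {TNm.T i β} ω = (Fintype.card M.π : ℝ)⁻¹ * ∑ x, M.κ i x (ω.2 (i, β)) := by
  calc M.sys.ms {TNm.T i β} ω = M.law.pr (fun ω' => M.sys.Agr {TNm.T i β} ω' ω) := tr_geo_ms_eq M.sys _ ω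
    _ = M.law.pr (fun ω' => ω'.2 (i, β) = ω.2 (i, β)) :=
        congrArg M.law.pr (funext fun ω' => propext (tr_geo_agr_T M i β ω' ω))
    _ = _ := tr_geo_law_marg M (i, β) (fun _ T => T = ω.2 (i, β))
    _ = _ := by
        congr 1
        refine Finset.sum_congr rfl fun x _ => ?_
        rw [Finset.sum_filter, Finset.sum_ite_eq' Finset.univ (ω.2 (i, β)) (fun T => M.κ i x T)]
        simp

/-- mass of (cell, tube) -/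
theorem tr_fact_ms_XT (M : TModel n) (s : ℚ) (i : Fin (n + 1)) (β : Bool) (ω : M.Om) :
    M.sys.ms ({TNm.X s} ∪ {TNm.T i β}) ω = (Fintype.card M.π : ℝ)⁻¹ *
      ∑ x with cellL (sc M.L s) (M.pos x) = cellL (sc M.L s) (M.pos ω.1), M.κ i x (ω.2 (i, β)) := by
  calc M.sys.ms ({TNm.X s} ∪ {TNm.T i β}) ω = M.law.pr (fun ω' => M.sys.Agr ({TNm.X s} ∪ {TNm.T i β}) ω' ω) := tr_geo_ms_eq M.sys _ ω
    _ = M.law.pr (fun ω' => cellL (sc M.L s) (M.pos ω'.1) = cellL (sc M.L s) (M.pos ω.1) ∧ ω'.2 (i, β) = ω.2 (i, β)) :=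
        congrArg M.law.pr (funext fun ω' => propext
          ((tr_geo_agr_union M.sys _ _ ω' ω).trans (and_congr (tr_geo_agr_X M s ω' ω) (tr_geo_agr_T M i β ω' ω))))
    _ = _ := tr_geo_law_marg M (i, β) (fun x T => cellL (sc M.L s) (M.pos x) = cellL (sc M.L s) (M.pos ω.1) ∧ T = ω.2 (i, β))
    _ = _ := by
        congr 1
        rw [Finset.sum_filter]
        refine Finset.sum_congr rfl fun x _ => ?_
        by_cases hx : cellL (sc M.L s) (M.pos x) = cellL (sc M.L s) (M.pos ω.1)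
        · simp only [hx, true_and, if_true]
          rw [Finset.sum_filter, Finset.sum_ite_eq' Finset.univ (ω.2 (i, β)) (fun T => M.κ i x T)]
          simp
        · simp [hx]

/-- `#π⁻¹ ≤ L^{-(n-ε)}` -/
theorem tr_fact_card_inv {M : TModel n} (hM : M.Ok R₀ c₁ Cτ) : (Fintype.card M.π : ℝ)⁻¹ ≤ M.L ^ (-((n : ℝ) - M.ε)) := by
  have hL0 : 0 < M.L := tr_geo_L_pos hM
  rw [Real.rpow_neg hL0.le]
  exact inv_anti₀ (Real.rpow_pos_of_pos hL0 _) hM.card_lo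

/-- (t:profile-endpoints), first assertion: `ms = #cell / #π`, `tr_fact_cell_card`, `hM.card_lo`.   `K = (2(n+1))^n + 2`. -/
theorem tr_fact_Flow_fin (n : ℕ) : ∃ K : ℝ, 0 ≤ K ∧ ∀ (R₀ c₁ Cτ : ℝ) (M : TModel n), M.Ok R₀ c₁ Cτ →
    ∀ s : ℚ, 0 ≤ s → s ≤ 1 → ∀ ω : M.Om, M.sys.ms {TNm.X s} ω ≤ M.er K * M.L ^ (-(n : ℝ) * s) := by
  have hC : (0 : ℝ) ≤ (2 * ((n : ℝ) + 1)) ^ n := by positivity
  refine ⟨(2 * ((n : ℝ) + 1)) ^ n + 2, by positivity, fun R₀ c₁ Cτ M hM s hs hs1 ω => ?_⟩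
  have hL0 : 0 < M.L := tr_geo_L_pos hM
  rw [tr_fact_ms_X]
  have h1 := tr_fact_cell_card hM s hs hs1 ω.1
  have h2 := tr_fact_card_inv hM
  have h3 : 0 ≤ M.L ^ (-(n : ℝ) * s) := (Real.rpow_pos_of_pos hL0 _).le
  calc _ ≤ M.L ^ (-((n : ℝ) - M.ε)) * ((2 * ((n : ℝ) + 1)) ^ n * M.L ^ ((n : ℝ) + M.ε) * M.L ^ (-(n : ℝ) * s)) :=
        mul_le_mul h2 h1 (Nat.cast_nonneg _) (Real.rpow_pos_of_pos hL0 _).le
    _ = ((2 * ((n : ℝ) + 1)) ^ n * (M.L ^ (-((n : ℝ) - M.ε)) * M.L ^ ((n : ℝ) + M.ε))) * M.L ^ (-(n : ℝ) * s) := by ring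
    _ = ((2 * ((n : ℝ) + 1)) ^ n * M.L ^ (2 * M.ε)) * M.L ^ (-(n : ℝ) * s) := by
        rw [← Real.rpow_add hL0]
        congr 3
        ring
    _ ≤ _ := mul_le_mul_of_nonneg_right (tr_geo_er_le hM _ 2 _ hC (by linarith) (by linarith)) h3

/-- (t:profile-endpoints), second assertion: the cell is a function of the point (`tr_geo_cnt_card` with `f ω = ω.1`, `tr_geo_card_hi`) -/
theorem tr_fact_Fone_fin {M : TModel n} (hM : M.Ok R₀ c₁ Cτ) (E : M.Om → Prop) (s : ℚ) :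
    M.sys.Cnt E {TNm.X s} (M.L ^ ((n : ℝ) + M.ε)) := by
  refine tr_geo_cnt_mono M.sys E E _ _ _ (fun _ h => h) (tr_geo_card_hi hM)
    (tr_geo_cnt_card M.sys E {TNm.X s} (β := M.π) (fun ω : M.Om => ω.1) fun ω ω' _ _ h => ?_)
  refine (tr_geo_agr_X M s ω ω').2 ?_
  have h' : Prod.fst (α := M.π) (β := Fin (n + 1) × Bool → M.τ) ω = Prod.fst (α := M.π) (β := Fin (n + 1) × Bool → M.τ) ω' := h
  rw [h']

/-- cells of side one (`tr_geo_cnt_cell` with `lam = 2`, `tr_geo_sc_zero`, `hM.pos_bd`) -/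
theorem tr_fact_Fzero_fin {M : TModel n} (hM : M.Ok R₀ c₁ Cτ) (E : M.Om → Prop) : M.sys.Cnt E {TNm.X 0} (6 ^ (n + 1)) := by
  have h := tr_geo_cnt_cell M E 0 2 2 (by norm_num) (by norm_num) fun ω ω' _ _ => by
    rw [tr_geo_sc_zero, pow_zero, inv_one, mul_one]
    have h1 := hM.pos_bd ω.1
    have h2 := hM.pos_bd ω'.1
    have a1 : ‖(M.pos ω.1).1‖ ≤ 1 := (norm_fst_le _).trans h1
    have a2 : ‖(M.pos ω'.1).1‖ ≤ 1 := (norm_fst_le _).trans h2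
    have b1 : ‖(M.pos ω.1).2‖ ≤ 1 := (norm_snd_le _).trans h1
    have b2 : ‖(M.pos ω'.1).2‖ ≤ 1 := (norm_snd_le _).trans h2
    constructor
    · exact (norm_sub_le _ _).trans (by linarith)
    · rw [← Real.norm_eq_abs]
      exact (norm_sub_le _ _).trans (by linarith)
  have e : ((2 : ℝ) * 2 + 2) ^ n * (2 * 2 + 2) = 6 ^ (n + 1) := by
    rw [pow_succ]
    norm_num
  rw [e] at h
  exact h

/-- the probability of sampling a tube whose marginal probability is `< c w(T)` is `≤ c ∑ w`.   (`tr_fact_ms_T`, `tr_geo_law_marg` with `G x T = (p_T < c w T)`, exchange the sums.) -/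
theorem tr_fact_light {M : TModel n} (hM : M.Ok R₀ c₁ Cτ) (i : Fin (n + 1)) (β : Bool) (c : ℝ) (hc : 0 ≤ c) :
    M.law.pr (fun ω => M.sys.ms {TNm.T i β} ω < c * M.w i (ω.2 (i, β))) ≤ c * M.L ^ M.ε := by
  have e1 : (fun ω : M.Om => M.sys.ms {TNm.T i β} ω < c * M.w i (ω.2 (i, β)))
      = fun ω : M.Om => (fun (_ : M.π) (T : M.τ) => (Fintype.card M.π : ℝ)⁻¹ * ∑ x, M.κ i x T < c * M.w i T) ω.1 (ω.2 (i, β)) := by
    funext ω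
    rw [tr_fact_ms_T]
  rw [e1, tr_geo_law_marg M (i, β) (fun (_ : M.π) (T : M.τ) => (Fintype.card M.π : ℝ)⁻¹ * ∑ x, M.κ i x T < c * M.w i T), Finset.sum_comm, Finset.mul_sum]
  calc ∑ T with (Fintype.card M.π : ℝ)⁻¹ * ∑ x, M.κ i x T < c * M.w i T, (Fintype.card M.π : ℝ)⁻¹ * ∑ x, M.κ i x T
      ≤ ∑ T with (Fintype.card M.π : ℝ)⁻¹ * ∑ x, M.κ i x T < c * M.w i T, c * M.w i T :=
        Finset.sum_le_sum fun T hT => (Finset.mem_filter.1 hT).2.le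
    _ ≤ ∑ T, c * M.w i T := Finset.sum_le_sum_of_subset_of_nonneg (Finset.filter_subset _ _) fun T _ _ => mul_nonneg hc (hM.w_nonneg i T)
    _ = c * ∑ T, M.w i T := (Finset.mul_sum _ _ _).symm
    _ ≤ _ := mul_le_mul_of_nonneg_left (hM.w_sum i) hc

/-- (t:profile-endpoints), third assertion.  `ms (X₁,T) ≤ #π⁻¹ #cell L^{e+ε} w(T) ≤ C L^{-n/(n+1)+3ε} w(T)` (`tr_fact_ms_XT`, `hM.κ_le`, `tr_fact_cell_card` with `s = 1`, `hM.card_lo`, `n - eex n = n/(n+1)`),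
so the event forces `ms T < C L^{3ε-δ} w(T)`: `tr_fact_light`. -/
theorem tr_fact_Gone_fin (n : ℕ) : ∃ K : ℝ, 0 ≤ K ∧ ∀ (R₀ c₁ Cτ : ℝ) (M : TModel n), M.Ok R₀ c₁ Cτ → ∀ (i : Fin (n + 1)) (β : Bool) (δ : ℝ),
    M.law.pr (fun ω => M.L ^ (-((n : ℝ) / (n + 1)) + δ) * M.sys.ms {TNm.T i β} ω < M.sys.ms ({TNm.X 1} ∪ {TNm.T i β}) ω)
      ≤ M.er K * M.L ^ (-δ) := by
  have hC : (0 : ℝ) ≤ (2 * ((n : ℝ) + 1)) ^ n := by positivity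
  refine ⟨(2 * ((n : ℝ) + 1)) ^ n + 4, by positivity, fun R₀ c₁ Cτ M hM i β δ => ?_⟩
  have hL0 : 0 < M.L := tr_geo_L_pos hM
  have hp : ∀ t : ℝ, 0 < M.L ^ t := fun t => Real.rpow_pos_of_pos hL0 t
  have hn1 : (n : ℝ) + 1 ≠ 0 := by positivity
  -- upper bound of the joint mass
  have hXT : ∀ ω : M.Om, M.sys.ms ({TNm.X 1} ∪ {TNm.T i β}) ω
      ≤ (2 * ((n : ℝ) + 1)) ^ n * M.L ^ (3 * M.ε - (n : ℝ) / (n + 1)) * M.w i (ω.2 (i, β)) := by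
    intro ω
    rw [tr_fact_ms_XT]
    have hw := hM.w_nonneg i (ω.2 (i, β))
    have h1 : ∑ x with cellL (sc M.L 1) (M.pos x) = cellL (sc M.L 1) (M.pos ω.1), M.κ i x (ω.2 (i, β))
        ≤ ((Finset.univ.filter (fun x => cellL (sc M.L 1) (M.pos x) = cellL (sc M.L 1) (M.pos ω.1))).card : ℝ) * (M.L ^ (eex n + M.ε) * M.w i (ω.2 (i, β))) := by
      rw [← nsmul_eq_mul]
      exact Finset.sum_le_card_nsmul _ _ _ fun x _ => hM.κ_le i x _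
    have h2 := tr_fact_cell_card hM 1 zero_le_one le_rfl ω.1
    have h3 := tr_fact_card_inv hM
    have h4 : 0 ≤ M.L ^ (eex n + M.ε) * M.w i (ω.2 (i, β)) := mul_nonneg (hp _).le hw
    calc _ ≤ M.L ^ (-((n : ℝ) - M.ε)) * (((2 * ((n : ℝ) + 1)) ^ n * M.L ^ ((n : ℝ) + M.ε) * M.L ^ (-(n : ℝ) * ((1 : ℚ) : ℝ))) * (M.L ^ (eex n + M.ε) * M.w i (ω.2 (i, β)))) :=
          mul_le_mul h3 (h1.trans (mul_le_mul_of_nonneg_right h2 h4)) (Finset.sum_nonneg fun x _ => M.κ_nonneg _ _ _) (hp _).le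
      _ = (2 * ((n : ℝ) + 1)) ^ n * (M.L ^ (-((n : ℝ) - M.ε)) * M.L ^ ((n : ℝ) + M.ε) * M.L ^ (-(n : ℝ) * ((1 : ℚ) : ℝ)) * M.L ^ (eex n + M.ε)) * M.w i (ω.2 (i, β)) := by ring
      _ = _ := by
          rw [← Real.rpow_add hL0, ← Real.rpow_add hL0, ← Real.rpow_add hL0]
          congr 3
          unfold eex
          push_cast
          field_simp
          ring
  have hc0 : 0 ≤ (2 * ((n : ℝ) + 1)) ^ n * M.L ^ (3 * M.ε - δ) := mul_nonneg hC (hp _).le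
  refine (ent_pr_mono M.law (F := fun ω => M.sys.ms {TNm.T i β} ω < ((2 * ((n : ℝ) + 1)) ^ n * M.L ^ (3 * M.ε - δ)) * M.w i (ω.2 (i, β))) fun ω _ hω => ?_).trans
    ((tr_fact_light hM i β _ hc0).trans ?_)
  · have h5 := hω.trans_le (hXT ω)
    have e : (2 * ((n : ℝ) + 1)) ^ n * M.L ^ (3 * M.ε - (n : ℝ) / (n + 1)) * M.w i (ω.2 (i, β))
        = M.L ^ (-((n : ℝ) / (n + 1)) + δ) * (((2 * ((n : ℝ) + 1)) ^ n * M.L ^ (3 * M.ε - δ)) * M.w i (ω.2 (i, β))) := by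
      have : M.L ^ (3 * M.ε - (n : ℝ) / (n + 1)) = M.L ^ (-((n : ℝ) / (n + 1)) + δ) * M.L ^ (3 * M.ε - δ) := by
        rw [← Real.rpow_add hL0]
        congr 1
        ring
      rw [this]
      ring
    rw [e] at h5
    exact lt_of_mul_lt_mul_left h5 (hp _).le
  · calc (2 * ((n : ℝ) + 1)) ^ n * M.L ^ (3 * M.ε - δ) * M.L ^ M.ε = ((2 * ((n : ℝ) + 1)) ^ n * M.L ^ (4 * M.ε)) * M.L ^ (-δ) := by
          rw [mul_assoc, mul_assoc, ← Real.rpow_add hL0, ← Real.rpow_add hL0]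
          congr 2
          ring
      _ ≤ _ := mul_le_mul_of_nonneg_right (tr_geo_er_le hM _ 4 _ hC (by linarith) (by linarith)) (hp _).le

/-- **a tube meets `L^{s'-s+o(1)}` children**.  `tr_geo_cnt_fib` with `y ω = 2^{k'} (pos ω.1).2` (`lam = 2^{k'} 2^{-k} ≤ 2 L^{s'-s}`: `tr_geo_cell_close`, `tr_geo_sc_ratio`);
for a fixed time label `tr_geo_cnt_cell` with `lam₂ = 1`, `lam₁ = 2 R₀ + 2 L^ε` (`tr_geo_inc_diff`: `‖Δx‖ ≤ 2 R₀ |Δt| + 2 L^{-1+ε}`, `|Δt| ≤ 2^{-k'}`, `L^{-1} ≤ 2^{-k'}` as `s' ≤ 1`). -/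
theorem tr_fact_child_fin (n : ℕ) (R₀ : ℝ) : ∃ K : ℝ, 0 ≤ K ∧ ∀ (c₁ Cτ : ℝ) (M : TModel n), M.Ok R₀ c₁ Cτ →
    ∀ (i : Fin (n + 1)) (β : Bool) (s s' : ℚ), 0 ≤ s → s ≤ s' → s' ≤ 1 → ∀ ω₀ : M.Om,
      M.sys.Cnt (fun ω => 0 < M.law.p ω ∧ M.sys.Agr ({TNm.X s} ∪ {TNm.T i β}) ω ω₀) {TNm.X s'} (M.er K * M.L ^ ((s' : ℝ) - s)) := by
  refine ⟨24 * (4 * |R₀| + 6) ^ n + n, by positivity, ?_⟩
  intro c₁ Cτ M hM i β s s' hs0 hss' hs'1 ω₀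
  have hR : 0 ≤ R₀ := tr_geo_R_nonneg hM
  have hL0 : 0 < M.L := tr_geo_L_pos hM
  have hL1 : 1 ≤ M.L := by linarith [hM.L_ge]
  have hQ : 1 ≤ M.L ^ M.ε := tr_geo_one_le_Q hM
  have hs'0 : 0 ≤ s' := hs0.trans hss'
  have hpw : (0 : ℝ) ≤ (4 * |R₀| + 6) ^ n := by positivity
  have hLd : 1 ≤ M.L ^ ((s' : ℝ) - s) := Real.one_le_rpow hL1 (by
    have : (s : ℝ) ≤ s' := by exact_mod_cast hss'
    linarith)
  have h2k' : (0 : ℝ) < 2 ^ (sc M.L s') := by positivity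
  have hinv : M.L ^ (-1 : ℝ) ≤ ((2 : ℝ) ^ (sc M.L s'))⁻¹ := by
    refine le_trans ?_ (tr_geo_sc_inv_ge M.L hM.L_ge s' hs'0)
    refine Real.rpow_le_rpow_of_exponent_le hL1 ?_
    have : (s' : ℝ) ≤ 1 := by exact_mod_cast hs'1
    linarith
  have inner : ∀ b : ℤ, M.sys.Cnt (fun ω => (0 < M.law.p ω ∧ M.sys.Agr ({TNm.X s} ∪ {TNm.T i β}) ω ω₀) ∧
      ⌊(2 : ℝ) ^ (sc M.L s') * (M.pos (ω : M.Om).1).2⌋ = b) {TNm.X s'}
      ((2 * (2 * R₀ + 2 * M.L ^ M.ε) + 2) ^ n * (2 * 1 + 2)) := by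
    intro b
    refine tr_geo_cnt_cell M _ s' (2 * R₀ + 2 * M.L ^ M.ε) 1 (by positivity) zero_le_one ?_
    rintro ω ω' ⟨⟨hp, hω⟩, hb⟩ ⟨⟨hp', hω'⟩, hb'⟩
    have h1 := tr_geo_agr_trans _ _ _ _ _ hω (tr_geo_agr_symm _ _ _ _ hω')
    obtain ⟨-, hT⟩ := (tr_geo_agr_union _ _ _ _ _).1 h1
    have hTT := (tr_geo_agr_T M i β ω ω').1 hT
    have ht : |(M.pos ω.1).2 - (M.pos ω'.1).2| ≤ ((2 : ℝ) ^ (sc M.L s'))⁻¹ := tr_geo_floor_close _ _ _ (hb.trans hb'.symm)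
    obtain ⟨e, he, hdiff⟩ := tr_geo_inc_diff hM ω ω' hp hp' (i, β) hTT
    refine ⟨?_, by simpa using ht⟩
    have e2 : (M.pos ω.1).1 - (M.pos ω'.1).1 = ((M.pos ω.1).2 - (M.pos ω'.1).2) • ((2 : ℝ) • M.fr i (ω.2 (i, β))) + e := by
      have := congrArg Prod.fst hdiff
      simpa [vdir] using this
    rw [e2]
    have n1 : ‖((M.pos ω.1).2 - (M.pos ω'.1).2) • ((2 : ℝ) • M.fr i (ω.2 (i, β)))‖ ≤ ((2 : ℝ) ^ (sc M.L s'))⁻¹ * (2 * R₀) := by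
      rw [norm_smul, norm_smul, Real.norm_eq_abs, Real.norm_eq_abs, abs_of_pos (by norm_num : (0 : ℝ) < 2)]
      exact mul_le_mul ht (mul_le_mul_of_nonneg_left (hM.fr_bd _ _) (by norm_num)) (by positivity) (by positivity)
    have n2 : ‖e‖ ≤ 2 * M.L ^ M.ε * ((2 : ℝ) ^ (sc M.L s'))⁻¹ := by
      refine he.trans ?_
      rw [Real.rpow_add hL0]
      have : M.L ^ (-1 : ℝ) * M.L ^ M.ε ≤ ((2 : ℝ) ^ (sc M.L s'))⁻¹ * M.L ^ M.ε := mul_le_mul_of_nonneg_right hinv (by positivity)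
      linarith
    calc ‖((M.pos ω.1).2 - (M.pos ω'.1).2) • ((2 : ℝ) • M.fr i (ω.2 (i, β))) + e‖
        ≤ ‖((M.pos ω.1).2 - (M.pos ω'.1).2) • ((2 : ℝ) • M.fr i (ω.2 (i, β)))‖ + ‖e‖ := norm_add_le _ _
      _ ≤ ((2 : ℝ) ^ (sc M.L s'))⁻¹ * (2 * R₀) + 2 * M.L ^ M.ε * ((2 : ℝ) ^ (sc M.L s'))⁻¹ := add_le_add n1 n2
      _ = (2 * R₀ + 2 * M.L ^ M.ε) * ((2 : ℝ) ^ (sc M.L s'))⁻¹ := by ring
  have key := tr_geo_cnt_fib M.sys (fun ω => 0 < M.law.p ω ∧ M.sys.Agr ({TNm.X s} ∪ {TNm.T i β}) ω ω₀) {TNm.X s'}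
    (fun (ω : M.Om) => (2 : ℝ) ^ (sc M.L s') * (M.pos ω.1).2) (2 * M.L ^ ((s' : ℝ) - s))
    ((2 * (2 * R₀ + 2 * M.L ^ M.ε) + 2) ^ n * (2 * 1 + 2)) (by positivity) (by positivity)
    (by
      rintro ω ω' ⟨hp, hω⟩ ⟨hp', hω'⟩
      have h1 := tr_geo_agr_trans _ _ _ _ _ hω (tr_geo_agr_symm _ _ _ _ hω')
      obtain ⟨hX, -⟩ := (tr_geo_agr_union _ _ _ _ _).1 h1
      have hcell := (tr_geo_agr_X M s ω ω').1 hX
      obtain ⟨-, -, ht⟩ := tr_geo_cell_close _ _ _ hcell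
      show |(2 : ℝ) ^ (sc M.L s') * (M.pos (ω : M.Om).1).2 - (2 : ℝ) ^ (sc M.L s') * (M.pos (ω' : M.Om).1).2| ≤ _
      rw [← mul_sub, abs_mul, abs_of_pos h2k']
      exact (mul_le_mul_of_nonneg_left ht h2k'.le).trans (tr_geo_sc_ratio M.L hM.L_ge s s' hs'0))
    inner
  refine tr_geo_cnt_mono _ _ _ _ _ _ (fun _ h => h) ?_ key
  have h4 : 2 * (2 * R₀ + 2 * M.L ^ M.ε) + 2 ≤ (4 * |R₀| + 6) * M.L ^ M.ε := by
    rw [abs_of_nonneg hR]; nlinarith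
  have h5 : (2 * (2 * R₀ + 2 * M.L ^ M.ε) + 2) ^ n ≤ (4 * |R₀| + 6) ^ n * M.L ^ ((n : ℝ) * M.ε) := by
    calc (2 * (2 * R₀ + 2 * M.L ^ M.ε) + 2) ^ n ≤ ((4 * |R₀| + 6) * M.L ^ M.ε) ^ n := pow_le_pow_left₀ (by positivity) h4 _
      _ = (4 * |R₀| + 6) ^ n * M.L ^ ((n : ℝ) * M.ε) := by
        rw [mul_pow, ← Real.rpow_natCast (M.L ^ M.ε) n, ← Real.rpow_mul hL0.le, mul_comm M.ε]
  have h6 : 2 * (2 * M.L ^ ((s' : ℝ) - s)) + 2 ≤ 6 * M.L ^ ((s' : ℝ) - s) := by linarith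
  calc (2 * (2 * M.L ^ ((s' : ℝ) - s)) + 2) * ((2 * (2 * R₀ + 2 * M.L ^ M.ε) + 2) ^ n * (2 * 1 + 2))
      ≤ (6 * M.L ^ ((s' : ℝ) - s)) * (((4 * |R₀| + 6) ^ n * M.L ^ ((n : ℝ) * M.ε)) * (2 * 1 + 2)) :=
        mul_le_mul h6 (mul_le_mul_of_nonneg_right h5 (by norm_num)) (by positivity) (by positivity)
    _ = (24 * (4 * |R₀| + 6) ^ n * M.L ^ ((n : ℝ) * M.ε)) * M.L ^ ((s' : ℝ) - s) := by ring
    _ ≤ M.er _ * M.L ^ ((s' : ℝ) - s) :=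
        mul_le_mul_of_nonneg_right (tr_geo_er_le hM _ _ _ (by positivity) (by nlinarith [Nat.cast_nonneg (α := ℝ) n]) (by nlinarith)) (by positivity)

/-- number of direction bins: `tr_geo_cnt_box`, `J = Fin n`, `g ω j = 2^k (fr …) j`, `lam = 2 R₀ L^{bs}`; `(4 R₀ L^{bs} + 2)^n ≤ (4 R₀ + 2)^n L^{n bs}` -/
theorem tr_fact_bin_fin (n : ℕ) (R₀ : ℝ) : ∃ K : ℝ, 0 ≤ K ∧ ∀ (c₁ Cτ : ℝ) (M : TModel n), M.Ok R₀ c₁ Cτ →
    ∀ (i : Fin (n + 1)) (β : Bool) (bs : ℚ), 0 ≤ bs → ∀ E : M.Om → Prop,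
      M.sys.Cnt E {TNm.B i β bs} (M.er K * M.L ^ ((n : ℝ) * bs)) := by
  refine ⟨(4 * |R₀| + 2) ^ n, by positivity, ?_⟩
  intro c₁ Cτ M hM i β bs hbs E
  have hR : 0 ≤ R₀ := tr_geo_R_nonneg hM
  have hL0 : 0 < M.L := tr_geo_L_pos hM
  have hL1 : 1 ≤ M.L := by linarith [hM.L_ge]
  have hLb : 1 ≤ M.L ^ (bs : ℝ) := Real.one_le_rpow hL1 (by exact_mod_cast hbs)
  have hsc := tr_geo_sc_le M.L hM.L_ge bs hbs
  have h2k : (0 : ℝ) < 2 ^ (sc M.L bs) := by positivity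
  have key := tr_geo_cnt_box M.sys E {TNm.B i β bs} (J := Fin n)
    (fun (ω : M.Om) j => (2 : ℝ) ^ (sc M.L bs) * (M.fr i (ω.2 (i, β))) j) (fun _ => 2 * R₀ * M.L ^ (bs : ℝ))
    (fun _ => by positivity)
    (fun ω ω' _ _ h => (tr_geo_agr_B M i β bs ω ω').2 (funext h))
    (by
      intro ω ω' _ _ j
      have h1 : |(M.fr i ((ω : M.Om).2 (i, β))) j| ≤ R₀ := (tr_geo_abs_le_norm _ j).trans (hM.fr_bd _ _)
      have h2 : |(M.fr i ((ω' : M.Om).2 (i, β))) j| ≤ R₀ := (tr_geo_abs_le_norm _ j).trans (hM.fr_bd _ _)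
      show |(2 : ℝ) ^ (sc M.L bs) * (M.fr i ((ω : M.Om).2 (i, β))) j - (2 : ℝ) ^ (sc M.L bs) * (M.fr i ((ω' : M.Om).2 (i, β))) j| ≤ _
      rw [← mul_sub, abs_mul, abs_of_pos h2k]
      have h3 : |(M.fr i ((ω : M.Om).2 (i, β))) j - (M.fr i ((ω' : M.Om).2 (i, β))) j| ≤ 2 * R₀ := by
        have := abs_sub (M.fr i ((ω : M.Om).2 (i, β)) j) (M.fr i ((ω' : M.Om).2 (i, β)) j)
        linarith
      calc (2 : ℝ) ^ (sc M.L bs) * |(M.fr i ((ω : M.Om).2 (i, β))) j - (M.fr i ((ω' : M.Om).2 (i, β))) j|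
          ≤ M.L ^ (bs : ℝ) * (2 * R₀) := mul_le_mul hsc h3 (abs_nonneg _) (by positivity)
        _ = 2 * R₀ * M.L ^ (bs : ℝ) := by ring)
  refine tr_geo_cnt_mono _ _ _ _ _ _ (fun _ h => h) ?_ key
  rw [Finset.prod_const, Finset.card_univ, Fintype.card_fin]
  have h4 : 2 * (2 * R₀ * M.L ^ (bs : ℝ)) + 2 ≤ (4 * |R₀| + 2) * M.L ^ (bs : ℝ) := by
    rw [abs_of_nonneg hR]; nlinarith
  calc (2 * (2 * R₀ * M.L ^ (bs : ℝ)) + 2) ^ n ≤ ((4 * |R₀| + 2) * M.L ^ (bs : ℝ)) ^ n :=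
        pow_le_pow_left₀ (by positivity) h4 n
    _ = (4 * |R₀| + 2) ^ n * M.L ^ ((n : ℝ) * bs) := by
        rw [mul_pow, ← Real.rpow_natCast (M.L ^ (bs : ℝ)) n, ← Real.rpow_mul hL0.le, mul_comm (bs : ℝ)]
    _ ≤ M.er ((4 * |R₀| + 2) ^ n) * M.L ^ ((n : ℝ) * bs) :=
        mul_le_mul_of_nonneg_right (tr_geo_er_const hM _ _ (by positivity) le_rfl) (by positivity)

/-- coordinate labels and bins determine the cell.  Same basis `ξ̃` (`tr_geo_agr_nD0`), `|Δ gc_i| ≤ 2^{-k}` (`tr_geo_agr_nZ`, `tr_geo_floor_close`), `pos = bmap ξ̃ gc` (`tr_geo_coord_right`, `tr_geo_trv_rbin`),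
`tr_geo_bmap_sub`, `tr_geo_bmap_bound` with `R = R₀ + n`; `tr_geo_cnt_cell` with `lam₁ = 2 (R₀+n)(n+1)`, `lam₂ = n+1`. -/
theorem tr_fact_zx_fin (n : ℕ) (R₀ : ℝ) : ∃ K : ℝ, 0 ≤ K ∧ ∀ (c₁ Cτ : ℝ) (M : TModel n), M.Ok R₀ c₁ Cτ →
    ∀ (ρ : Rf n) (bs r : ℚ), M.Sm K bs → ∀ ω₀ : M.Om,
      M.sys.Cnt (fun ω => M.sys.Agr (nZ ρ bs r Finset.univ ∪ nD0 ρ bs) ω ω₀) {TNm.X r} (M.er K) := by
  refine ⟨(2 * (2 * (|R₀| + n) * ((n : ℝ) + 1)) + 2) ^ n * (2 * ((n : ℝ) + 1) + 2) + 4 * n + 1, by positivity, ?_⟩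
  intro c₁ Cτ M hM ρ bs r hSm ω₀
  have hR : 0 ≤ R₀ := tr_geo_R_nonneg hM
  have hL0 : 0 < M.L := tr_geo_L_pos hM
  have hpw : (0 : ℝ) ≤ (2 * (2 * (|R₀| + n) * ((n : ℝ) + 1)) + 2) ^ n * (2 * ((n : ℝ) + 1) + 2) := by positivity
  have hs : 4 * (n : ℝ) * M.L ^ M.ε ≤ M.L ^ (bs : ℝ) := by
    have := tr_geo_sm_use hM (4 * (n : ℝ)) 1 _ _ (by positivity) (by nlinarith) (by nlinarith) hSm
    simpa using this
  have key := tr_geo_cnt_cell M (fun ω => M.sys.Agr (nZ ρ bs r Finset.univ ∪ nD0 ρ bs) ω ω₀) r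
    (2 * (|R₀| + n) * ((n : ℝ) + 1)) ((n : ℝ) + 1) (by positivity) (by positivity)
    (by
      intro ω ω' hω hω'
      have h1 := tr_geo_agr_trans _ _ _ _ _ hω (tr_geo_agr_symm _ _ _ _ hω')
      obtain ⟨hZ, hD⟩ := (tr_geo_agr_union _ _ _ _ _).1 h1
      have hfl := (tr_geo_agr_nZ M ρ bs r Finset.univ ω ω').1 hZ
      have hb := tr_geo_agr_nD0 M ρ bs ω ω' hD
      have hT := tr_geo_trv_rbin hM bs hs ρ ω
      have hcl : ∀ i, |(M.gc ρ bs ω - M.gc ρ bs ω') i| ≤ ((2 : ℝ) ^ (sc M.L r))⁻¹ := fun i =>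
        tr_geo_floor_close _ _ _ (hfl i (Finset.mem_univ i))
      have hsum : ∑ i, |(M.gc ρ bs ω - M.gc ρ bs ω') i| ≤ ((n : ℝ) + 1) * ((2 : ℝ) ^ (sc M.L r))⁻¹ := by
        refine (Finset.sum_le_sum (fun i _ => hcl i)).trans ?_
        rw [Finset.sum_const, Finset.card_univ, Fintype.card_fin, nsmul_eq_mul]
        push_cast; exact le_rfl
      have e1 : M.pos ω.1 - M.pos ω'.1 = bmap (M.rbin ρ bs ω) (M.gc ρ bs ω - M.gc ρ bs ω') := by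
        rw [tr_geo_bmap_sub]
        have a1 : bmap (M.rbin ρ bs ω) (M.gc ρ bs ω) = M.pos ω.1 := tr_geo_coord_right _ _ hT _
        have a2 : bmap (M.rbin ρ bs ω) (M.gc ρ bs ω') = M.pos ω'.1 := by
          have := tr_geo_coord_right _ _ hT (M.pos ω'.1)
          simpa only [TModel.gc, hb] using this
        rw [a1, a2]
      obtain ⟨b1, b2⟩ := tr_geo_bmap_bound (M.rbin ρ bs ω) (|R₀| + n)
        (fun i => by rw [abs_of_nonneg hR]; exact tr_geo_rbin_norm hM ρ bs ω i) (M.gc ρ bs ω - M.gc ρ bs ω')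
      rw [← e1] at b1 b2
      have e2 : (M.pos ω.1 - M.pos ω'.1).1 = (M.pos ω.1).1 - (M.pos ω'.1).1 := rfl
      have e3 : (M.pos ω.1 - M.pos ω'.1).2 = (M.pos ω.1).2 - (M.pos ω'.1).2 := rfl
      rw [e2] at b1
      rw [e3] at b2
      refine ⟨b1.trans ?_, b2.trans hsum⟩
      calc 2 * (|R₀| + n) * ∑ i, |(M.gc ρ bs ω - M.gc ρ bs ω') i|
          ≤ 2 * (|R₀| + n) * (((n : ℝ) + 1) * ((2 : ℝ) ^ (sc M.L r))⁻¹) := mul_le_mul_of_nonneg_left hsum (by positivity)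
        _ = 2 * (|R₀| + n) * ((n : ℝ) + 1) * ((2 : ℝ) ^ (sc M.L r))⁻¹ := by ring)
  refine tr_geo_cnt_mono _ _ _ _ _ _ (fun _ h => h) ?_ key
  exact tr_geo_er_const hM _ _ (by positivity) (by nlinarith)

/-- cell and bins determine the coordinate labels.  `Δ gc = coord ξ̃ (Δ pos)` (`tr_geo_coord_sub`), `tr_geo_coord_bound_one` with `Q = 2 L^ε`, `tr_geo_cell_close`; `tr_geo_cnt_Z` with `lam = (n+2) L^ε`. -/
theorem tr_fact_xz_fin (n : ℕ) (R₀ : ℝ) : ∃ K : ℝ, 0 ≤ K ∧ ∀ (c₁ Cτ : ℝ) (M : TModel n), M.Ok R₀ c₁ Cτ →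
    ∀ (ρ : Rf n) (bs r : ℚ), M.Sm K bs → ∀ ω₀ : M.Om,
      M.sys.Cnt (fun ω => M.sys.Agr ({TNm.X r} ∪ nD0 ρ bs) ω ω₀) (nZ ρ bs r Finset.univ) (M.er K) := by
  refine ⟨(2 * (n : ℝ) + 6) ^ (n + 1) + 4 * n + (n + 1), by positivity, ?_⟩
  intro c₁ Cτ M hM ρ bs r hSm ω₀
  have hL0 : 0 < M.L := tr_geo_L_pos hM
  have hQ : 1 ≤ M.L ^ M.ε := tr_geo_one_le_Q hM
  have hpw : (0 : ℝ) ≤ (2 * (n : ℝ) + 6) ^ (n + 1) := by positivity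
  have hs : 4 * (n : ℝ) * M.L ^ M.ε ≤ M.L ^ (bs : ℝ) := by
    have := tr_geo_sm_use hM (4 * (n : ℝ)) 1 _ _ (by positivity) (by nlinarith) (by nlinarith) hSm
    simpa using this
  have key := tr_geo_cnt_Z M (fun ω => M.sys.Agr ({TNm.X r} ∪ nD0 ρ bs) ω ω₀) ρ bs r Finset.univ (((n : ℝ) + 2) * M.L ^ M.ε)
    (by positivity)
    (by
      intro ω ω' hω hω' i _
      have h1 := tr_geo_agr_trans _ _ _ _ _ hω (tr_geo_agr_symm _ _ _ _ hω')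
      obtain ⟨hX, hD⟩ := (tr_geo_agr_union _ _ _ _ _).1 h1
      have hcell := (tr_geo_agr_X M r ω ω').1 hX
      have hb := tr_geo_agr_nD0 M ρ bs ω ω' hD
      have hT := tr_geo_trv_rbin hM bs hs ρ ω
      obtain ⟨-, hx, ht⟩ := tr_geo_cell_close _ _ _ hcell
      have e1 : M.gc ρ bs ω i - M.gc ρ bs ω' i = coord (M.rbin ρ bs ω) (M.pos ω.1 - M.pos ω'.1) i := by
        rw [tr_geo_coord_sub _ _ hT]
        simp only [TModel.gc, Pi.sub_apply, hb]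
      rw [e1]
      refine (tr_geo_coord_bound_one _ _ hT _ i).trans ?_
      have h2k : (0 : ℝ) < ((2 : ℝ) ^ (sc M.L r))⁻¹ := by positivity
      have h3 : ‖(M.pos ω.1 - M.pos ω'.1).1‖ / 2 + |(M.pos ω.1 - M.pos ω'.1).2| ≤ ((n : ℝ) / 2 + 1) * ((2 : ℝ) ^ (sc M.L r))⁻¹ := by
        have e2 : (M.pos ω.1 - M.pos ω'.1).1 = (M.pos ω.1).1 - (M.pos ω'.1).1 := rfl
        have e3 : (M.pos ω.1 - M.pos ω'.1).2 = (M.pos ω.1).2 - (M.pos ω'.1).2 := rfl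
        rw [e2, e3]; linarith
      calc 2 * M.L ^ M.ε * (‖(M.pos ω.1 - M.pos ω'.1).1‖ / 2 + |(M.pos ω.1 - M.pos ω'.1).2|)
          ≤ 2 * M.L ^ M.ε * (((n : ℝ) / 2 + 1) * ((2 : ℝ) ^ (sc M.L r))⁻¹) := mul_le_mul_of_nonneg_left h3 (by positivity)
        _ = ((n : ℝ) + 2) * M.L ^ M.ε * ((2 : ℝ) ^ (sc M.L r))⁻¹ := by ring)
  refine tr_geo_cnt_mono _ _ _ _ _ _ (fun _ h => h) ?_ key
  have h4 : 2 * (((n : ℝ) + 2) * M.L ^ M.ε) + 2 ≤ (2 * (n : ℝ) + 6) * M.L ^ M.ε := by nlinarith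
  calc (2 * (((n : ℝ) + 2) * M.L ^ M.ε) + 2) ^ (n + 1) ≤ ((2 * (n : ℝ) + 6) * M.L ^ M.ε) ^ (n + 1) :=
        pow_le_pow_left₀ (by positivity) h4 _
    _ = (2 * (n : ℝ) + 6) ^ (n + 1) * M.L ^ (((n : ℝ) + 1) * M.ε) := by
        rw [mul_pow, ← Real.rpow_natCast (M.L ^ M.ε) (n + 1), ← Real.rpow_mul hL0.le, mul_comm M.ε]
        push_cast; rfl
    _ ≤ M.er _ := tr_geo_er_le hM _ _ _ hpw (by nlinarith) (by nlinarith)

/-- **a reference tube determines its off-axis coordinates**.  `tr_geo_inc_gc` with `q = (i, ρ i)`; `coord ξ̃ (vdir fr_i) = e_i + coord ξ̃ (2 (fr_i - ξ̃_i), 0)` (`tr_geo_coord_vdir`, `coord_add`), the last term has `ℓ¹` norm `≤ 2 L^ε · 2 n L^{-bs}` (`tr_geo_coord_bound`, `tr_geo_rbin_dist`);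
`|Δt| ≤ 2 L^{-s}`; so for `j ≠ i`: `|Δ gc_j| ≤ (8 n L^ε + 2 L^{2ε}) L^{-r}` since `r ≤ s + bs`, `r ≤ 1`; `L^{-r} ≤ 2^{-k_r}`; `tr_geo_cnt_Z`. -/
theorem tr_fact_off_fin (n : ℕ) (R₀ : ℝ) : ∃ K : ℝ, 0 ≤ K ∧ ∀ (c₁ Cτ : ℝ) (M : TModel n), M.Ok R₀ c₁ Cτ →
    ∀ (ρ : Rf n) (bs s r : ℚ) (i : Fin (n + 1)), 0 ≤ s → s ≤ r → r ≤ 1 → r - s ≤ bs → M.Sm K bs → ∀ ω₀ : M.Om,
      M.sys.Cnt (fun ω => 0 < M.law.p ω ∧ M.sys.Agr ({TNm.X s} ∪ nD0 ρ bs ∪ {TNm.T i (ρ i)}) ω ω₀) (nZ ρ bs r (Finset.univ.erase i)) (M.er K) := by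
  refine ⟨(16 * (n : ℝ) + 6) ^ (n + 1) + 4 * n + 2 * (n + 1), by positivity, ?_⟩
  intro c₁ Cτ M hM ρ bs s r i hs0 hsr hr1 hrs hSm ω₀
  have hL0 : 0 < M.L := tr_geo_L_pos hM
  have hL1 : 1 ≤ M.L := by linarith [hM.L_ge]
  have hQ : 1 ≤ M.L ^ M.ε := tr_geo_one_le_Q hM
  have hr0 : 0 ≤ r := hs0.trans hsr
  have hpw : (0 : ℝ) ≤ (16 * (n : ℝ) + 6) ^ (n + 1) := by positivity
  have hn0 : (0 : ℝ) ≤ n := Nat.cast_nonneg n
  have hs : 4 * (n : ℝ) * M.L ^ M.ε ≤ M.L ^ (bs : ℝ) := by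
    have := tr_geo_sm_use hM (4 * (n : ℝ)) 1 _ _ (by positivity) (by nlinarith) (by nlinarith) hSm
    simpa using this
  have hQ2 : M.L ^ M.ε ≤ M.L ^ (2 * M.ε) := Real.rpow_le_rpow_of_exponent_le hL1 (by linarith [hM.ε_pos])
  have hQ21 : 1 ≤ M.L ^ (2 * M.ε) := hQ.trans hQ2
  have hinv : M.L ^ (-(r : ℝ)) ≤ ((2 : ℝ) ^ (sc M.L r))⁻¹ := tr_geo_sc_inv_ge M.L hM.L_ge r hr0
  have hA : M.L ^ (-(s : ℝ)) * M.L ^ (-(bs : ℝ)) ≤ M.L ^ (-(r : ℝ)) := by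
    rw [← Real.rpow_add hL0]
    refine Real.rpow_le_rpow_of_exponent_le hL1 ?_
    have : (r : ℝ) - s ≤ bs := by exact_mod_cast hrs
    linarith
  have hB : M.L ^ (-1 : ℝ) ≤ M.L ^ (-(r : ℝ)) := by
    refine Real.rpow_le_rpow_of_exponent_le hL1 ?_
    have : (r : ℝ) ≤ 1 := by exact_mod_cast hr1
    linarith
  have key := tr_geo_cnt_Z M (fun ω => 0 < M.law.p ω ∧ M.sys.Agr ({TNm.X s} ∪ nD0 ρ bs ∪ {TNm.T i (ρ i)}) ω ω₀) ρ bs r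
    (Finset.univ.erase i) ((8 * (n : ℝ) + 2) * M.L ^ (2 * M.ε)) (by positivity)
    (by
      rintro ω ω' ⟨hp, hω⟩ ⟨hp', hω'⟩ j hj
      have hji : j ≠ i := Finset.ne_of_mem_erase hj
      have h1 := tr_geo_agr_trans _ _ _ _ _ hω (tr_geo_agr_symm _ _ _ _ hω')
      obtain ⟨hXD, hT⟩ := (tr_geo_agr_union _ _ _ _ _).1 h1
      obtain ⟨hX, hD⟩ := (tr_geo_agr_union _ _ _ _ _).1 hXD
      have hcell := (tr_geo_agr_X M s ω ω').1 hX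
      have hb := tr_geo_agr_nD0 M ρ bs ω ω' hD
      have hTT := (tr_geo_agr_T M i (ρ i) ω ω').1 hT
      have hTr := tr_geo_trv_rbin hM bs hs ρ ω
      obtain ⟨-, -, ht⟩ := tr_geo_cell_close _ _ _ hcell
      have ht2 : |(M.pos ω.1).2 - (M.pos ω'.1).2| ≤ 2 * M.L ^ (-(s : ℝ)) := ht.trans (tr_geo_sc_inv_le M.L hM.L_ge s)
      obtain ⟨c, hc, hgc⟩ := tr_geo_inc_gc hM bs hs ρ ω ω' hp hp' (i, ρ i) hTT hb
      have hcj : |c j| ≤ 2 * M.L ^ (-1 + 2 * M.ε) :=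
        (Finset.single_le_sum (f := fun i => |c i|) (fun i _ => abs_nonneg _) (Finset.mem_univ j)).trans hc
      -- the off-axis coefficient of the direction
      have hv : vdir (M.fr i (ω.2 (i, ρ i))) = vdir (M.rbin ρ bs ω i) + (((2 : ℝ) • (M.fr i (ω.2 (i, ρ i)) - M.rbin ρ bs ω i), 0) : ST n) := by
        ext1
        · simp [vdir, smul_sub]
        · simp [vdir]
      have hco : |coord (M.rbin ρ bs ω) (vdir (M.fr i (ω.2 (i, ρ i)))) j| ≤ 4 * n * M.L ^ M.ε * M.L ^ (-(bs : ℝ)) := by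
        rw [hv, tr_geo_coord_add _ _ hTr, tr_geo_coord_vdir _ _ hTr, Pi.add_apply, Pi.single_eq_of_ne hji, zero_add]
        refine (tr_geo_coord_bound_one _ _ hTr _ j).trans ?_
        have hd := tr_geo_rbin_dist hM ρ bs ω i
        have hd' : ‖M.fr i (ω.2 (i, ρ i)) - M.rbin ρ bs ω i‖ ≤ 2 * n * M.L ^ (-(bs : ℝ)) := by
          rw [norm_sub_rev]; exact hd
        have e5 : ‖(((2 : ℝ) • (M.fr i (ω.2 (i, ρ i)) - M.rbin ρ bs ω i), 0) : ST n).1‖ / 2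
            + |(((2 : ℝ) • (M.fr i (ω.2 (i, ρ i)) - M.rbin ρ bs ω i), 0) : ST n).2| = ‖M.fr i (ω.2 (i, ρ i)) - M.rbin ρ bs ω i‖ := by
          simp [norm_smul]
        rw [e5]
        calc 2 * M.L ^ M.ε * ‖M.fr i (ω.2 (i, ρ i)) - M.rbin ρ bs ω i‖ ≤ 2 * M.L ^ M.ε * (2 * n * M.L ^ (-(bs : ℝ))) :=
              mul_le_mul_of_nonneg_left hd' (by positivity)
          _ = 4 * n * M.L ^ M.ε * M.L ^ (-(bs : ℝ)) := by ring
      have e1 : M.gc ρ bs ω j - M.gc ρ bs ω' j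
          = ((M.pos ω.1).2 - (M.pos ω'.1).2) * coord (M.rbin ρ bs ω) (vdir (M.fr i (ω.2 (i, ρ i)))) j + c j := by
        have := congrFun hgc j
        simpa using this
      rw [e1]
      have t1 : |((M.pos ω.1).2 - (M.pos ω'.1).2) * coord (M.rbin ρ bs ω) (vdir (M.fr i (ω.2 (i, ρ i)))) j|
          ≤ 8 * n * M.L ^ (2 * M.ε) * M.L ^ (-(r : ℝ)) := by
        rw [abs_mul]
        calc |(M.pos ω.1).2 - (M.pos ω'.1).2| * |coord (M.rbin ρ bs ω) (vdir (M.fr i (ω.2 (i, ρ i)))) j|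
            ≤ (2 * M.L ^ (-(s : ℝ))) * (4 * n * M.L ^ M.ε * M.L ^ (-(bs : ℝ))) :=
              mul_le_mul ht2 hco (abs_nonneg _) (by positivity)
          _ = 8 * n * M.L ^ M.ε * (M.L ^ (-(s : ℝ)) * M.L ^ (-(bs : ℝ))) := by ring
          _ ≤ 8 * n * M.L ^ (2 * M.ε) * M.L ^ (-(r : ℝ)) :=
              mul_le_mul (mul_le_mul_of_nonneg_left hQ2 (by positivity)) hA (by positivity) (by positivity)
      have t2 : |c j| ≤ 2 * M.L ^ (2 * M.ε) * M.L ^ (-(r : ℝ)) := by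
        refine hcj.trans ?_
        rw [Real.rpow_add hL0]
        have : M.L ^ (-1 : ℝ) * M.L ^ (2 * M.ε) ≤ M.L ^ (-(r : ℝ)) * M.L ^ (2 * M.ε) := mul_le_mul_of_nonneg_right hB (by positivity)
        linarith
      calc |((M.pos ω.1).2 - (M.pos ω'.1).2) * coord (M.rbin ρ bs ω) (vdir (M.fr i (ω.2 (i, ρ i)))) j + c j|
          ≤ |((M.pos ω.1).2 - (M.pos ω'.1).2) * coord (M.rbin ρ bs ω) (vdir (M.fr i (ω.2 (i, ρ i)))) j| + |c j| := abs_add_le _ _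
        _ ≤ 8 * n * M.L ^ (2 * M.ε) * M.L ^ (-(r : ℝ)) + 2 * M.L ^ (2 * M.ε) * M.L ^ (-(r : ℝ)) := add_le_add t1 t2
        _ = (8 * (n : ℝ) + 2) * M.L ^ (2 * M.ε) * M.L ^ (-(r : ℝ)) := by ring
        _ ≤ (8 * (n : ℝ) + 2) * M.L ^ (2 * M.ε) * ((2 : ℝ) ^ (sc M.L r))⁻¹ := mul_le_mul_of_nonneg_left hinv (by positivity))
  refine tr_geo_cnt_mono _ _ _ _ _ _ (fun _ h => h) ?_ key
  have h4 : 2 * ((8 * (n : ℝ) + 2) * M.L ^ (2 * M.ε)) + 2 ≤ (16 * (n : ℝ) + 6) * M.L ^ (2 * M.ε) := by nlinarith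
  calc (2 * ((8 * (n : ℝ) + 2) * M.L ^ (2 * M.ε)) + 2) ^ (n + 1) ≤ ((16 * (n : ℝ) + 6) * M.L ^ (2 * M.ε)) ^ (n + 1) :=
        pow_le_pow_left₀ (by positivity) h4 _
    _ = (16 * (n : ℝ) + 6) ^ (n + 1) * M.L ^ ((2 * ((n : ℝ) + 1)) * M.ε) := by
        rw [mul_pow, ← Real.rpow_natCast (M.L ^ (2 * M.ε)) (n + 1), ← Real.rpow_mul hL0.le]
        congr 2
        push_cast; ring
    _ ≤ M.er _ := tr_geo_er_le hM _ _ _ hpw (by nlinarith) (by nlinarith)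

end Claimed.Agent.R257.TR
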