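import Claimed.Agent.R257.TR.FactX

/-!
# R257 / TR / FactY : the almost sure fields `ifun, nest, F_low, F_one, F_zero, G_one, child, bin, zx, xz, off` of `TGood`      (chief FACTS: helper84)

Glue only: finite-scale facts of `FactX.lean` + transfer rules of `FactT.lean` + countable intersections.   EXIT FORM of a field: `∀ᵐ x ∂(tLim M), <the field of TGood>`.
-/

set_option autoImplicit false

namespace Claimed.Agent.R257.TR

open Claimed.Agent.R255 Claimed.Agent.R257 MeasureTheory Filter Topology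
open scoped BigOperators ENNReal InnerProductSpace
open Classical

variable {n : ℕ} {M : ℕ → TModel n} {R₀ c₁ Cτ : ℝ}

/-- a hypothesis that does not depend on the point -/
theorem tr_fact_ae_imp {α : Type} [MeasurableSpace α] {μ : Measure α} {p : Prop} {q : α → Prop} (h : p → ∀ᵐ x ∂μ, q x) :
    ∀ᵐ x ∂μ, p → q x := by
  by_cases hp : p
  · filter_upwards [h hp] with x hx _ using hx
  · exact Filter.Eventually.of_forall fun _ h' => absurd h' hp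

/-- determination up to an error factor -/
theorem tr_fact_det00 (hM : TSeqOk M R₀ c₁ Cτ) (A B : Finset (TNm n)) (K : ℝ)
    (h : ∀ᶠ m in uf, ∀ ω₀ : (M m).Om, (M m).sys.Cnt (fun ω => 0 < (M m).law.p ω ∧ (M m).sys.Agr B ω ω₀) A ((M m).er K)) :
    ∀ᵐ x ∂(tLim M), cI x A B ≤ 0 := by
  refine tr_fact_det0 hM A B 0 K ?_
  filter_upwards [h] with m hm ω₀
  rw [Real.rpow_zero, mul_one]
  exact hm ω₀

/-- unconditional information from a count -/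
theorem tr_fact_cnt_abs (hM : TSeqOk M R₀ c₁ Cτ) (A : Finset (TNm n)) (a K : ℝ)
    (h : ∀ᶠ m in uf, (M m).sys.Cnt (fun _ => True) A ((M m).er K * (M m).L ^ a)) :
    ∀ᵐ x ∂(tLim M), x (Sum.inl A) ≤ a := by
  have h1 := tr_fact_det0 hM A ∅ a K (by
    filter_upwards [h] with m hm ω₀
    exact tr_geo_cnt_mono _ _ _ _ _ _ (fun _ _ => trivial) le_rfl hm)
  filter_upwards [h1, tr_fact_ifun hM] with x hx hi
  unfold cI at hx
  rw [Finset.union_empty, hi.empty] at hx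
  linarith

theorem tr_fact_nest (hM : TSeqOk M R₀ c₁ Cτ) :
    ∀ᵐ x ∂(tLim M), ∀ s s' : ℚ, 0 ≤ s → s ≤ s' → cI x {TNm.X s} {TNm.X s'} ≤ 0 := by
  rw [ae_all_iff]; intro s
  rw [ae_all_iff]; intro s'
  refine tr_fact_ae_imp fun _ => tr_fact_ae_imp fun h => ?_
  refine tr_fact_det00 hM _ _ 1 (Filter.Eventually.of_forall fun m ω₀ => ?_)
  exact tr_geo_cnt_mono _ _ _ _ _ _ (fun ω hω => hω.2) (tr_geo_er_const (hM.ok m) 1 1 zero_le_one le_rfl)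
    (tr_fact_nest_fin (hM.ok m) s s' h ω₀)

theorem tr_fact_Flow (hM : TSeqOk M R₀ c₁ Cτ) :
    ∀ᵐ x ∂(tLim M), ∀ s : ℚ, 0 ≤ s → s ≤ 1 → (n : ℝ) * s ≤ x (Sum.inl {TNm.X s}) := by
  obtain ⟨K, hK, hfin⟩ := tr_fact_Flow_fin n
  rw [ae_all_iff]; intro s
  refine tr_fact_ae_imp fun h0 => tr_fact_ae_imp fun h1 => ?_
  have h2 := tr_fact_low hM {TNm.X s} ∅ ((n : ℝ) * s) K (by
    intro δ _
    refine Filter.Eventually.of_forall fun m => ?_
    have hL : 0 < (M m).L := tr_geo_L_pos (hM.ok m)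
    have her : 0 ≤ (M m).er K := tr_geo_er_nonneg (hM.ok m) K hK
    by_cases hE : ∃ ω : (M m).sys.Ω, (M m).L ^ (-((n : ℝ) * s) + δ) * (M m).sys.ms ∅ ω < (M m).sys.ms ({TNm.X s} ∪ ∅) ω
    · obtain ⟨ω, hω⟩ := hE
      rw [tr_geo_ms_empty, mul_one, Finset.union_empty] at hω
      have h3 := hfin R₀ c₁ Cτ (M m) (hM.ok m) s h0 h1 ω
      have h4 : (M m).L ^ (-((n : ℝ) * s) + δ) < (M m).er K * (M m).L ^ (-(n : ℝ) * s) := lt_of_lt_of_le hω h3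
      rw [Real.rpow_add hL, neg_mul] at h4
      have h5 : 0 < (M m).L ^ (-((n : ℝ) * s)) := Real.rpow_pos_of_pos hL _
      have h6 : (M m).L ^ δ < (M m).er K := by
        by_contra hcon
        have := mul_le_mul_of_nonneg_left (not_lt.1 hcon) h5.le
        linarith [mul_comm ((M m).er K) ((M m).L ^ (-((n : ℝ) * s)))]
      have h7 : 1 ≤ (M m).er K * (M m).L ^ (-δ) := by
        rw [Real.rpow_neg hL.le, ← div_eq_mul_inv, le_div_iff₀ (Real.rpow_pos_of_pos hL _)]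
        linarith
      exact (tr_info_pr_le_one _ _).trans h7
    · refine le_trans (tr_info_pr_congr _ _ (fun _ => False) ?_) ?_
      · intro ω _ hω
        exact hE ⟨ω, hω⟩
      · have : (M m).law.pr (fun _ => False) = 0 := by simp [FLaw.pr]
        rw [this]
        exact mul_nonneg her (Real.rpow_nonneg hL.le _))
  filter_upwards [h2, tr_fact_ifun hM] with x hx hi
  unfold cI at hx
  rw [Finset.union_empty, hi.empty] at hx
  linarith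

theorem tr_fact_Fone (hM : TSeqOk M R₀ c₁ Cτ) : ∀ᵐ x ∂(tLim M), x (Sum.inl {TNm.X 1}) ≤ (n : ℝ) := by
  refine tr_fact_cnt_abs hM _ n 1 (Filter.Eventually.of_forall fun m => ?_)
  have hL : 0 < (M m).L := tr_geo_L_pos (hM.ok m)
  have h := tr_fact_Fone_fin (hM.ok m) (fun _ => True) 1
  have e : (M m).er 1 * (M m).L ^ (n : ℝ) = (M m).L ^ ((n : ℝ) + (M m).ε) := by
    unfold TModel.er
    rw [one_mul, one_mul, add_comm, Real.rpow_add hL]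
  rw [e]
  exact h

theorem tr_fact_Fzero (hM : TSeqOk M R₀ c₁ Cτ) : ∀ᵐ x ∂(tLim M), x (Sum.inl {TNm.X 0}) ≤ 0 := by
  refine tr_fact_cnt_abs hM _ 0 (6 ^ (n + 1)) (Filter.Eventually.of_forall fun m => ?_)
  rw [Real.rpow_zero, mul_one]
  exact tr_geo_cnt_mono _ _ _ _ _ _ (fun _ h => h) (tr_geo_er_const (hM.ok m) _ _ (by positivity) le_rfl)
    (tr_fact_Fzero_fin (hM.ok m) (fun _ => True))

theorem tr_fact_Gone (hM : TSeqOk M R₀ c₁ Cτ) :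
    ∀ᵐ x ∂(tLim M), ∀ (i : Fin (n + 1)) (β : Bool), (n : ℝ) / (n + 1) ≤ cI x {TNm.X 1} {TNm.T i β} := by
  obtain ⟨K, _, hfin⟩ := tr_fact_Gone_fin n
  rw [ae_all_iff]; intro i
  rw [ae_all_iff]; intro β
  exact tr_fact_low hM _ _ _ K fun δ _ => Filter.Eventually.of_forall fun m => hfin R₀ c₁ Cτ (M m) (hM.ok m) i β δ

theorem tr_fact_child (hM : TSeqOk M R₀ c₁ Cτ) :
    ∀ᵐ x ∂(tLim M), ∀ (i : Fin (n + 1)) (β : Bool) (s s' : ℚ), 0 ≤ s → s ≤ s' → s' ≤ 1 →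
      cI x {TNm.X s'} ({TNm.X s} ∪ {TNm.T i β}) ≤ (s' : ℝ) - s := by
  obtain ⟨K, _, hfin⟩ := tr_fact_child_fin n R₀
  rw [ae_all_iff]; intro i
  rw [ae_all_iff]; intro β
  rw [ae_all_iff]; intro s
  rw [ae_all_iff]; intro s'
  refine tr_fact_ae_imp fun h0 => tr_fact_ae_imp fun h1 => tr_fact_ae_imp fun h2 => ?_
  exact tr_fact_det0 hM _ _ _ K (Filter.Eventually.of_forall fun m ω₀ => hfin c₁ Cτ (M m) (hM.ok m) i β s s' h0 h1 h2 ω₀)

theorem tr_fact_bin (hM : TSeqOk M R₀ c₁ Cτ) :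
    ∀ᵐ x ∂(tLim M), ∀ (i : Fin (n + 1)) (β : Bool) (bs : ℚ), 0 ≤ bs → x (Sum.inl {TNm.B i β bs}) ≤ (n : ℝ) * bs := by
  obtain ⟨K, _, hfin⟩ := tr_fact_bin_fin n R₀
  rw [ae_all_iff]; intro i
  rw [ae_all_iff]; intro β
  rw [ae_all_iff]; intro bs
  refine tr_fact_ae_imp fun h0 => ?_
  exact tr_fact_cnt_abs hM _ _ K (Filter.Eventually.of_forall fun m => hfin c₁ Cτ (M m) (hM.ok m) i β bs h0 _)

theorem tr_fact_zx (hM : TSeqOk M R₀ c₁ Cτ) :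
    ∀ᵐ x ∂(tLim M), ∀ (ρ : Rf n) (bs r : ℚ), 0 < bs → 0 ≤ r → r ≤ 1 → cI x {TNm.X r} (nZ ρ bs r Finset.univ ∪ nD0 ρ bs) ≤ 0 := by
  obtain ⟨K, _, hfin⟩ := tr_fact_zx_fin n R₀
  rw [ae_all_iff]; intro ρ
  rw [ae_all_iff]; intro bs
  rw [ae_all_iff]; intro r
  refine tr_fact_ae_imp fun h0 => tr_fact_ae_imp fun _ => tr_fact_ae_imp fun _ => ?_
  refine tr_fact_det00 hM _ _ K ?_
  filter_upwards [tr_geo_sm_ev hM K bs (by exact_mod_cast h0)] with m hs ω₀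
  exact tr_geo_cnt_mono _ _ _ _ _ _ (fun ω hω => hω.2) le_rfl (hfin c₁ Cτ (M m) (hM.ok m) ρ bs r hs ω₀)

theorem tr_fact_xz (hM : TSeqOk M R₀ c₁ Cτ) :
    ∀ᵐ x ∂(tLim M), ∀ (ρ : Rf n) (bs r : ℚ), 0 < bs → 0 ≤ r → r ≤ 1 → cI x (nZ ρ bs r Finset.univ) ({TNm.X r} ∪ nD0 ρ bs) ≤ 0 := by
  obtain ⟨K, _, hfin⟩ := tr_fact_xz_fin n R₀
  rw [ae_all_iff]; intro ρ
  rw [ae_all_iff]; intro bs
  rw [ae_all_iff]; intro r
  refine tr_fact_ae_imp fun h0 => tr_fact_ae_imp fun _ => tr_fact_ae_imp fun _ => ?_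
  refine tr_fact_det00 hM _ _ K ?_
  filter_upwards [tr_geo_sm_ev hM K bs (by exact_mod_cast h0)] with m hs ω₀
  exact tr_geo_cnt_mono _ _ _ _ _ _ (fun ω hω => hω.2) le_rfl (hfin c₁ Cτ (M m) (hM.ok m) ρ bs r hs ω₀)

theorem tr_fact_off (hM : TSeqOk M R₀ c₁ Cτ) :
    ∀ᵐ x ∂(tLim M), ∀ (ρ : Rf n) (bs s r : ℚ) (i : Fin (n + 1)), 0 < bs → 0 ≤ s → s ≤ r → r ≤ 1 → r - s ≤ bs →
      cI x (nZ ρ bs r (Finset.univ.erase i)) ({TNm.X s} ∪ nD0 ρ bs ∪ {TNm.T i (ρ i)}) ≤ 0 := by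
  obtain ⟨K, _, hfin⟩ := tr_fact_off_fin n R₀
  rw [ae_all_iff]; intro ρ
  rw [ae_all_iff]; intro bs
  rw [ae_all_iff]; intro s
  rw [ae_all_iff]; intro r
  rw [ae_all_iff]; intro i
  refine tr_fact_ae_imp fun h0 => tr_fact_ae_imp fun h1 => tr_fact_ae_imp fun h2 => tr_fact_ae_imp fun h3 => tr_fact_ae_imp fun h4 => ?_
  refine tr_fact_det00 hM _ _ K ?_
  filter_upwards [tr_geo_sm_ev hM K bs (by exact_mod_cast h0)] with m hs ω₀
  exact hfin c₁ Cτ (M m) (hM.ok m) ρ bs s r i h1 h2 h3 h4 hs ω₀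

end Claimed.Agent.R257.TR
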