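import Claimed.Agent.R257.TR.Model
import Claimed.Agent.R257.TR.Eng.Main

/-!
# R257 / TR / Good : the almost sure facts of the limiting law of a countersequence of models      (captain TR: helper217)      -- SHARED

`TGood c₁ x` collects ALL facts about a point `x` of the limit space that come from finite scale (H t:information, (t:profile-endpoints), proof of t:additivity first paragraph, t:rank, first half of t:common, (t:angular-sum), first half of t:block-test).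
Everything else about the limit (`TR/Alg*.lean`) is DETERMINISTIC algebra on one good `x`.     Notation: `[A | B] = cI x A B`.

The two remaining inputs from finite scale are the null events `UBT` (block test) and `UNJ` (no jump): `TR/BT*.lean`, `TR/NJ*.lean`.
-/

set_option autoImplicit false

namespace Claimed.Agent.R257.TR

open Claimed.Agent.R255 Claimed.Agent.R257 MeasureTheory Filter Topology
open scoped BigOperators ENNReal
open Classical

variable {n : ℕ}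

/-- the reference bins `D₀` -/
noncomputable def nD0 (ρ : Rf n) (bs : ℚ) : Finset (TNm n) := Finset.univ.image (fun i => TNm.B i (ρ i) bs)

/-- `D₁ = D₀ ∪ {bin of T_0'}` -/
noncomputable def nD1 (n : ℕ) (bs : ℚ) : Finset (TNm n) := nD0 (rf0 n) bs ∪ {TNm.B 0 true bs}

/-- the coordinate labels `(Z_i)_{i ∈ A}` at resolution `r` -/
noncomputable def nZ (ρ : Rf n) (bs r : ℚ) (A : Finset (Fin (n + 1))) : Finset (TNm n) := A.image (fun i => TNm.Z ρ bs r i)

/-- the two off-axis indices of the paper (`a₂`, `a₃`) -/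
def jx (n : ℕ) (j : Bool) : Fin (n + 1) := if j then 2 else 1

/-- all almost sure facts coming from finite scale -/
structure TGood (c₁ : ℝ) (x : TSp n) : Prop where
  ifun : IFun x
  /-- nested grids -/
  nest : ∀ s s' : ℚ, 0 ≤ s → s ≤ s' → cI x {TNm.X s} {TNm.X s'} ≤ 0
  /-- (t:profile-endpoints) -/
  F_low : ∀ s : ℚ, 0 ≤ s → s ≤ 1 → (n : ℝ) * s ≤ x (Sum.inl {TNm.X s})
  F_one : x (Sum.inl {TNm.X 1}) ≤ n
  F_zero : x (Sum.inl {TNm.X 0}) ≤ 0
  G_one : ∀ (i : Fin (n + 1)) (β : Bool), (n : ℝ) / (n + 1) ≤ cI x {TNm.X 1} {TNm.T i β}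
  /-- a tube meets `L^{t+o(1)}` children -/
  child : ∀ (i : Fin (n + 1)) (β : Bool) (s s' : ℚ), 0 ≤ s → s ≤ s' → s' ≤ 1 → cI x {TNm.X s'} ({TNm.X s} ∪ {TNm.T i β}) ≤ (s' : ℝ) - s
  /-- number of direction bins -/
  bin : ∀ (i : Fin (n + 1)) (β : Bool) (bs : ℚ), 0 ≤ bs → x (Sum.inl {TNm.B i β bs}) ≤ (n : ℝ) * bs
  /-- cell and coordinate labels determine each other given the reference bins -/
  zx : ∀ (ρ : Rf n) (bs r : ℚ), 0 < bs → 0 ≤ r → r ≤ 1 → cI x {TNm.X r} (nZ ρ bs r Finset.univ ∪ nD0 ρ bs) ≤ 0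
  xz : ∀ (ρ : Rf n) (bs r : ℚ), 0 < bs → 0 ≤ r → r ≤ 1 → cI x (nZ ρ bs r Finset.univ) ({TNm.X r} ∪ nD0 ρ bs) ≤ 0
  /-- a reference tube determines its off-axis coordinates -/
  off : ∀ (ρ : Rf n) (bs s r : ℚ) (i : Fin (n + 1)), 0 < bs → 0 ≤ s → s ≤ r → r ≤ 1 → r - s ≤ bs →
    cI x (nZ ρ bs r (Finset.univ.erase i)) ({TNm.X s} ∪ nD0 ρ bs ∪ {TNm.T i (ρ i)}) ≤ 0
  /-- slope parametrisation on the event `r_j < a/2` -/
  slope : ∀ (i j : Fin (n + 1)) (bs r a : ℚ), i ≠ j → 0 < a → a < bs → 0 ≤ r → r ≤ 1 → x (Sum.inr (TEx.r i j)) < (a : ℝ) / 2 →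
    cI x {TNm.X r} ({TNm.T i true} ∪ {TNm.Z (rf0 n) bs r j} ∪ nD0 (rf0 n) bs) ≤ ((n : ℝ) + 1) * a
  r_nonneg : ∀ i j : Fin (n + 1), 0 ≤ x (Sum.inr (TEx.r i j))
  /-- at most one of the exponents `r_j` is positive (t:rank + strip law) -/
  onepos : ∀ i j k : Fin (n + 1), j ≠ i → k ≠ i → j ≠ k → x (Sum.inr (TEx.r i j)) ≤ 0 ∨ x (Sum.inr (TEx.r i k)) ≤ 0
  /-- the projection label -/
  pi1 : ∀ (bs s r : ℚ) (j : Fin (n + 1)), j ≠ 0 → 0 < bs → 0 ≤ s → s ≤ r → r ≤ 1 → r - s ≤ bs →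
    cI x {TNm.Pi bs r j} ({TNm.T 0 true} ∪ {TNm.X s} ∪ nD1 n bs) ≤ 0
  pi2 : ∀ (bs r : ℚ) (j : Fin (n + 1)), j ≠ 0 → 0 < bs → 0 ≤ r → r ≤ 1 →
    cI x {TNm.Pi bs r j} ({TNm.Z (rf0 n) bs r 0} ∪ {TNm.Z (rf0 n) bs r j} ∪ nD1 n bs) ≤ 0
  pi3 : ∀ (bs r : ℚ), 0 < bs → 0 ≤ r → r ≤ 1 → cI x {TNm.X r} ({TNm.T 0 true} ∪ {TNm.Z (rf0 n) bs r 0} ∪ nD1 n bs) ≤ 0
  /-- angular exponents, (t:angular-sum) -/
  h0 : ∀ (j : Fin (n + 1)) (u : ℚ), 0 ≤ x (Sum.inr (TEx.h j u))
  hmono : ∀ (j : Fin (n + 1)) (u v : ℚ), u ≤ v → x (Sum.inr (TEx.h j u)) ≤ x (Sum.inr (TEx.h j v))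
  hsum : ∀ u : ℚ, 0 < u → u < 1 / 8 → c₁ * u ≤ x (Sum.inr (TEx.h 1 u)) + x (Sum.inr (TEx.h 2 u))

/-! ### profiles, costs, the path of a point of the limit space -/

/-- `F(s) = I(X_s)` -/
def pF (x : TSp n) (s : ℚ) : ℝ := x (Sum.inl {TNm.X s})

/-- `G_i(s) = I(X_s | T_i)` (`β = false`), `G_i'(s)` (`β = true`) -/
noncomputable def pG (x : TSp n) (i : Fin (n + 1)) (β : Bool) (s : ℚ) : ℝ := cI x {TNm.X s} {TNm.T i β}

/-- the cost of revealing the bins `D` on the block `[s,r]` under the extra conditioning `W` (H t:additivity) -/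
noncomputable def pCost (x : TSp n) (D W : Finset (TNm n)) (s r : ℚ) : ℝ :=
  cI x {TNm.X r} ({TNm.X s} ∪ W) - cI x {TNm.X r} ({TNm.X s} ∪ W ∪ D)

/-- the conditionings whose costs are tested: nothing, the reference tubes, the alternative `T_0'` -/
noncomputable def tWs (n : ℕ) : Finset (Finset (TNm n)) :=
  {∅, {TNm.T 0 true}} ∪ Finset.univ.image (fun i : Fin (n + 1) => {TNm.T i false})

/-- total cost of the prefix `[s, s+t]` at precision `bs`: both bin lists, all tested conditionings -/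
noncomputable def pTot (x : TSp n) (s t bs : ℚ) : ℝ :=
  ∑ W ∈ tWs n, (max 0 (pCost x (nD0 (rf0 n) bs) W s (s + t)) + max 0 (pCost x (nD1 n bs) W s (s + t)))

/-- the path read on a point of the limit space -/
noncomputable def tPath (x : TSp n) : EPath where
  G := fun s => pG x 0 false s
  h := fun j u => x (Sum.inr (TEx.h (jx n j) u))
  c := fun s t bs => pTot x s t bs

/-! ### the two open cylinders that are excluded at finite scale -/

/-- the pair of coordinate labels `Y = (Z_0, Z_j)` at resolution `r` -/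
noncomputable def nY (n : ℕ) (bs r : ℚ) (j : Fin (n + 1)) : Finset (TNm n) := {TNm.Z (rf0 n) bs r 0, TNm.Z (rf0 n) bs r j}

/-- the success event of the block test in terms of the informations used at finite scale (H (t:pair-information), (t:projection-information), (iii));  tolerance `α b`, tested prefixes `u = b k/N` -/
def UBT (d d₀ κ₀ α : ℝ) (N : ℕ) (j : Fin (n + 1)) (s b bs : ℚ) : Set (TSp n) :=
  {x | |cI x (nY n bs (s + b) j) ({TNm.X s} ∪ nD0 (rf0 n) bs) - 2 * d * b| < α * b ∧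
       |cI x (nY n bs (s + b) j) ({TNm.X s} ∪ nD1 n bs) - 2 * d * b| < α * b ∧
       cI x {TNm.Pi bs (s + b) j} ({TNm.X s} ∪ nD1 n bs) < d * b + α * b ∧
       cI x {TNm.Z (rf0 n) bs (s + b) 0} ({TNm.X s} ∪ nD0 (rf0 n) bs) < d * b + α * b ∧
       ∀ k : ℕ, 1 ≤ k → k ≤ N →
         2 * d₀ * ((b * k / N : ℚ) : ℝ) - α * b < cI x (nY n bs (s + b * k / N) j) ({TNm.X s} ∪ nD0 (rf0 n) bs) ∧
         d₀ * ((b * k / N : ℚ) : ℝ) - α * b < cI x {TNm.Z (rf0 n) bs (s + b * k / N) 0} ({TNm.X s} ∪ nD0 (rf0 n) bs) ∧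
         κ₀ * ((b * k / N : ℚ) : ℝ) - α * b < x (Sum.inr (TEx.h j (b * k / N)))}

/-- the full-to-empty block in terms of the informations used at finite scale (H t:no-jump, first lines) -/
def UNJ (η : ℝ) (s b : ℚ) : Set (TSp n) :=
  {x | |cI x {TNm.X (s + b)} {TNm.X s} - ((n : ℝ) + 1) * b / 2| < η * b ∧
       ((n : ℝ) + 1) * b / 2 - η * b < cI x {TNm.X (s + b / 2)} {TNm.X s} ∧
       (b : ℝ) / 2 - η * b < cI x {TNm.X (s + b)} ({TNm.X s} ∪ {TNm.T 0 false})}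

/-- CONTRACT of the finite part of the block test (H t:block-test from "Pass the finite test to finite L", via `RW.ex_W1`) -/
def BTFin (M : ℕ → TModel n) : Prop :=
  ∀ d d₀ κ₀ : ℝ, 0 < d → d < 1 → 0 < d₀ → 0 < κ₀ → d < d₀ + κ₀ →
    ∃ α : ℝ, 0 < α ∧ ∃ N : ℕ, 1 ≤ N ∧ ∀ (j : Bool) (s b bs : ℚ), EBlk s b → b ≤ bs → bs ≤ 1 →
      Tendsto ((iSeqV (tSys M)).prU (UBT d d₀ κ₀ α N (jx n j) s b bs)) uf (𝓝 0)

/-- CONTRACT of the finite part of t:no-jump -/
def NJFin (M : ℕ → TModel n) : Prop :=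
  ∃ η : ℝ, 0 < η ∧ ∀ s b : ℚ, EBlk s b → Tendsto ((iSeqV (tSys M)).prU (UNJ η s b)) uf (𝓝 0)

/-- Stores the on-demand equation lemmas of the definitions above in THIS module (rule 6 hygiene). -/
theorem tr_good_forced : True := by
  have := @nD0.eq_1
  have := @nD1.eq_1
  have := @nZ.eq_1
  have := @jx.eq_1
  have := @pF.eq_1
  have := @pG.eq_1
  have := @pCost.eq_1
  have := @tWs.eq_1
  have := @pTot.eq_1
  have := @tPath.eq_1
  have := @nY.eq_1
  have := @UBT.eq_1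
  have := @UNJ.eq_1
  have := @BTFin.eq_1
  have := @NJFin.eq_1
  trivial

end Claimed.Agent.R257.TR
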