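import Claimed.Agent.R255.Base.Law
import Claimed.Agent.R255.Base.Ulim
import Claimed.Agent.R255.Ent.Basic

/-!
# R257 / TR / Info : sampled information on a finite law, the three finite-scale facts      (captain TR: helper217)

PAPER-FREE (H t:information, proof).  `P : FLaw Ω` (R255/Base/Law), observations are arbitrary functions on `Ω`, `P.fib X ω` = mass of the fibre of `X` through `ω`.
The three facts are stated multiplicatively (no logarithm):
* `tr_info_det`   restricted determination: on an event `E` where, given `V`, at most `K` labels of `Y` are possible, `P(Y | V) < lam` has probability `≤ lam K`;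
* `tr_info_tail`  special case: `P{ fib X < lam } ≤ lam · #labels`;
* `tr_info_cond`  conditioning lowers information up to a small probability: `P{ P(Y|V) > Lam · P(Y|V,W) } ≤ 1/Lam`.
-/

set_option autoImplicit false

namespace Claimed.Agent.R257.TR

open Claimed.Agent.R255
open scoped BigOperators
open Classical

variable {Ω : Type} [Fintype Ω] {α β γ : Type}

/-- the shares `p ω / fib X ω` of the points of a set on which `X` is constant add up to at most one -/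
theorem tr_info_share (P : FLaw Ω) (X : Ω → α) (T : Finset Ω) (ω₁ : Ω) (hT : ∀ ω ∈ T, X ω = X ω₁) :
    ∑ ω ∈ T, P.p ω / P.fib X ω ≤ 1 := by
  have h1 : ∀ ω ∈ T, P.p ω / P.fib X ω = P.p ω / P.fib X ω₁ := fun ω hω => by
    rw [ent_fib_congr P X (hT ω hω)]
  rw [Finset.sum_congr rfl h1, ← Finset.sum_div]
  have h2 : ∑ ω ∈ T, P.p ω ≤ P.fib X ω₁ := by
    unfold FLaw.fib FLaw.pr
    rw [← Finset.sum_filter]
    refine Finset.sum_le_sum_of_subset_of_nonneg (fun ω hω => ?_) (fun ω _ _ => P.nonneg ω)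
    exact Finset.mem_filter.2 ⟨Finset.mem_univ _, hT ω hω⟩
  exact div_le_one_of_le₀ h2 (ent_fib_nonneg P X ω₁)

/-- shares over a set: at most the number of values -/
theorem tr_info_share_card [DecidableEq α] (P : FLaw Ω) (X : Ω → α) (T : Finset Ω) :
    ∑ ω ∈ T, P.p ω / P.fib X ω ≤ ((T.image X).card : ℝ) := by
  rw [← Finset.sum_fiberwise_of_maps_to (t := T.image X) (g := X) (fun ω hω => Finset.mem_image_of_mem _ hω)]
  calc ∑ x ∈ T.image X, ∑ ω ∈ T with X ω = x, P.p ω / P.fib X ω ≤ ∑ x ∈ T.image X, (1 : ℝ) := by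
        refine Finset.sum_le_sum fun x hx => ?_
        obtain ⟨ω₁, -, rfl⟩ := Finset.mem_image.1 hx
        exact tr_info_share P X _ ω₁ fun ω hω => (Finset.mem_filter.1 hω).2
    _ = ((T.image X).card : ℝ) := by simp

/-- **restricted determination** (finite scale).  `hK`: among the points of `E` of positive mass with a given value of `V`, at most `K` values of `Y` occur
(stated for finite sets `F` on which `Y` is injective).
PLAN: `∑_{ω ∈ E, bad} p ω ≤ ∑_v ∑_{y possible, P(y,v) < lam P(v)} P(y,v) ≤ ∑_v K lam P(v) = lam K`; choose one representative `ω` per possible pair `(y,v)`. -/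
theorem tr_info_det (P : FLaw Ω) (Y : Ω → α) (V : Ω → β) (E : Ω → Prop) (K lam : ℝ) (hlam : 0 ≤ lam)
    (hK : ∀ (ω₀ : Ω) (F : Finset Ω), (∀ ω ∈ F, E ω ∧ 0 < P.p ω ∧ V ω = V ω₀) → Set.InjOn Y (F : Set Ω) → (F.card : ℝ) ≤ K) :
    P.pr (fun ω => E ω ∧ P.fib (FLaw.pair Y V) ω < lam * P.fib V ω) ≤ lam * K := by
  obtain ⟨S, hS⟩ : ∃ S : Finset Ω, S = Finset.univ.filter
      (fun ω => (E ω ∧ P.fib (FLaw.pair Y V) ω < lam * P.fib V ω) ∧ 0 < P.p ω) := ⟨_, rfl⟩
  have hSmem : ∀ ω, ω ∈ S ↔ (E ω ∧ P.fib (FLaw.pair Y V) ω < lam * P.fib V ω) ∧ 0 < P.p ω := fun ω => by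
    rw [hS]; simp
  -- step 1
  have h1 : P.pr (fun ω => E ω ∧ P.fib (FLaw.pair Y V) ω < lam * P.fib V ω) = ∑ ω ∈ S, P.p ω := by
    unfold FLaw.pr
    rw [hS, Finset.sum_filter]
    refine Finset.sum_congr rfl fun ω _ => ?_
    by_cases hp : 0 < P.p ω
    · by_cases hb : E ω ∧ P.fib (FLaw.pair Y V) ω < lam * P.fib V ω
      · rw [if_pos hb, if_pos ⟨hb, hp⟩]
      · rw [if_neg hb, if_neg (fun h => hb h.1)]
    · have : P.p ω = 0 := le_antisymm (not_lt.1 hp) (P.nonneg ω)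
      simp [this]
  -- step 2
  have h2 : ∀ ω ∈ S, P.p ω ≤ lam * (P.p ω / P.fib (FLaw.pair Y V) ω * P.fib V ω) := by
    intro ω hω
    obtain ⟨⟨-, hlt⟩, hp⟩ := (hSmem ω).1 hω
    have hf : 0 < P.fib (FLaw.pair Y V) ω := ent_fib_pos P _ hp.ne'
    have hc : 0 ≤ P.p ω / P.fib (FLaw.pair Y V) ω := div_nonneg hp.le hf.le
    calc P.p ω = P.p ω / P.fib (FLaw.pair Y V) ω * P.fib (FLaw.pair Y V) ω := by field_simp
      _ ≤ P.p ω / P.fib (FLaw.pair Y V) ω * (lam * P.fib V ω) := mul_le_mul_of_nonneg_left hlt.le hc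
      _ = lam * (P.p ω / P.fib (FLaw.pair Y V) ω * P.fib V ω) := by ring
  -- step 3
  have h3 : ∑ ω ∈ S, P.p ω / P.fib (FLaw.pair Y V) ω * P.fib V ω
      = ∑ ω₀, P.p ω₀ * ∑ ω ∈ S with V ω = V ω₀, P.p ω / P.fib (FLaw.pair Y V) ω := by
    unfold FLaw.fib FLaw.pr
    simp only [Finset.mul_sum, Finset.sum_filter]
    rw [Finset.sum_comm]
    refine Finset.sum_congr rfl fun ω₀ _ => Finset.sum_congr rfl fun ω _ => ?_
    by_cases hv : V ω₀ = V ω
    · rw [if_pos hv, if_pos hv.symm]; ring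
    · rw [if_neg hv, if_neg (fun h => hv h.symm)]; ring
  -- step 4
  have h4 : ∀ ω₀, ∑ ω ∈ S with V ω = V ω₀, P.p ω / P.fib (FLaw.pair Y V) ω ≤ K := by
    intro ω₀
    obtain ⟨T, hT⟩ : ∃ T : Finset Ω, T = S.filter (fun ω => V ω = V ω₀) := ⟨_, rfl⟩
    rw [← hT]
    refine (tr_info_share_card P (FLaw.pair Y V) T).trans ?_
    obtain ⟨F, hFT, hFinj, hFim⟩ := Finset.exists_subset_injOn_image_eq_of_surjOn (f := FLaw.pair Y V) (T : Set Ω)
      (T.image (FLaw.pair Y V)) (by rw [Finset.coe_image]; exact Set.surjOn_image _ _)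
    rw [← hFim, Finset.card_image_of_injOn hFinj]
    have hFmem : ∀ ω ∈ F, E ω ∧ 0 < P.p ω ∧ V ω = V ω₀ := by
      intro ω hω
      have hωT : ω ∈ T := hFT hω
      rw [hT, Finset.mem_filter] at hωT
      obtain ⟨⟨hE, -⟩, hp⟩ := (hSmem ω).1 hωT.1
      exact ⟨hE, hp, hωT.2⟩
    refine hK ω₀ F hFmem ?_
    intro a ha b hb hab
    refine hFinj ha hb ?_
    simp only [FLaw.pair, Prod.mk.injEq]
    exact ⟨hab, (hFmem a ha).2.2.trans (hFmem b hb).2.2.symm⟩
  rw [h1]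
  calc ∑ ω ∈ S, P.p ω ≤ ∑ ω ∈ S, lam * (P.p ω / P.fib (FLaw.pair Y V) ω * P.fib V ω) := Finset.sum_le_sum h2
    _ = lam * ∑ ω₀, P.p ω₀ * ∑ ω ∈ S with V ω = V ω₀, P.p ω / P.fib (FLaw.pair Y V) ω := by
        rw [← Finset.mul_sum, h3]
    _ ≤ lam * ∑ ω₀, P.p ω₀ * K := by
        refine mul_le_mul_of_nonneg_left (Finset.sum_le_sum fun ω₀ _ => ?_) hlam
        exact mul_le_mul_of_nonneg_left (h4 ω₀) (P.nonneg ω₀)
    _ = lam * K := by rw [← Finset.sum_mul, P.sum_one, one_mul]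

/-- tail of the sampled information of a variable with at most `K` labels -/
theorem tr_info_tail (P : FLaw Ω) (X : Ω → α) (K lam : ℝ) (hlam : 0 ≤ lam)
    (hK : ∀ F : Finset Ω, Set.InjOn X (F : Set Ω) → (F.card : ℝ) ≤ K) :
    P.pr (fun ω => P.fib X ω < lam) ≤ lam * K := by
  have h := tr_info_det P X (fun _ => ()) (fun _ => True) K lam hlam (fun _ F _ hF => hK F hF)
  refine le_trans (le_of_eq ?_) h
  refine ent_pr_congr P fun ω _ => ?_
  have e1 : P.fib (FLaw.pair X fun _ => ()) ω = P.fib X ω := by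
    rw [ent_fib_pair]
    unfold FLaw.fib
    simp
  have e2 : P.fib (fun _ => ()) ω = 1 := by
    unfold FLaw.fib
    simpa using ent_pr_true P
  rw [e1, e2, mul_one, true_and]

/-- shares over a set on which `X` is constant -/
theorem tr_info_share' (P : FLaw Ω) (X : Ω → α) (T : Finset Ω) (hT : ∀ ω ∈ T, ∀ ω' ∈ T, X ω = X ω') :
    ∑ ω ∈ T, P.p ω / P.fib X ω ≤ 1 := by
  rcases T.eq_empty_or_nonempty with rfl | ⟨ω₁, hω₁⟩
  · simp
  · exact tr_info_share P X T ω₁ fun ω hω => hT ω hω ω₁ hω₁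

/-- `E[p/q] ≤ 1` -/
theorem tr_info_cond_ev (P : FLaw Ω) (Y : Ω → α) (V : Ω → β) (W : Ω → γ) :
    P.ev (fun ω => P.fib (FLaw.pair Y V) ω * P.fib (FLaw.pair V W) ω /
      (P.fib (FLaw.pair Y (FLaw.pair V W)) ω * P.fib V ω)) ≤ 1 := by
  obtain ⟨c, hc⟩ : ∃ c : Ω → ℝ, c = fun ω => P.p ω / P.fib (FLaw.pair Y (FLaw.pair V W)) ω := ⟨_, rfl⟩
  have h1 : ∀ ω, P.p ω * (P.fib (FLaw.pair Y V) ω * P.fib (FLaw.pair V W) ω /
      (P.fib (FLaw.pair Y (FLaw.pair V W)) ω * P.fib V ω))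
      = ∑ ω1, ∑ ω2, P.p ω1 * P.p ω2 * (if FLaw.pair Y V ω1 = FLaw.pair Y V ω ∧ FLaw.pair V W ω2 = FLaw.pair V W ω
          then c ω / P.fib V ω else 0) := by
    intro ω
    have e1 : P.fib (FLaw.pair Y V) ω = ∑ ω1, if FLaw.pair Y V ω1 = FLaw.pair Y V ω then P.p ω1 else 0 := by
      unfold FLaw.fib FLaw.pr
      refine Finset.sum_congr rfl fun ω1 _ => ?_
      split_ifs <;> rfl
    have e2 : P.fib (FLaw.pair V W) ω = ∑ ω2, if FLaw.pair V W ω2 = FLaw.pair V W ω then P.p ω2 else 0 := by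
      unfold FLaw.fib FLaw.pr
      refine Finset.sum_congr rfl fun ω1 _ => ?_
      split_ifs <;> rfl
    have e3 : P.p ω * (P.fib (FLaw.pair Y V) ω * P.fib (FLaw.pair V W) ω /
        (P.fib (FLaw.pair Y (FLaw.pair V W)) ω * P.fib V ω))
        = P.fib (FLaw.pair Y V) ω * P.fib (FLaw.pair V W) ω * (c ω / P.fib V ω) := by
      rw [hc]
      simp only [div_eq_mul_inv, mul_inv]
      ring
    rw [e3, e1, e2, Finset.sum_mul_sum, Finset.sum_mul]
    refine Finset.sum_congr rfl fun ω1 _ => ?_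
    rw [Finset.sum_mul]
    refine Finset.sum_congr rfl fun ω2 _ => ?_
    by_cases a1 : FLaw.pair Y V ω1 = FLaw.pair Y V ω
    · by_cases a2 : FLaw.pair V W ω2 = FLaw.pair V W ω
      · rw [if_pos a1, if_pos a2, if_pos ⟨a1, a2⟩]
      · have hn : ¬ (FLaw.pair Y V ω1 = FLaw.pair Y V ω ∧ FLaw.pair V W ω2 = FLaw.pair V W ω) := fun h => a2 h.2
        rw [if_neg a2, if_neg hn]; ring
    · have hn : ¬ (FLaw.pair Y V ω1 = FLaw.pair Y V ω ∧ FLaw.pair V W ω2 = FLaw.pair V W ω) := fun h => a1 h.1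
      rw [if_neg a1, if_neg hn]; ring
  have h2 : ∀ ω1 ω2, ∑ ω, (if FLaw.pair Y V ω1 = FLaw.pair Y V ω ∧ FLaw.pair V W ω2 = FLaw.pair V W ω
          then c ω / P.fib V ω else 0) ≤ if V ω2 = V ω1 then 1 / P.fib V ω1 else 0 := by
    intro ω1 ω2
    by_cases hv : V ω2 = V ω1
    · rw [if_pos hv, ← Finset.sum_filter]
      have e : ∀ ω ∈ Finset.univ.filter (fun ω => FLaw.pair Y V ω1 = FLaw.pair Y V ω ∧ FLaw.pair V W ω2 = FLaw.pair V W ω),
          c ω / P.fib V ω = c ω / P.fib V ω1 := by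
        intro ω hω
        have := (Finset.mem_filter.1 hω).2.1
        rw [ent_fib_congr P V (congrArg Prod.snd this)]
      rw [Finset.sum_congr rfl e, ← Finset.sum_div]
      refine div_le_div_of_nonneg_right ?_ (ent_fib_nonneg P V ω1)
      rw [hc]
      refine tr_info_share' P _ _ ?_
      intro ω hω ω' hω'
      obtain ⟨a1, a2⟩ := (Finset.mem_filter.1 hω).2
      obtain ⟨b1, b2⟩ := (Finset.mem_filter.1 hω').2
      have hY : Y ω = Y ω' := (congrArg Prod.fst a1).symm.trans (congrArg Prod.fst b1)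
      have hVW : FLaw.pair V W ω = FLaw.pair V W ω' := a2.symm.trans b2
      simp only [FLaw.pair, Prod.mk.injEq] at hVW ⊢
      exact ⟨hY, hVW⟩
    · rw [if_neg hv]
      refine le_of_eq (Finset.sum_eq_zero fun ω _ => ?_)
      rw [if_neg]
      rintro ⟨a1, a2⟩
      exact hv ((congrArg Prod.fst a2).trans (congrArg Prod.snd a1).symm)
  unfold FLaw.ev
  rw [Finset.sum_congr rfl fun ω _ => h1 ω, Finset.sum_comm]
  calc ∑ ω1, ∑ ω, ∑ ω2, P.p ω1 * P.p ω2 * (if FLaw.pair Y V ω1 = FLaw.pair Y V ω ∧ FLaw.pair V W ω2 = FLaw.pair V W ω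
          then c ω / P.fib V ω else 0)
      = ∑ ω1, ∑ ω2, P.p ω1 * P.p ω2 * ∑ ω, (if FLaw.pair Y V ω1 = FLaw.pair Y V ω ∧ FLaw.pair V W ω2 = FLaw.pair V W ω
          then c ω / P.fib V ω else 0) := by
        refine Finset.sum_congr rfl fun ω1 _ => ?_
        rw [Finset.sum_comm]
        refine Finset.sum_congr rfl fun ω2 _ => ?_
        rw [Finset.mul_sum]
    _ ≤ ∑ ω1, ∑ ω2, P.p ω1 * P.p ω2 * (if V ω2 = V ω1 then 1 / P.fib V ω1 else 0) := by
        refine Finset.sum_le_sum fun ω1 _ => Finset.sum_le_sum fun ω2 _ => ?_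
        exact mul_le_mul_of_nonneg_left (h2 ω1 ω2) (mul_nonneg (P.nonneg _) (P.nonneg _))
    _ = ∑ ω1, P.p ω1 * (P.fib V ω1 * (1 / P.fib V ω1)) := by
        refine Finset.sum_congr rfl fun ω1 _ => ?_
        have e : P.fib V ω1 = ∑ ω2, if V ω2 = V ω1 then P.p ω2 else 0 := rfl
        rw [e, Finset.sum_mul, Finset.mul_sum]
        refine Finset.sum_congr rfl fun ω2 _ => ?_
        by_cases hv : V ω2 = V ω1
        · rw [if_pos hv, if_pos hv]; ring
        · rw [if_neg hv, if_neg hv]; ring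
    _ ≤ ∑ ω1, P.p ω1 * 1 := by
        refine Finset.sum_le_sum fun ω1 _ => mul_le_mul_of_nonneg_left ?_ (P.nonneg ω1)
        rw [mul_one_div]
        exact div_self_le_one _
    _ = 1 := by simp [P.sum_one]

/-- **conditioning** (finite scale): with `p = P(Y|V)`, `q = P(Y|V,W)` at the sampled labels, `E[p/q] ≤ 1`, then Markov.
`∑_ω p(ω) p/q = ∑_{(y,v,w) : P > 0} P(v,w) P(y|v) ≤ 1`. -/
theorem tr_info_cond (P : FLaw Ω) (Y : Ω → α) (V : Ω → β) (W : Ω → γ) (Lam : ℝ) (hLam : 0 < Lam) :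
    P.pr (fun ω => Lam * (P.fib (FLaw.pair Y (FLaw.pair V W)) ω * P.fib V ω)
        < P.fib (FLaw.pair Y V) ω * P.fib (FLaw.pair V W) ω) ≤ 1 / Lam := by
  have hm := ent_markov P (f := fun ω => P.fib (FLaw.pair Y V) ω * P.fib (FLaw.pair V W) ω /
      (P.fib (FLaw.pair Y (FLaw.pair V W)) ω * P.fib V ω))
    (fun ω _ => div_nonneg (mul_nonneg (ent_fib_nonneg P _ _) (ent_fib_nonneg P _ _))
      (mul_nonneg (ent_fib_nonneg P _ _) (ent_fib_nonneg P _ _))) hLam
  refine le_trans (ent_pr_mono P fun ω hω h => ?_)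
    (hm.trans (div_le_div_of_nonneg_right (tr_info_cond_ev P Y V W) hLam.le))
  have hpos : 0 < P.fib (FLaw.pair Y (FLaw.pair V W)) ω * P.fib V ω :=
    mul_pos (ent_fib_pos P _ hω) (ent_fib_pos P _ hω)
  rw [le_div_iff₀ hpos]
  exact h.le

/-- the fibre through a point of positive mass has positive mass -/
theorem tr_info_fib_pos (P : FLaw Ω) (X : Ω → α) (ω : Ω) (h : 0 < P.p ω) : 0 < P.fib X ω :=
  ent_fib_pos P X h.ne'

/-- a finer observation has smaller fibres -/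
theorem tr_info_fib_mono (P : FLaw Ω) (X : Ω → α) (Y : Ω → β) (h : ∀ ω ω', Y ω = Y ω' → X ω = X ω') (ω : Ω) :
    P.fib Y ω ≤ P.fib X ω :=
  ent_fib_mono P Y X ω fun ω' _ hy => h ω' ω hy

theorem tr_info_fib_le_one (P : FLaw Ω) (X : Ω → α) (ω : Ω) : P.fib X ω ≤ 1 :=
  ent_fib_le_one P X ω

/-- events of probability zero: only points of positive mass count -/
theorem tr_info_pr_congr (P : FLaw Ω) (E F : Ω → Prop) (h : ∀ ω, 0 < P.p ω → (E ω → F ω)) : P.pr E ≤ P.pr F :=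
  ent_pr_mono P fun ω hω hE => h ω (lt_of_le_of_ne (P.nonneg ω) (Ne.symm hω)) hE

theorem tr_info_pr_union (P : FLaw Ω) (E F : Ω → Prop) : P.pr (fun ω => E ω ∨ F ω) ≤ P.pr E + P.pr F :=
  ent_pr_or_le P E F

theorem tr_info_pr_nonneg (P : FLaw Ω) (E : Ω → Prop) : 0 ≤ P.pr E :=
  ent_pr_nonneg P E

theorem tr_info_pr_le_one (P : FLaw Ω) (E : Ω → Prop) : P.pr E ≤ 1 :=
  ent_pr_le_one P E

end Claimed.Agent.R257.TR
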