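import Claimed.Agent.R257.TR.Info

/-!
# R257 / TR / Lim : the limiting joint law of countably many real variables on finite laws      (captain TR: helper217)

PAPER-FREE (H t:information: "common limiting joint law", "pass to finite scale with slack").
A `VSeq ι` is a sequence of finite laws `P m` on `Ω m`, each with a vector of real variables `v m ω : ι → ℝ` (`ι` countable).  If every variable is tight there is a probability measure `μ` on `ι → ℝ` with

    `μ U ≤ ulim P_m (v m ∈ U)`     for every OPEN set `U` depending on finitely many coordinates          (`VSeq.IsLim`).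

This single inequality is the whole interface:  `P_m(v ∈ U) → 0` gives `μ U = 0` (almost sure inequalities in the limit), and `μ U > p` gives `P_m (v ∈ U) > p` for `𝓤`-most `m` (passage to finite scale).
No subsequence is extracted: limits are taken along the ultrafilter `uf` of R255/Base/Ulim.
-/

set_option autoImplicit false

namespace Claimed.Agent.R257.TR

open Claimed.Agent.R255 MeasureTheory Filter Topology
open scoped BigOperators ENNReal
open Classical

/-- a sequence of finite laws with a vector of real variables -/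
structure VSeq (ι : Type) where
  /-- sample spaces -/
  Ω : ℕ → Type
  /-- finiteness -/
  fΩ : ∀ m, Fintype (Ω m)
  /-- laws -/
  P : ∀ m, @FLaw (Ω m) (fΩ m)
  /-- the variables -/
  v : ∀ m, Ω m → ι → ℝ

attribute [instance] VSeq.fΩ

variable {ι : Type}

/-- `U` depends only on the coordinates in `T` -/
def FinDep (U : Set (ι → ℝ)) (T : Finset ι) : Prop := ∀ x y : ι → ℝ, (∀ i ∈ T, x i = y i) → (x ∈ U ↔ y ∈ U)

/-- `P_m (v m ∈ U)` -/
noncomputable def VSeq.prU (S : VSeq ι) (U : Set (ι → ℝ)) (m : ℕ) : ℝ := (S.P m).pr (fun ω => S.v m ω ∈ U)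

/-- every variable is bounded up to a probability tending to zero -/
def VSeq.Tight (S : VSeq ι) : Prop :=
  ∀ i, ∃ c : ℝ, Tendsto (fun m => (S.P m).pr (fun ω => c < |S.v m ω i|)) uf (𝓝 0)

/-- the defining property of a limiting law -/
def VSeq.IsLim (S : VSeq ι) (μ : Measure (ι → ℝ)) : Prop :=
  ∀ (U : Set (ι → ℝ)) (T : Finset ι), IsOpen U → FinDep U T → (μ U).toReal ≤ ulim (S.prU U)


/-- the compact box -/
abbrev trLimBox (c : ι → ℝ) : Type := (i : ι) → Set.Icc (-c i) (c i)

/-- the inclusion of the box -/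
def trLimIncl (c : ι → ℝ) (x : trLimBox c) : ι → ℝ := fun i => (x i : ℝ)

theorem tr_lim_incl_cont (c : ι → ℝ) : Continuous (trLimIncl c) :=
  continuous_pi fun i => continuous_subtype_val.comp (continuous_apply i)

/-- the law of a finite family of points -/
noncomputable def trLimLaw {X Ω : Type} [MeasurableSpace X] [Fintype Ω] (P : FLaw Ω) (k : Ω → X) : Measure X :=
  ∑ ω, ENNReal.ofReal (P.p ω) • Measure.dirac (k ω)

theorem tr_lim_law_apply {X Ω : Type} [MeasurableSpace X] [Fintype Ω] (P : FLaw Ω) (k : Ω → X) {G : Set X} (hG : MeasurableSet G) :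
    trLimLaw P k G = ENNReal.ofReal (P.pr fun ω => k ω ∈ G) := by
  unfold trLimLaw FLaw.pr
  rw [Measure.finsetSum_apply, ENNReal.ofReal_sum_of_nonneg]
  · refine Finset.sum_congr rfl fun ω _ => ?_
    rw [Measure.smul_apply, Measure.dirac_apply' _ hG, smul_eq_mul]
    by_cases h : k ω ∈ G
    · rw [if_pos h, Set.indicator_of_mem h]
      simp
    · rw [if_neg h, Set.indicator_of_notMem h]
      simp
  · intro ω _
    split_ifs
    · exact P.nonneg ω
    · exact le_rfl

theorem tr_lim_law_prob {X Ω : Type} [MeasurableSpace X] [Fintype Ω] (P : FLaw Ω) (k : Ω → X) : IsProbabilityMeasure (trLimLaw P k) := by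
  refine ⟨?_⟩
  rw [tr_lim_law_apply P k MeasurableSet.univ]
  unfold FLaw.pr
  simp only [Set.mem_univ, if_true, P.sum_one, ENNReal.ofReal_one]

/-- bounded case.  PLAN: `K = ∀ i, Set.Icc (-c i) (c i)` is compact; `μ_m : ProbabilityMeasure K` = law of `v m` (finite sum of Dirac masses);
`CompactSpace (ProbabilityMeasure K)` (Mathlib `MeasureTheory/Measure/Prokhorov.lean`) gives a limit along the ultrafilter `hyperfilter ℕ`;
`ProbabilityMeasure.le_liminf_measure_open_of_tendsto` (any filter); along an ultrafilter `liminf = lim`; push forward to `ι → ℝ` by the inclusion. -/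
theorem tr_lim_exists_bdd [Countable ι] (S : VSeq ι) (c : ι → ℝ) (hc : ∀ m ω i, |S.v m ω i| ≤ c i) :
    ∃ μ : Measure (ι → ℝ), IsProbabilityMeasure μ ∧ S.IsLim μ := by
  have := uf_neBot
  obtain ⟨kp, hkp⟩ : ∃ kp : ∀ m, S.Ω m → trLimBox c, ∀ m ω, trLimIncl c (kp m ω) = S.v m ω :=
    ⟨fun m ω i => ⟨S.v m ω i, abs_le.1 (hc m ω i)⟩, fun _ _ => rfl⟩
  obtain ⟨μs, hμs⟩ : ∃ μs : ℕ → ProbabilityMeasure (trLimBox c), ∀ m, (μs m : Measure (trLimBox c)) = trLimLaw (S.P m) (kp m) :=
    ⟨fun m => ⟨trLimLaw (S.P m) (kp m), tr_lim_law_prob _ _⟩, fun _ => rfl⟩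
  obtain ⟨μl, hlim⟩ : ∃ μl, Tendsto μs uf (𝓝 μl) := ⟨_, Ultrafilter.le_nhds_lim ((hyperfilter ℕ).map μs)⟩
  have hi := tr_lim_incl_cont c
  refine ⟨(μl : Measure (trLimBox c)).map (trLimIncl c), Measure.isProbabilityMeasure_map hi.measurable.aemeasurable, ?_⟩
  intro U T hU _
  have hG : IsOpen (trLimIncl c ⁻¹' U) := hU.preimage hi
  have h1 := ProbabilityMeasure.le_liminf_measure_open_of_tendsto hlim hG
  have h2 : ∀ m, (μs m : Measure (trLimBox c)) (trLimIncl c ⁻¹' U) = ENNReal.ofReal (S.prU U m) := fun m => by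
    rw [hμs, tr_lim_law_apply _ _ hG.measurableSet]
    unfold VSeq.prU
    simp only [Set.mem_preimage, hkp]
  simp only [h2] at h1
  have hb : UBdd (S.prU U) := by
    refine ⟨1, Eventually.of_forall fun m => ?_⟩
    have h0 : 0 ≤ S.prU U m := tr_info_pr_nonneg _ _
    have h1 : S.prU U m ≤ 1 := tr_info_pr_le_one _ _
    rw [abs_of_nonneg h0]
    exact h1
  have ht := ulim_tendsto _ hb
  have h3 : Tendsto (fun m => ENNReal.ofReal (S.prU U m)) uf (𝓝 (ENNReal.ofReal (ulim (S.prU U)))) :=
    (ENNReal.continuous_ofReal.tendsto _).comp ht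
  rw [h3.liminf_eq] at h1
  rw [Measure.map_apply hi.measurable hU.measurableSet]
  exact ENNReal.toReal_le_of_le_ofReal (ge_of_tendsto' ht fun m => tr_info_pr_nonneg _ _) h1

theorem tr_lim_clip_bdd (S : VSeq ι) (U : Set (ι → ℝ)) : UBdd (S.prU U) := by
  refine ⟨1, Eventually.of_forall fun m => ?_⟩
  have h0 : 0 ≤ S.prU U m := tr_info_pr_nonneg _ _
  have h1 : S.prU U m ≤ 1 := tr_info_pr_le_one _ _
  rw [abs_of_nonneg h0]
  exact h1

/-- **existence of the limiting law**.  PLAN: clip the variable `i` to `[-c i, c i]` and apply the bounded case; for `U` depending on the finite set `T`,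
`P_m(clipped ∈ U) ≤ P_m(v ∈ U) + ∑_{i ∈ T} P_m(c i < |v i|)`, and the last sum tends to `0`. -/
theorem tr_lim_exists [Countable ι] (S : VSeq ι) (hT : S.Tight) :
    ∃ μ : Measure (ι → ℝ), IsProbabilityMeasure μ ∧ S.IsLim μ := by
  have := uf_neBot
  choose c hc using hT
  set S' : VSeq ι := ⟨S.Ω, S.fΩ, S.P, fun m ω i => max (-|c i|) (min (S.v m ω i) |c i|)⟩ with hS'
  obtain ⟨μ, hμ, hlim⟩ := tr_lim_exists_bdd S' (fun i => |c i|) (by
    intro m ω i
    show |max (-|c i|) (min (S.v m ω i) |c i|)| ≤ |c i|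
    rw [abs_le]
    exact ⟨le_max_left _ _, max_le (by linarith [abs_nonneg (c i)]) (min_le_right _ _)⟩)
  refine ⟨μ, hμ, fun U T hU hUT => (hlim U T hU hUT).trans ?_⟩
  have hpt : ∀ m, S'.prU U m ≤ S.prU U m + ∑ i ∈ T, (S.P m).pr (fun ω => c i < |S.v m ω i|) := by
    intro m
    show (S.P m).pr (fun ω => (fun i => max (-|c i|) (min (S.v m ω i) |c i|)) ∈ U) ≤ (S.P m).pr (fun ω => S.v m ω ∈ U) + _
    unfold FLaw.pr
    rw [Finset.sum_comm, ← Finset.sum_add_distrib]
    apply Finset.sum_le_sum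
    intro ω _
    have hp := (S.P m).nonneg ω
    have hs0 : 0 ≤ ∑ i ∈ T, (if c i < |S.v m ω i| then (S.P m).p ω else 0) :=
      Finset.sum_nonneg fun i _ => by split_ifs <;> simp [hp]
    by_cases h1 : (fun i => max (-|c i|) (min (S.v m ω i) |c i|)) ∈ U
    · rw [if_pos h1]
      by_cases h2 : ∀ i ∈ T, |S.v m ω i| ≤ c i
      · have h3 : S.v m ω ∈ U := by
          refine (hUT _ _ fun i hi => ?_).1 h1
          have h4 := abs_le.1 ((h2 i hi).trans (le_abs_self _))
          show max (-|c i|) (min (S.v m ω i) |c i|) = S.v m ω i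
          rw [min_eq_left h4.2, max_eq_right h4.1]
        rw [if_pos h3]
        linarith
      · push Not at h2
        obtain ⟨i, hi, hlt⟩ := h2
        have h5 := Finset.single_le_sum (f := fun i => if c i < |S.v m ω i| then (S.P m).p ω else 0)
          (fun i _ => by split_ifs <;> simp [hp]) hi
        simp only [if_pos hlt] at h5
        have h6 : 0 ≤ (if S.v m ω ∈ U then (S.P m).p ω else 0) := by split_ifs <;> simp [hp]
        linarith
    · rw [if_neg h1]
      have h6 : 0 ≤ (if S.v m ω ∈ U then (S.P m).p ω else 0) := by split_ifs <;> simp [hp]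
      linarith
  have t1 := ulim_tendsto _ (tr_lim_clip_bdd S' U)
  have t2 : Tendsto (fun m => S.prU U m + ∑ i ∈ T, (S.P m).pr (fun ω => c i < |S.v m ω i|)) uf (𝓝 (ulim (S.prU U) + ∑ _i ∈ T, (0:ℝ))) :=
    (ulim_tendsto _ (tr_lim_clip_bdd S U)).add (tendsto_finsetSum T fun i _ => hc i)
  rw [Finset.sum_const_zero, add_zero] at t2
  exact le_of_tendsto_of_tendsto t1 t2 (Eventually.of_forall hpt)

/-- the chosen limiting law -/
noncomputable def VSeq.lim (S : VSeq ι) : Measure (ι → ℝ) :=
  if h : ∃ μ : Measure (ι → ℝ), IsProbabilityMeasure μ ∧ S.IsLim μ then h.choose else Measure.dirac 0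

theorem tr_lim_prob [Countable ι] (S : VSeq ι) (hT : S.Tight) : IsProbabilityMeasure S.lim := by
  have h := tr_lim_exists S hT
  unfold VSeq.lim
  rw [dif_pos h]
  exact h.choose_spec.1

theorem tr_lim_isLim [Countable ι] (S : VSeq ι) (hT : S.Tight) : S.IsLim S.lim := by
  have h := tr_lim_exists S hT
  unfold VSeq.lim
  rw [dif_pos h]
  exact h.choose_spec.2

theorem tr_lim_prU_bdd (S : VSeq ι) (U : Set (ι → ℝ)) : UBdd (S.prU U) := by
  refine ⟨1, Eventually.of_forall fun m => ?_⟩
  have h0 : 0 ≤ S.prU U m := tr_info_pr_nonneg _ _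
  have h1 : S.prU U m ≤ 1 := tr_info_pr_le_one _ _
  rw [abs_of_nonneg h0]
  exact h1

/-- almost sure statements: an open cylinder whose finite-scale probability tends to zero is null -/
theorem tr_lim_null (S : VSeq ι) (μ : Measure (ι → ℝ)) [IsProbabilityMeasure μ] (hμ : S.IsLim μ) (U : Set (ι → ℝ)) (T : Finset ι)
    (hU : IsOpen U) (hT : FinDep U T) (h0 : Tendsto (S.prU U) uf (𝓝 0)) : μ U = 0 := by
  have h1 := hμ U T hU hT
  rw [ulim_eq_of_tendsto _ 0 h0] at h1
  have h2 : (μ U).toReal = 0 := le_antisymm h1 ENNReal.toReal_nonneg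
  rcases (ENNReal.toReal_eq_zero_iff _).1 h2 with h | h
  · exact h
  · exact absurd h (measure_ne_top μ U)

/-- passage to finite scale: an open cylinder of limiting mass `> p` has finite-scale probability `> p` for `𝓤`-most `m` -/
theorem tr_lim_pass (S : VSeq ι) (μ : Measure (ι → ℝ)) [IsProbabilityMeasure μ] (hμ : S.IsLim μ) (U : Set (ι → ℝ)) (T : Finset ι)
    (hU : IsOpen U) (hT : FinDep U T) (p : ℝ) (hp : p < (μ U).toReal) : ∀ᶠ m in uf, p < S.prU U m := by
  have h1 := hμ U T hU hT
  exact (ulim_tendsto _ (tr_lim_prU_bdd S U)).eventually (Ioi_mem_nhds (hp.trans_le h1))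

/-- closed form of `tr_lim_null`: a non-strict inequality `f x ≤ a` (`f` continuous, depending on finitely many coordinates) which fails by `δ` with probability `→ 0`, for every `δ > 0`, on an open cylinder `U`. -/
theorem tr_lim_ae_le (S : VSeq ι) (μ : Measure (ι → ℝ)) [IsProbabilityMeasure μ] (hμ : S.IsLim μ) (U : Set (ι → ℝ)) (T : Finset ι)
    (hU : IsOpen U) (hT : FinDep U T) (f : (ι → ℝ) → ℝ) (hf : Continuous f) (hfT : ∀ x y : ι → ℝ, (∀ i ∈ T, x i = y i) → f x = f y) (a : ℝ)
    (h0 : ∀ δ : ℝ, 0 < δ → Tendsto (fun m => (S.P m).pr (fun ω => S.v m ω ∈ U ∧ a + δ < f (S.v m ω))) uf (𝓝 0)) :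
    ∀ᵐ x ∂μ, x ∈ U → f x ≤ a := by
  have hk : ∀ k : ℕ, μ (U ∩ {x | a + 1 / ((k : ℝ) + 1) < f x}) = 0 := by
    intro k
    refine tr_lim_null S μ hμ _ T (hU.inter (isOpen_lt continuous_const hf)) ?_ (h0 _ (by positivity))
    intro x y hxy
    have e1 := hT x y hxy
    have e2 := hfT x y hxy
    simp only [Set.mem_inter_iff, Set.mem_ofPred_eq, e1, e2]
  rw [ae_iff]
  refine measure_mono_null ?_ (measure_iUnion_null hk)
  intro x hx
  simp only [Set.mem_ofPred_eq, Classical.not_imp, not_le] at hx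
  obtain ⟨hxU, hxa⟩ := hx
  obtain ⟨k, hk'⟩ := exists_nat_one_div_lt (sub_pos.2 hxa)
  refine Set.mem_iUnion.2 ⟨k, hxU, ?_⟩
  show a + 1 / ((k : ℝ) + 1) < f x
  linarith

/-- Stores the on-demand equation lemmas of the definitions above in THIS module (rule 6 hygiene). -/
theorem tr_lim_forced : True := by
  have := @FinDep.eq_1
  have := @VSeq.prU.eq_1
  have := @VSeq.Tight.eq_1
  have := @VSeq.IsLim.eq_1
  have := @VSeq.lim.eq_1
  trivial

end Claimed.Agent.R257.TR
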