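import Claimed.Agent.R257.TR.Model

/-!
# R257 / TR / Lin : the linear core of the geometry of a transverse family of directions      (helper194)      -- SHARED, sorry-free

Items g1-g5, g8, g10 and the resolvent identity of `TR/Plan.lean`.  `ξ : Fin (n+1) → E n`, `Trv Q ξ` determinant free transversality.
* `tr_lin_bmap_coord`, `tr_lin_coord_bmap`, `tr_lin_coord_add/sub/smul/zero`                (g1)
* `tr_lin_coord_sum`, `tr_lin_coord_le`    `∑ |coord ξ z i| ≤ Q (‖z.1‖/2 + |z.2|)`             (g2)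
* `tr_lin_bmap_norm`                       `‖bmap ξ c‖ ≤ (2R₀+1) ∑ |c i|`                    (g3)
* `tr_lin_pert`                            perturbation of `Trv`                             (g4)
* `tr_lin_binR`, `tr_lin_binR_congr`       bin representatives                               (g5)
* `tr_lin_repl`                            replacement bound                                 (g8)
* `tr_lin_coord_vdir`                      `coord ξ (vdir (ξ i)) = e_i`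
* `tr_lin_resolvent`, `tr_lin_two_bases`   coordinates in two nearby bases
* `tr_lin_vdir_two`, `tr_lin_ratio`, `tr_lin_ratio_bd`   coefficients and ratios of two nearby directions in two nearby bases; bound of a ratio
-/

set_option autoImplicit false

namespace Claimed.Agent.R257.TR

open Claimed.Agent.R255 Claimed.Agent.R257
open scoped BigOperators
open Classical

variable {n : ℕ}

theorem tr_lin_bmap_add (ξ : Fin (n + 1) → E n) (c c' : Fin (n + 1) → ℝ) : bmap ξ (c + c') = bmap ξ c + bmap ξ c' := by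
  unfold bmap
  ext1
  · simp only [Pi.add_apply, mul_add, add_smul, Finset.sum_add_distrib, Prod.mk_add_mk]
  · simp only [Pi.add_apply, Finset.sum_add_distrib, Prod.mk_add_mk]

theorem tr_lin_bmap_smul (ξ : Fin (n + 1) → E n) (a : ℝ) (c : Fin (n + 1) → ℝ) : bmap ξ (a • c) = a • bmap ξ c := by
  unfold bmap
  ext1
  · simp only [Pi.smul_apply, smul_eq_mul, Prod.smul_mk, Finset.smul_sum, smul_smul]
    refine Finset.sum_congr rfl fun i _ => ?_
    congr 1; ring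
  · simp only [Pi.smul_apply, smul_eq_mul, Prod.smul_mk, Finset.mul_sum]

/-- `bmap` as a linear map -/
noncomputable def bmapL (ξ : Fin (n + 1) → E n) : (Fin (n + 1) → ℝ) →ₗ[ℝ] ST n where
  toFun := bmap ξ
  map_add' := tr_lin_bmap_add ξ
  map_smul' := fun a c => by simpa using tr_lin_bmap_smul ξ a c

@[simp] theorem tr_lin_bmapL_apply (ξ : Fin (n + 1) → E n) (c : Fin (n + 1) → ℝ) : bmapL ξ c = bmap ξ c := rfl

theorem tr_lin_bmap_sub (ξ : Fin (n + 1) → E n) (c c' : Fin (n + 1) → ℝ) : bmap ξ (c - c') = bmap ξ c - bmap ξ c' :=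
  (bmapL ξ).map_sub c c'

theorem tr_lin_bmap_zero (ξ : Fin (n + 1) → E n) : bmap ξ 0 = 0 := (bmapL ξ).map_zero

theorem tr_lin_bmap_fst (ξ : Fin (n + 1) → E n) (c : Fin (n + 1) → ℝ) : (bmap ξ c).1 = (2 : ℝ) • ∑ i, c i • ξ i := by
  unfold bmap
  simp only [Finset.smul_sum, smul_smul]

theorem tr_lin_bmap_snd (ξ : Fin (n + 1) → E n) (c : Fin (n + 1) → ℝ) : (bmap ξ c).2 = ∑ i, c i := rfl

/-- the constant of transversality is positive -/
theorem tr_lin_Q_pos {Q : ℝ} {ξ : Fin (n + 1) → E n} (h : Trv Q ξ) : 0 < Q := by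
  have h1 := h (Pi.single 0 1)
  have h2 : (1 : ℝ) ≤ ∑ i, |(Pi.single 0 1 : Fin (n + 1) → ℝ) i| := by
    have := Finset.single_le_sum (f := fun i => |(Pi.single 0 1 : Fin (n + 1) → ℝ) i|) (fun i _ => abs_nonneg _)
      (Finset.mem_univ (0 : Fin (n + 1)))
    simpa using this
  by_contra hQ
  have h3 : Q * (‖∑ i, (Pi.single 0 1 : Fin (n + 1) → ℝ) i • ξ i‖ + |∑ i, (Pi.single 0 1 : Fin (n + 1) → ℝ) i|) ≤ 0 :=
    mul_nonpos_of_nonpos_of_nonneg (not_lt.1 hQ) (by positivity)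
  linarith

/-- the basic inequality in terms of `bmap` -/
theorem tr_lin_le_bmap {Q : ℝ} {ξ : Fin (n + 1) → E n} (h : Trv Q ξ) (c : Fin (n + 1) → ℝ) :
    ∑ i, |c i| ≤ Q * (‖(bmap ξ c).1‖ / 2 + |(bmap ξ c).2|) := by
  have h1 := h c
  rw [tr_lin_bmap_fst, tr_lin_bmap_snd, norm_smul]
  simpa using h1

theorem tr_lin_inj {Q : ℝ} {ξ : Fin (n + 1) → E n} (h : Trv Q ξ) : Function.Injective (bmap ξ) := by
  intro c c' hcc
  have h1 := tr_lin_le_bmap h (c - c')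
  rw [tr_lin_bmap_sub, hcc, sub_self] at h1
  simp only [Prod.fst_zero, norm_zero, zero_div, Prod.snd_zero, abs_zero, add_zero, mul_zero] at h1
  funext i
  have h2 : |(c - c') i| ≤ 0 := le_trans
    (Finset.single_le_sum (f := fun i => |(c - c') i|) (fun i _ => abs_nonneg _) (Finset.mem_univ i)) h1
  have h3 : (c - c') i = 0 := abs_eq_zero.1 (le_antisymm h2 (abs_nonneg _))
  simpa [sub_eq_zero] using h3

theorem tr_lin_surj {Q : ℝ} {ξ : Fin (n + 1) → E n} (h : Trv Q ξ) : Function.Surjective (bmap ξ) := by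
  have hfr : Module.finrank ℝ (Fin (n + 1) → ℝ) = Module.finrank ℝ (ST n) := by
    simp
  have := (LinearMap.injective_iff_surjective_of_finrank_eq_finrank (f := bmapL ξ) hfr).1 (tr_lin_inj h)
  exact this

/-- (g1) -/
theorem tr_lin_bmap_coord {Q : ℝ} {ξ : Fin (n + 1) → E n} (h : Trv Q ξ) (z : ST n) : bmap ξ (coord ξ z) = z :=
  Function.invFun_eq (tr_lin_surj h z)

theorem tr_lin_coord_bmap {Q : ℝ} {ξ : Fin (n + 1) → E n} (h : Trv Q ξ) (c : Fin (n + 1) → ℝ) : coord ξ (bmap ξ c) = c :=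
  Function.leftInverse_invFun (tr_lin_inj h) c

theorem tr_lin_coord_eq {Q : ℝ} {ξ : Fin (n + 1) → E n} (h : Trv Q ξ) {z : ST n} {c : Fin (n + 1) → ℝ} (hc : bmap ξ c = z) :
    coord ξ z = c := by
  rw [← hc, tr_lin_coord_bmap h]

theorem tr_lin_coord_add {Q : ℝ} {ξ : Fin (n + 1) → E n} (h : Trv Q ξ) (z z' : ST n) :
    coord ξ (z + z') = coord ξ z + coord ξ z' :=
  tr_lin_coord_eq h (by rw [tr_lin_bmap_add, tr_lin_bmap_coord h, tr_lin_bmap_coord h])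

theorem tr_lin_coord_sub {Q : ℝ} {ξ : Fin (n + 1) → E n} (h : Trv Q ξ) (z z' : ST n) :
    coord ξ (z - z') = coord ξ z - coord ξ z' :=
  tr_lin_coord_eq h (by rw [tr_lin_bmap_sub, tr_lin_bmap_coord h, tr_lin_bmap_coord h])

theorem tr_lin_coord_smul {Q : ℝ} {ξ : Fin (n + 1) → E n} (h : Trv Q ξ) (a : ℝ) (z : ST n) :
    coord ξ (a • z) = a • coord ξ z :=
  tr_lin_coord_eq h (by rw [tr_lin_bmap_smul, tr_lin_bmap_coord h])

theorem tr_lin_coord_zero {Q : ℝ} {ξ : Fin (n + 1) → E n} (h : Trv Q ξ) : coord ξ (0 : ST n) = 0 :=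
  tr_lin_coord_eq h (tr_lin_bmap_zero ξ)

/-- (g2) -/
theorem tr_lin_coord_sum {Q : ℝ} {ξ : Fin (n + 1) → E n} (h : Trv Q ξ) (z : ST n) :
    ∑ i, |coord ξ z i| ≤ Q * (‖z.1‖ / 2 + |z.2|) := by
  have h1 := tr_lin_le_bmap h (coord ξ z)
  rwa [tr_lin_bmap_coord h] at h1

theorem tr_lin_coord_le {Q : ℝ} {ξ : Fin (n + 1) → E n} (h : Trv Q ξ) (z : ST n) (i : Fin (n + 1)) :
    |coord ξ z i| ≤ Q * (‖z.1‖ / 2 + |z.2|) :=
  le_trans (Finset.single_le_sum (f := fun i => |coord ξ z i|) (fun _ _ => abs_nonneg _) (Finset.mem_univ i))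
    (tr_lin_coord_sum h z)

/-- the two scalar identities carried by the coordinates -/
theorem tr_lin_coord_fst {Q : ℝ} {ξ : Fin (n + 1) → E n} (h : Trv Q ξ) (z : ST n) :
    (2 : ℝ) • ∑ i, coord ξ z i • ξ i = z.1 := by
  rw [← tr_lin_bmap_fst, tr_lin_bmap_coord h]

theorem tr_lin_coord_snd {Q : ℝ} {ξ : Fin (n + 1) → E n} (h : Trv Q ξ) (z : ST n) : ∑ i, coord ξ z i = z.2 := by
  rw [← tr_lin_bmap_snd ξ, tr_lin_bmap_coord h]

/-- (g3) -/
theorem tr_lin_bmap_norm {R₀ : ℝ} {ξ : Fin (n + 1) → E n} (hR : ∀ i, ‖ξ i‖ ≤ R₀) (c : Fin (n + 1) → ℝ) :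
    ‖bmap ξ c‖ ≤ (2 * R₀ + 1) * ∑ i, |c i| := by
  have hR0 : 0 ≤ R₀ := (norm_nonneg _).trans (hR 0)
  have hS : 0 ≤ ∑ i, |c i| := Finset.sum_nonneg fun i _ => abs_nonneg _
  have h1 : ‖(bmap ξ c).1‖ ≤ 2 * R₀ * ∑ i, |c i| := by
    show ‖∑ i, (2 * c i) • ξ i‖ ≤ _
    refine (norm_sum_le _ _).trans ?_
    rw [Finset.mul_sum]
    refine Finset.sum_le_sum fun i _ => ?_
    rw [norm_smul, Real.norm_eq_abs, abs_mul, abs_two]
    have := mul_le_mul_of_nonneg_left (hR i) (abs_nonneg (c i))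
    nlinarith
  have h2 : ‖(bmap ξ c).2‖ ≤ ∑ i, |c i| := by
    show |∑ i, c i| ≤ _
    exact Finset.abs_sum_le_sum_abs _ _
  rw [Prod.norm_def]
  refine max_le (h1.trans ?_) (h2.trans ?_) <;> nlinarith

/-- a linear combination of small vectors -/
theorem tr_lin_comb_le {η : ℝ} (v : Fin (n + 1) → E n) (hv : ∀ i, ‖v i‖ ≤ η) (t : Fin (n + 1) → ℝ) :
    ‖∑ i, t i • v i‖ ≤ η * ∑ i, |t i| := by
  refine (norm_sum_le _ _).trans ?_
  rw [Finset.mul_sum]
  refine Finset.sum_le_sum fun i _ => ?_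
  rw [norm_smul, Real.norm_eq_abs, mul_comm]
  exact mul_le_mul_of_nonneg_right (hv i) (abs_nonneg _)

/-- (g4) perturbation of transversality -/
theorem tr_lin_pert {Q η : ℝ} {ξ ξ' : Fin (n + 1) → E n} (h : Trv Q ξ) (hη : ∀ i, ‖ξ i - ξ' i‖ ≤ η) (hQη : Q * η ≤ 1 / 2) :
    Trv (2 * Q) ξ' := by
  intro t
  have hQ := tr_lin_Q_pos h
  have h1 := h t
  have h2 : ‖∑ i, t i • ξ i‖ ≤ ‖∑ i, t i • ξ' i‖ + η * ∑ i, |t i| := by
    have e : ∑ i, t i • ξ i = ∑ i, t i • ξ' i + ∑ i, t i • (ξ i - ξ' i) := by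
      rw [← Finset.sum_add_distrib]
      refine Finset.sum_congr rfl fun i _ => ?_
      rw [← smul_add]; congr 1; abel
    rw [e]
    exact (norm_add_le _ _).trans (by gcongr; exact tr_lin_comb_le _ hη t)
  have hS : 0 ≤ ∑ i, |t i| := Finset.sum_nonneg fun i _ => abs_nonneg _
  have h3 : ∑ i, |t i| ≤ Q * (‖∑ i, t i • ξ' i‖ + |∑ i, t i|) + Q * η * ∑ i, |t i| := by
    calc ∑ i, |t i| ≤ Q * (‖∑ i, t i • ξ i‖ + |∑ i, t i|) := h1
      _ ≤ Q * (‖∑ i, t i • ξ' i‖ + η * ∑ i, |t i| + |∑ i, t i|) := by gcongr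
      _ = _ := by ring
  have h4 : Q * η * ∑ i, |t i| ≤ 1 / 2 * ∑ i, |t i| := by gcongr
  linarith

/-- (g5) -/
theorem tr_lin_binR (k : ℕ) (ξ : E n) : ‖binR k ξ - ξ‖ ≤ Real.sqrt n / 2 ^ k := by
  have hk : (0 : ℝ) < 2 ^ k := by positivity
  rw [EuclideanSpace.norm_eq]
  have h1 : ∀ i, ‖(binR k ξ - ξ) i‖ ^ 2 ≤ (1 / 2 ^ k : ℝ) ^ 2 := by
    intro i
    have e : (binR k ξ - ξ) i = (⌊(2 : ℝ) ^ k * ξ i⌋ : ℝ) / 2 ^ k - ξ i := by
      simp [binR, binL]
    rw [e, Real.norm_eq_abs, sq_abs]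
    have f1 := Int.floor_le ((2 : ℝ) ^ k * ξ i)
    have f2 := Int.lt_floor_add_one ((2 : ℝ) ^ k * ξ i)
    have e2 : (⌊(2 : ℝ) ^ k * ξ i⌋ : ℝ) / 2 ^ k - ξ i = ((⌊(2 : ℝ) ^ k * ξ i⌋ : ℝ) - 2 ^ k * ξ i) / 2 ^ k := by
      field_simp
    rw [e2, div_pow, div_pow, one_pow]
    refine div_le_div_of_nonneg_right ?_ (by positivity)
    nlinarith
  have h2 : ∑ i, ‖(binR k ξ - ξ) i‖ ^ 2 ≤ n * (1 / 2 ^ k : ℝ) ^ 2 := by
    calc _ ≤ ∑ _i : Fin n, (1 / 2 ^ k : ℝ) ^ 2 := Finset.sum_le_sum fun i _ => h1 i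
      _ = _ := by simp
  calc Real.sqrt (∑ i, ‖(binR k ξ - ξ) i‖ ^ 2) ≤ Real.sqrt (n * (1 / 2 ^ k : ℝ) ^ 2) := Real.sqrt_le_sqrt h2
    _ = Real.sqrt n / 2 ^ k := by
      rw [Real.sqrt_mul (Nat.cast_nonneg n), Real.sqrt_sq (by positivity)]
      ring

theorem tr_lin_binR_congr (k : ℕ) (ξ ξ' : E n) (h : binL k ξ = binL k ξ') : binR k ξ = binR k ξ' := by
  unfold binR
  rw [h]

theorem tr_lin_bmap_single (ξ : Fin (n + 1) → E n) (i : Fin (n + 1)) : bmap ξ (Pi.single i 1) = vdir (ξ i) := by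
  unfold bmap vdir
  ext1
  · simp only
    rw [Finset.sum_eq_single i]
    · simp
    · intro j _ hj; simp [Pi.single_eq_of_ne hj]
    · intro h; exact absurd (Finset.mem_univ i) h
  · simp

theorem tr_lin_coord_vdir {Q : ℝ} {ξ : Fin (n + 1) → E n} (h : Trv Q ξ) (i : Fin (n + 1)) :
    coord ξ (vdir (ξ i)) = Pi.single i 1 :=
  tr_lin_coord_eq h (tr_lin_bmap_single ξ i)

/-- coordinates of a direction: the two identities -/
theorem tr_lin_vdir_fst {Q : ℝ} {ξ : Fin (n + 1) → E n} (h : Trv Q ξ) (ζ : E n) : ∑ i, coord ξ (vdir ζ) i • ξ i = ζ := by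
  have h1 := tr_lin_coord_fst h (vdir ζ)
  have h2 : (2 : ℝ) • ∑ i, coord ξ (vdir ζ) i • ξ i = (2 : ℝ) • ζ := h1
  exact smul_right_injective _ (two_ne_zero) h2

theorem tr_lin_vdir_snd {Q : ℝ} {ξ : Fin (n + 1) → E n} (h : Trv Q ξ) (ζ : E n) : ∑ i, coord ξ (vdir ζ) i = 1 :=
  tr_lin_coord_snd h (vdir ζ)

theorem tr_lin_vdir_sum {Q R₀ : ℝ} {ξ : Fin (n + 1) → E n} (h : Trv Q ξ) (ζ : E n) (hζ : ‖ζ‖ ≤ R₀) :
    ∑ i, |coord ξ (vdir ζ) i| ≤ Q * (R₀ + 1) := by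
  refine (tr_lin_coord_sum h (vdir ζ)).trans ?_
  have hQ := tr_lin_Q_pos h
  have e1 : ‖(vdir ζ).1‖ / 2 = ‖ζ‖ := by
    simp [vdir, norm_smul]
  have e2 : |(vdir ζ).2| = 1 := by simp [vdir]
  rw [e1, e2]
  gcongr

/-- (g8) replacement: if the family with the member `i` replaced by `ζ` is transverse, the `i`-th coordinate of `vdir ζ` dominates -/
theorem tr_lin_repl {Q Q' R₀ : ℝ} {ξ : Fin (n + 1) → E n} (h : Trv Q ξ) (i : Fin (n + 1)) (ζ : E n)
    (h' : Trv Q' (Function.update ξ i ζ)) (hR : ‖ξ i‖ ≤ R₀) :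
    1 + ∑ k ∈ Finset.univ.erase i, |coord ξ (vdir ζ) k| ≤ Q' * (R₀ + 1) * |coord ξ (vdir ζ) i| := by
  set a := coord ξ (vdir ζ) with ha
  have hQ' := tr_lin_Q_pos h'
  have h1 := h' (Function.update (fun k => - a k) i 1)
  have s1 : ∑ k, |Function.update (fun k => - a k) i 1 k| = 1 + ∑ k ∈ Finset.univ.erase i, |a k| := by
    rw [← Finset.add_sum_erase _ _ (Finset.mem_univ i)]
    congr 1
    · simp
    · refine Finset.sum_congr rfl fun k hk => ?_
      rw [Function.update_of_ne (Finset.ne_of_mem_erase hk), abs_neg]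
  have s2 : ∑ k, Function.update (fun k => - a k) i 1 k • Function.update ξ i ζ k = a i • ξ i := by
    rw [← Finset.add_sum_erase _ _ (Finset.mem_univ i)]
    have e1 : ∑ k ∈ Finset.univ.erase i, Function.update (fun k => - a k) i 1 k • Function.update ξ i ζ k
        = - ∑ k ∈ Finset.univ.erase i, a k • ξ k := by
      rw [← Finset.sum_neg_distrib]
      refine Finset.sum_congr rfl fun k hk => ?_
      rw [Function.update_of_ne (Finset.ne_of_mem_erase hk), Function.update_of_ne (Finset.ne_of_mem_erase hk), neg_smul]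
    rw [e1]
    have e2 := tr_lin_vdir_fst h ζ
    rw [← Finset.add_sum_erase _ _ (Finset.mem_univ i)] at e2
    simp only [Function.update_self, one_smul]
    rw [← e2]
    abel
  have s3 : ∑ k, Function.update (fun k => - a k) i 1 k = a i := by
    rw [← Finset.add_sum_erase _ _ (Finset.mem_univ i)]
    have e1 : ∑ k ∈ Finset.univ.erase i, Function.update (fun k => - a k) i 1 k = - ∑ k ∈ Finset.univ.erase i, a k := by
      rw [← Finset.sum_neg_distrib]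
      refine Finset.sum_congr rfl fun k hk => ?_
      rw [Function.update_of_ne (Finset.ne_of_mem_erase hk)]
    rw [e1]
    have e2 := tr_lin_vdir_snd h ζ
    rw [← Finset.add_sum_erase _ _ (Finset.mem_univ i)] at e2
    simp only [Function.update_self]
    linarith
  rw [s1, s2, s3, norm_smul, Real.norm_eq_abs] at h1
  refine h1.trans ?_
  have : |a i| * ‖ξ i‖ ≤ |a i| * R₀ := mul_le_mul_of_nonneg_left hR (abs_nonneg _)
  calc Q' * (|a i| * ‖ξ i‖ + |a i|) ≤ Q' * (|a i| * R₀ + |a i|) := by gcongr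
    _ = _ := by ring

/-- resolvent identity -/
theorem tr_lin_resolvent {Q Q' : ℝ} {ξ ξ' : Fin (n + 1) → E n} (h : Trv Q ξ) (h' : Trv Q' ξ') (z : ST n) :
    coord ξ' z - coord ξ z = coord ξ' (bmap ξ (coord ξ z) - bmap ξ' (coord ξ z)) := by
  rw [tr_lin_coord_sub h', tr_lin_bmap_coord h, tr_lin_coord_bmap h']

/-- coordinates in two nearby bases -/
theorem tr_lin_two_bases {Q Q' η : ℝ} {ξ ξ' : Fin (n + 1) → E n} (h : Trv Q ξ) (h' : Trv Q' ξ') (hη : ∀ i, ‖ξ i - ξ' i‖ ≤ η)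
    (z : ST n) : ∑ i, |coord ξ' z i - coord ξ z i| ≤ Q' * η * ∑ i, |coord ξ z i| := by
  have hQ' := tr_lin_Q_pos h'
  have h1 := tr_lin_coord_sum h' (bmap ξ (coord ξ z) - bmap ξ' (coord ξ z))
  rw [← tr_lin_resolvent h h'] at h1
  have e1 : (bmap ξ (coord ξ z) - bmap ξ' (coord ξ z)).1 = (2 : ℝ) • ∑ i, coord ξ z i • (ξ i - ξ' i) := by
    rw [Prod.fst_sub, tr_lin_bmap_fst, tr_lin_bmap_fst, ← smul_sub, ← Finset.sum_sub_distrib]
    simp only [smul_sub]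
  have e2 : (bmap ξ (coord ξ z) - bmap ξ' (coord ξ z)).2 = 0 := by
    rw [Prod.snd_sub, tr_lin_bmap_snd, tr_lin_bmap_snd, sub_self]
  rw [e1, e2, norm_smul] at h1
  have h2 := tr_lin_comb_le (fun i => ξ i - ξ' i) hη (coord ξ z)
  simp only [Pi.sub_apply] at h1
  refine h1.trans ?_
  have : ‖(2 : ℝ)‖ * ‖∑ i, coord ξ z i • (ξ i - ξ' i)‖ / 2 + |(0 : ℝ)| = ‖∑ i, coord ξ z i • (ξ i - ξ' i)‖ := by
    simp
  rw [this, mul_assoc]
  gcongr

/-- coordinates of two nearby directions in two nearby bases -/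
theorem tr_lin_vdir_two {Q Q' η R₀ : ℝ} {ξ ξ' : Fin (n + 1) → E n} (h : Trv Q ξ) (h' : Trv Q' ξ') (hη : ∀ i, ‖ξ i - ξ' i‖ ≤ η)
    (ζ ζ' : E n) (hζ : ‖ζ‖ ≤ R₀) (hζζ : ‖ζ - ζ'‖ ≤ η) :
    ∑ k, |coord ξ' (vdir ζ') k - coord ξ (vdir ζ) k| ≤ Q' * η * (1 + Q * (R₀ + 1)) := by
  have hQ' := tr_lin_Q_pos h'
  have hη0 : 0 ≤ η := (norm_nonneg _).trans hζζ
  have h1 := tr_lin_two_bases h h' hη (vdir ζ)
  have h2 := tr_lin_vdir_sum h ζ hζ
  have h3 := tr_lin_coord_sum h' (vdir ζ' - vdir ζ)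
  rw [tr_lin_coord_sub h'] at h3
  have e1 : ‖(vdir ζ' - vdir ζ).1‖ / 2 = ‖ζ - ζ'‖ := by
    have : (vdir ζ' - vdir ζ).1 = (2 : ℝ) • (ζ' - ζ) := by simp [vdir, smul_sub]
    rw [this, norm_smul, norm_sub_rev]
    simp
  have e2 : |(vdir ζ' - vdir ζ).2| = 0 := by simp [vdir]
  rw [e1, e2, add_zero] at h3
  calc ∑ k, |coord ξ' (vdir ζ') k - coord ξ (vdir ζ) k|
      ≤ ∑ k, (|(coord ξ' (vdir ζ') - coord ξ' (vdir ζ)) k| + |coord ξ' (vdir ζ) k - coord ξ (vdir ζ) k|) := by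
        refine Finset.sum_le_sum fun k _ => ?_
        have : coord ξ' (vdir ζ') k - coord ξ (vdir ζ) k
            = (coord ξ' (vdir ζ') - coord ξ' (vdir ζ)) k + (coord ξ' (vdir ζ) k - coord ξ (vdir ζ) k) := by
          simp only [Pi.sub_apply]; ring
        rw [this]
        exact abs_add_le _ _
    _ = ∑ k, |(coord ξ' (vdir ζ') - coord ξ' (vdir ζ)) k| + ∑ k, |coord ξ' (vdir ζ) k - coord ξ (vdir ζ) k| :=
        Finset.sum_add_distrib
    _ ≤ Q' * ‖ζ - ζ'‖ + Q' * η * ∑ i, |coord ξ (vdir ζ) i| := add_le_add h3 h1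
    _ ≤ Q' * η + Q' * η * (Q * (R₀ + 1)) := by gcongr
    _ = _ := by ring

/-- **perturbation of a ratio** -/
theorem tr_lin_ratio {Q Q' η R₀ A : ℝ} {ξ ξ' : Fin (n + 1) → E n} (h : Trv Q ξ) (h' : Trv Q' ξ') (hη : ∀ i, ‖ξ i - ξ' i‖ ≤ η)
    (ζ ζ' : E n) (hζ : ‖ζ‖ ≤ R₀) (hζζ : ‖ζ - ζ'‖ ≤ η) (i j : Fin (n + 1))
    (hA : 1 ≤ A * |coord ξ (vdir ζ) i|) (hA' : 1 ≤ A * |coord ξ' (vdir ζ') i|) :
    |coord ξ (vdir ζ) j / coord ξ (vdir ζ) i - coord ξ' (vdir ζ') j / coord ξ' (vdir ζ') i|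
      ≤ 2 * A ^ 2 * (Q * (R₀ + 1)) * (Q' * η * (1 + Q * (R₀ + 1))) := by
  set a := coord ξ (vdir ζ) with ha
  set a' := coord ξ' (vdir ζ') with ha'
  have hΔ := tr_lin_vdir_two h h' hη ζ ζ' hζ hζζ
  have hS := tr_lin_vdir_sum h ζ hζ
  rw [← ha, ← ha'] at hΔ
  rw [← ha] at hS
  set Δ := Q' * η * (1 + Q * (R₀ + 1)) with hΔdef
  set S := Q * (R₀ + 1) with hSdef
  have hk : ∀ k, |a' k - a k| ≤ Δ := fun k =>
    le_trans (Finset.single_le_sum (f := fun k => |a' k - a k|) (fun _ _ => abs_nonneg _) (Finset.mem_univ k)) hΔ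
  have hs : ∀ k, |a k| ≤ S := fun k =>
    le_trans (Finset.single_le_sum (f := fun k => |a k|) (fun _ _ => abs_nonneg _) (Finset.mem_univ k)) hS
  have hΔ0 : 0 ≤ Δ := (abs_nonneg _).trans (hk i)
  have hS0 : 0 ≤ S := (abs_nonneg _).trans (hs i)
  have hai : a i ≠ 0 := by
    intro h0; rw [h0, abs_zero, mul_zero] at hA; linarith
  have hai' : a' i ≠ 0 := by
    intro h0; rw [h0, abs_zero, mul_zero] at hA'; linarith
  have e : a j / a i - a' j / a' i = (a j * (a' i - a i) - a i * (a' j - a j)) / (a i * a' i) := by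
    field_simp
    ring
  rw [e, abs_div, abs_mul, div_le_iff₀ (mul_pos (abs_pos.2 hai) (abs_pos.2 hai'))]
  have hnum : |a j * (a' i - a i) - a i * (a' j - a j)| ≤ 2 * S * Δ := by
    calc |a j * (a' i - a i) - a i * (a' j - a j)| ≤ |a j * (a' i - a i)| + |a i * (a' j - a j)| := abs_sub _ _
      _ = |a j| * |a' i - a i| + |a i| * |a' j - a j| := by rw [abs_mul, abs_mul]
      _ ≤ S * Δ + S * Δ := by
          gcongr
          · exact hs j
          · exact hk i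
          · exact hs i
          · exact hk j
      _ = _ := by ring
  have hprod : 1 ≤ A ^ 2 * (|a i| * |a' i|) := by
    calc (1 : ℝ) = 1 * 1 := by ring
      _ ≤ (A * |a i|) * (A * |a' i|) := by gcongr
      _ = _ := by ring
  calc |a j * (a' i - a i) - a i * (a' j - a j)| ≤ 2 * S * Δ := hnum
    _ = 2 * S * Δ * 1 := by ring
    _ ≤ 2 * S * Δ * (A ^ 2 * (|a i| * |a' i|)) := by gcongr
    _ = _ := by ring

/-- bound of a ratio from the replacement bound -/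
theorem tr_lin_ratio_bd {Q Q' R₀ : ℝ} {ξ : Fin (n + 1) → E n} (h : Trv Q ξ) (i j : Fin (n + 1)) (hij : j ≠ i) (ζ : E n)
    (h' : Trv Q' (Function.update ξ i ζ)) (hR : ‖ξ i‖ ≤ R₀) :
    |coord ξ (vdir ζ) j / coord ξ (vdir ζ) i| ≤ Q' * (R₀ + 1) := by
  have h1 := tr_lin_repl h i ζ h' hR
  have hQ' := tr_lin_Q_pos h'
  have hR0 : 0 ≤ R₀ := (norm_nonneg _).trans hR
  have h2 : |coord ξ (vdir ζ) j| ≤ ∑ k ∈ Finset.univ.erase i, |coord ξ (vdir ζ) k| :=
    Finset.single_le_sum (f := fun k => |coord ξ (vdir ζ) k|) (fun _ _ => abs_nonneg _)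
      (Finset.mem_erase.2 ⟨hij, Finset.mem_univ j⟩)
  have hpos : 0 < |coord ξ (vdir ζ) i| := by
    by_contra hc
    have h0 : |coord ξ (vdir ζ) i| = 0 := le_antisymm (not_lt.1 hc) (abs_nonneg _)
    rw [h0, mul_zero] at h1
    have := (abs_nonneg (coord ξ (vdir ζ) j)).trans h2
    linarith
  rw [abs_div, div_le_iff₀ hpos]
  linarith

end Claimed.Agent.R257.TR
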