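import Claimed.Agent.R257.Infra.Defs
import Claimed.Agent.R257.TR.Calc

/-!
# R257 / TR / Model : the finite pruned incident-tube model, its sampling law and its named observations      (captain TR: helper217)      -- SHARED, FROZEN

`TModel n` = exit of H Lemma t:tubes at ONE scale `L` with ONE error exponent `ε` (every `L^{o(1)}` of the paper is `L^{ε}`; every constant is absorbed in `L^ε`).  It is the contract between
* the ANALYTIC half (`TR/Tubes*.lean`: a counterexample to t:transverse with small `c` and large `L` yields a model with small `ε`), and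
* the COMBINATORIAL half (`TR/Comb.lean`: `tr_model_false`: no model with `ε ≤ ε₀`, `L ≥ L₀`).

Conventions.  Space-time `ST n = E n × ℝ` divided by `L²`: the points lie in the unit ball.  `n+1` families of tubes, indexed by `Fin (n+1)` ("family one" of the paper = `0`, the ratios `a₂, a₃` = indices `1, 2`).
A tube `T` of family `i` has frequency `fr i T`, intercept `ic i T`, central line `{(ic + 2 t fr, t)}`, direction `vdir (fr) = (2 fr, 1)`.
Transversality is determinant free: `∑ |t_i| ≤ Q (‖∑ t_i ξ_i‖ + |∑ t_i|)`, `Q = L^ε`.   A codimension-two strip is `{ξ : |⟪a,ξ⟫ - α₀| ≤ w, |⟪b,ξ⟫ - β₀| ≤ w}` with `a, b` orthonormal.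

SAMPLING.  `Ω = π × (Fin (n+1) × Bool → τ)`: `X` uniform, then `T_i = ω.2 (i,false)`, `T_i' = ω.2 (i,true)` independent with law `κ i X`.
OBSERVATIONS (`TNm`): `X s` dyadic cell of side `2^{-sc L s} ∈ [L^{-s}, 2L^{-s})`; `T i β` exact tube; `B i β bs` direction bin at precision `bs`;
`Z ρ bs r i` = label at resolution `r` of the `i`-th GLOBAL coordinate of the point in the basis `vdir (representative of the bin of the reference tube (k, ρ k))`; `Pi bs r j` = label at resolution `r` of `c_j - ã_j c_0`.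
EXTRA VARIABLES (`TEx`): `r i j` clipped inverse-size exponent of the ratio `a_j/a_i` of `T_i'` in the EXACT reference basis; `h j u` clipped exponent of the `κ 0 X`-mass of the ball of radius `L^{-u}` about the ratio `a_j/a_0` of `T_0'`.
-/

set_option autoImplicit false

namespace Claimed.Agent.R257.TR

open Claimed.Agent.R255 Claimed.Agent.R257 MeasureTheory Filter Topology
open scoped BigOperators ENNReal InnerProductSpace
open Classical

/-- the finite pruned incident-tube model -/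
structure TModel (n : ℕ) where
  /-- scale -/
  L : ℝ
  /-- error exponent -/
  ε : ℝ
  /-- points -/
  π : Type
  /-- tubes -/
  τ : Type
  fπ : Fintype π
  fτ : Fintype τ
  neπ : Nonempty π
  /-- position of a point -/
  pos : π → ST n
  /-- frequency of a tube -/
  fr : Fin (n + 1) → τ → E n
  /-- intercept of a tube -/
  ic : Fin (n + 1) → τ → E n
  /-- weight of a tube -/
  w : Fin (n + 1) → τ → ℝ
  /-- retained conditional law of the tube of family `i` given the point -/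
  κ : Fin (n + 1) → π → τ → ℝ
  κ_nonneg : ∀ i x T, 0 ≤ κ i x T
  κ_sum : ∀ i x, ∑ T, κ i x T = 1

attribute [instance] TModel.fπ TModel.fτ TModel.neπ

variable {n : ℕ}

/-- the axioms of the model (H t:tubes): `R₀` frequency radius, `c₁` strip exponent, `Cτ` exponent of the number of tubes -/
structure TModel.Ok (M : TModel n) (R₀ c₁ Cτ : ℝ) : Prop where
  L_ge : 2 ≤ M.L
  ε_pos : 0 < M.ε
  ε_le : M.ε ≤ 1
  pos_bd : ∀ x, ‖M.pos x‖ ≤ 1
  card_lo : M.L ^ ((n : ℝ) - M.ε) ≤ (Fintype.card M.π : ℝ)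
  ball : ∀ (z : ST n) (r : ℝ), M.L⁻¹ ≤ r → r ≤ 1 →
    ((Finset.univ.filter (fun x => M.pos x ∈ Metric.closedBall z r)).card : ℝ) ≤ M.L ^ ((n : ℝ) + M.ε) * r ^ n
  card_τ : (Fintype.card M.τ : ℝ) ≤ M.L ^ Cτ
  fr_bd : ∀ i T, ‖M.fr i T‖ ≤ R₀
  trans : ∀ (T : Fin (n + 1) → M.τ) (t : Fin (n + 1) → ℝ),
    ∑ i, |t i| ≤ M.L ^ M.ε * (‖∑ i, t i • M.fr i (T i)‖ + |∑ i, t i|)
  w_nonneg : ∀ i T, 0 ≤ M.w i T
  w_sum : ∀ i, ∑ T, M.w i T ≤ M.L ^ M.ε
  κ_le : ∀ i x T, M.κ i x T ≤ M.L ^ (eex n + M.ε) * M.w i T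
  inc : ∀ i x T, 0 < M.κ i x T → ‖(M.pos x).1 - M.ic i T - (2 * (M.pos x).2) • M.fr i T‖ ≤ M.L ^ (-1 + M.ε)
  strip : ∀ (i : Fin (n + 1)) (x : M.π) (a b : E n) (α₀ β₀ α : ℝ), ‖a‖ = 1 → ‖b‖ = 1 → ⟪a, b⟫_ℝ = 0 → 0 ≤ α → α ≤ 1 / 8 →
    ∑ T with |⟪a, M.fr i T⟫_ℝ - α₀| ≤ M.L ^ (-α) ∧ |⟪b, M.fr i T⟫_ℝ - β₀| ≤ M.L ^ (-α), M.κ i x T ≤ M.L ^ (-c₁ * α + M.ε)

/-! ### geometry -/

/-- dyadic level of the exponent `s`: `2^{sc L s} ≤ L^s < 2^{sc L s + 1}` -/
noncomputable def sc (L : ℝ) (s : ℚ) : ℕ := ⌊(s : ℝ) * Real.logb 2 L⌋₊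

/-- label of the dyadic cell of level `k` of a space-time point -/
noncomputable def cellL (k : ℕ) (z : ST n) : (Fin n → ℤ) × ℤ := (fun i => ⌊(2 : ℝ) ^ k * z.1 i⌋, ⌊(2 : ℝ) ^ k * z.2⌋)

/-- label of the dyadic bin of level `k` of a frequency -/
noncomputable def binL (k : ℕ) (ξ : E n) : Fin n → ℤ := fun i => ⌊(2 : ℝ) ^ k * ξ i⌋

/-- the representative (corner) of the dyadic bin of level `k` containing `ξ` -/
noncomputable def binR (k : ℕ) (ξ : E n) : E n := WithLp.toLp 2 (fun i => (binL k ξ i : ℝ) / (2 : ℝ) ^ k)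

/-- direction of a tube of frequency `ξ` -/
noncomputable def vdir (ξ : E n) : ST n := ((2 : ℝ) • ξ, 1)

/-- the linear map `c ↦ ∑ c_i vdir (ξ_i)` -/
noncomputable def bmap (ξ : Fin (n + 1) → E n) (c : Fin (n + 1) → ℝ) : ST n := (∑ i, (2 * c i) • ξ i, ∑ i, c i)

/-- coordinates in the basis `vdir (ξ_i)` (meaningful when the `ξ_i` are transverse) -/
noncomputable def coord (ξ : Fin (n + 1) → E n) (z : ST n) : Fin (n + 1) → ℝ := Function.invFun (bmap ξ) z

/-- determinant-free transversality with constant `Q` -/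
def Trv (Q : ℝ) (ξ : Fin (n + 1) → E n) : Prop :=
  ∀ t : Fin (n + 1) → ℝ, ∑ i, |t i| ≤ Q * (‖∑ i, t i • ξ i‖ + |∑ i, t i|)

/-! ### sampling -/

/-- the sample space `(X, (T_i), (T_i'))` -/
abbrev TModel.Om (M : TModel n) : Type := M.π × (Fin (n + 1) × Bool → M.τ)

/-- the sampling law -/
noncomputable def TModel.law (M : TModel n) : FLaw M.Om where
  p := fun ω => (Fintype.card M.π : ℝ)⁻¹ * ∏ q : Fin (n + 1) × Bool, M.κ q.1 ω.1 (ω.2 q)
  nonneg := fun ω => mul_nonneg (inv_nonneg.2 (Nat.cast_nonneg _)) (Finset.prod_nonneg fun q _ => M.κ_nonneg _ _ _)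
  sum_one := by
    rw [Fintype.sum_prod_type]
    have h : ∀ x : M.π, ∑ T : Fin (n + 1) × Bool → M.τ, (Fintype.card M.π : ℝ)⁻¹ * ∏ q : Fin (n + 1) × Bool, M.κ q.1 x (T q)
        = (Fintype.card M.π : ℝ)⁻¹ := by
      intro x
      rw [← Finset.mul_sum]
      have h2 := Finset.prod_univ_sum (fun _ : Fin (n + 1) × Bool => (Finset.univ : Finset M.τ)) (fun q T => M.κ q.1 x T)
      rw [Fintype.piFinset_univ] at h2
      rw [← h2]
      simp [M.κ_sum]
    simp only [h]
    rw [Finset.sum_const, Finset.card_univ, nsmul_eq_mul]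
    exact mul_inv_cancel₀ (Nat.cast_ne_zero.2 Fintype.card_ne_zero)

/-- choice of the reference tubes: `ρ i = false` : `T_i`, `ρ i = true` : `T_i'` -/
abbrev Rf (n : ℕ) : Type := Fin (n + 1) → Bool

/-- the standard references `T_1, …, T_{n+1}` -/
def rf0 (n : ℕ) : Rf n := fun _ => false

/-- exact reference frequencies -/
def TModel.rfr (M : TModel n) (ρ : Rf n) (ω : M.Om) : Fin (n + 1) → E n := fun i => M.fr i (ω.2 (i, ρ i))

/-- representatives of the reference bins at precision `bs` -/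
noncomputable def TModel.rbin (M : TModel n) (ρ : Rf n) (bs : ℚ) (ω : M.Om) : Fin (n + 1) → E n :=
  fun i => binR (sc M.L bs) (M.fr i (ω.2 (i, ρ i)))

/-- global coordinates of the sampled point in the bin-defined basis -/
noncomputable def TModel.gc (M : TModel n) (ρ : Rf n) (bs : ℚ) (ω : M.Om) : Fin (n + 1) → ℝ :=
  coord (M.rbin ρ bs ω) (M.pos ω.1)

/-- the approximate ratio `ã_j` of the alternative `T_0'`, determined by the bins `D₁` -/
noncomputable def TModel.art (M : TModel n) (bs : ℚ) (j : Fin (n + 1)) (ω : M.Om) : ℝ :=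
  coord (M.rbin (rf0 n) bs ω) (vdir (binR (sc M.L bs) (M.fr 0 (ω.2 (0, true))))) j /
    coord (M.rbin (rf0 n) bs ω) (vdir (binR (sc M.L bs) (M.fr 0 (ω.2 (0, true))))) 0

/-- the exact ratio `a_j / a_i` of a tube `T` of family `i` in the exact standard reference basis -/
noncomputable def TModel.rat (M : TModel n) (i j : Fin (n + 1)) (ω : M.Om) (T : M.τ) : ℝ :=
  coord (M.rfr (rf0 n) ω) (vdir (M.fr i T)) j / coord (M.rfr (rf0 n) ω) (vdir (M.fr i T)) i

/-- names of the observations -/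
inductive TNm (n : ℕ) : Type
  /-- spatial cell at exponent `s` -/
  | X (s : ℚ)
  /-- exact tube -/
  | T (i : Fin (n + 1)) (β : Bool)
  /-- direction bin at precision `bs` -/
  | B (i : Fin (n + 1)) (β : Bool) (bs : ℚ)
  /-- coordinate label -/
  | Z (ρ : Rf n) (bs r : ℚ) (i : Fin (n + 1))
  /-- projection label -/
  | Pi (bs r : ℚ) (j : Fin (n + 1))

/-- names of the extra real variables -/
inductive TEx (n : ℕ) : Type
  /-- inverse-size exponent of the ratio `a_j/a_i` of `T_i'` -/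
  | r (i j : Fin (n + 1))
  /-- angular exponent -/
  | h (j : Fin (n + 1)) (u : ℚ)

/-- code of a name -/
def trNmCode (n : ℕ) : TNm n → ℚ ⊕ (Fin (n + 1) × Bool) ⊕ (Fin (n + 1) × Bool × ℚ) ⊕ (Rf n × ℚ × ℚ × Fin (n + 1)) ⊕ (ℚ × ℚ × Fin (n + 1))
  | .X s => Sum.inl s
  | .T i β => Sum.inr (Sum.inl (i, β))
  | .B i β bs => Sum.inr (Sum.inr (Sum.inl (i, β, bs)))
  | .Z ρ bs r i => Sum.inr (Sum.inr (Sum.inr (Sum.inl (ρ, bs, r, i))))
  | .Pi bs r j => Sum.inr (Sum.inr (Sum.inr (Sum.inr (bs, r, j))))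

theorem tr_nmCode_inj (n : ℕ) : Function.Injective (trNmCode n) := by
  intro a b h
  cases a <;> cases b <;> simp_all [trNmCode]

/-- code of an extra variable -/
def trExCode (n : ℕ) : TEx n → (Fin (n + 1) × Fin (n + 1)) ⊕ (Fin (n + 1) × ℚ)
  | .r i j => Sum.inl (i, j)
  | .h j u => Sum.inr (j, u)

theorem tr_exCode_inj (n : ℕ) : Function.Injective (trExCode n) := by
  intro a b h
  cases a <;> cases b <;> simp_all [trExCode]

instance (n : ℕ) : Countable (TNm n) := by
  exact (tr_nmCode_inj n).countable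

instance (n : ℕ) : Countable (TEx n) := by
  exact (tr_exCode_inj n).countable

/-- label types -/
def TModel.Lab (M : TModel n) : TNm n → Type
  | .X _ => (Fin n → ℤ) × ℤ
  | .T _ _ => M.τ
  | .B _ _ _ => Fin n → ℤ
  | .Z _ _ _ _ => ℤ
  | .Pi _ _ _ => ℤ

/-- the observations -/
noncomputable def TModel.ob (M : TModel n) : ∀ a : TNm n, M.Om → M.Lab a
  | .X s => fun ω => cellL (sc M.L s) (M.pos ω.1)
  | .T i β => fun ω => ω.2 (i, β)
  | .B i β bs => fun ω => binL (sc M.L bs) (M.fr i (ω.2 (i, β)))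
  | .Z ρ bs r i => fun ω => ⌊(2 : ℝ) ^ (sc M.L r) * M.gc ρ bs ω i⌋
  | .Pi bs r j => fun ω => ⌊(2 : ℝ) ^ (sc M.L r) * (M.gc (rf0 n) bs ω j - M.art bs j ω * M.gc (rf0 n) bs ω 0)⌋

/-- clipping to `[0,1]` -/
noncomputable def clip01 (t : ℝ) : ℝ := min 1 (max 0 t)

/-- the extra variables -/
noncomputable def TModel.xv (M : TModel n) : TEx n → M.Om → ℝ
  | .r i j => fun ω => if M.rat i j ω (ω.2 (i, true)) = 0 then 1 else clip01 (- Real.logb M.L |M.rat i j ω (ω.2 (i, true))|)
  | .h j u => fun ω => clip01 (- Real.logb M.L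
      (∑ T with |M.rat 0 j ω T - M.rat 0 j ω (ω.2 (0, true))| ≤ M.L ^ (-(u : ℝ)), M.κ 0 ω.1 T))

/-- the sampled system of a model -/
noncomputable def TModel.sys (M : TModel n) : ISys (TNm n) (TEx n) where
  Ω := M.Om
  fΩ := inferInstance
  P := M.law
  L := M.L
  Lab := M.Lab
  ob := M.ob
  xv := M.xv

/-- a countersequence of models -/
structure TSeqOk (M : ℕ → TModel n) (R₀ c₁ Cτ : ℝ) : Prop where
  ok : ∀ m, (M m).Ok R₀ c₁ Cτ
  eps : Tendsto (fun m => (M m).ε) atTop (𝓝 0)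
  L_top : Tendsto (fun m => (M m).L) atTop atTop

/-- the sequence of sampled systems -/
noncomputable def tSys (M : ℕ → TModel n) : ℕ → ISys (TNm n) (TEx n) := fun m => (M m).sys

/-- the limit space -/
abbrev TSp (n : ℕ) : Type := Finset (TNm n) ⊕ TEx n → ℝ

/-- the limiting law of a sequence of models -/
noncomputable def tLim (M : ℕ → TModel n) : Measure (TSp n) := (iSeqV (tSys M)).lim

/-- Stores the on-demand equation lemmas of the definitions above in THIS module (rule 6 hygiene). -/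
theorem tr_model_forced : True := by
  have := @sc.eq_1
  have := @cellL.eq_1
  have := @binL.eq_1
  have := @binR.eq_1
  have := @vdir.eq_1
  have := @bmap.eq_1
  have := @coord.eq_1
  have := @Trv.eq_1
  have := @TModel.Om.eq_1
  have := @TModel.law.eq_1
  have := @Rf.eq_1
  have := @rf0.eq_1
  have := @TModel.rfr.eq_1
  have := @TModel.rbin.eq_1
  have := @TModel.gc.eq_1
  have := @TModel.art.eq_1
  have := @TModel.rat.eq_1
  have := @clip01.eq_1
  have := @TModel.sys.eq_1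
  have := @tSys.eq_1
  have := @TSp.eq_1
  have := @tLim.eq_1
  have := @TModel.Lab.eq_1
  have := @TModel.Lab.eq_2
  have := @TModel.Lab.eq_3
  have := @TModel.Lab.eq_4
  have := @TModel.Lab.eq_5
  have := @TModel.ob.eq_1
  have := @TModel.ob.eq_2
  have := @TModel.ob.eq_3
  have := @TModel.ob.eq_4
  have := @TModel.ob.eq_5
  have := @TModel.xv.eq_1
  have := @TModel.xv.eq_2
  trivial

end Claimed.Agent.R257.TR
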