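import Claimed.Agent.R257.TR.Comb
import Claimed.Agent.R257.Sp.Defs

/-!
# R257 / TR / Top : Proposition t:transverse = `TrStmt n` (contract of helper7, `Sp/Defs.lean`) from the two halves      (captain TR: helper217)

* `TubesStmt n`  (ANALYTIC half, H Lemma t:tubes; `TR/Tubes*.lean`): a configuration forbidden by t:transverse, with small `c` and large `L`, yields a finite model `TModel.Ok` with small `ε` at the same scale;
* `ModelFalse n` (COMBINATORIAL half; `TR/Comb.lean`).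
-/

set_option autoImplicit false

namespace Claimed.Agent.R257.TR

open Claimed.Agent.R255 Claimed.Agent.R257 MeasureTheory Metric Set Filter Topology
open scoped BigOperators ENNReal

variable {n : ℕ}

/-- the configuration excluded by t:transverse (hypotheses of `TrStmt`) -/
structure TrCfg (n : ℕ) (R₀ c L : ℝ) (Y : Finset ((Fin n → ℤ) × ℤ)) (z₀ : ST n) (f : Fin (n + 1) → E n → ℂ) : Prop where
  inball : ∀ q ∈ Y, cube q ⊆ closedBall z₀ (L ^ 2)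
  card : L ^ (2 * (n : ℝ) - c) ≤ (Y.card : ℝ)
  count : ∀ (z : ST n) (r : ℝ) (t : Finset ((Fin n → ℤ) × ℤ)), 1 ≤ r → t ⊆ Y → (∀ q ∈ t, (cube q ∩ closedBall z r).Nonempty) →
      (t.card : ℝ) ≤ L ^ c * r ^ n
  dat : ∀ i, Dat R₀ (f i)
  norm : ∀ i, ∫ ξ, ‖f i ξ‖ ^ 2 ≤ 1
  big : ∀ q ∈ Y, ∀ i, ∃ z ∈ cube q, L ^ (-(eex n) - c) ≤ ‖ext (f i) z‖
  trans : TransvS (L ^ c) f

/-- **Lemma t:tubes** as a finite-scale statement.  `c₁`, `R₁`, `Cτ` are fixed before `ε`. -/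
def TubesStmt (n : ℕ) : Prop :=
  ∀ R₀ : ℝ, ∃ R₁ c₁ Cτ : ℝ, 0 < c₁ ∧ c₁ ≤ 1 ∧ ∀ ε : ℝ, 0 < ε → ∃ c L₀ : ℝ, 0 < c ∧
    ∀ (L : ℝ) (Y : Finset ((Fin n → ℤ) × ℤ)) (z₀ : ST n) (f : Fin (n + 1) → E n → ℂ), L₀ ≤ L → TrCfg n R₀ c L Y z₀ f →
      ∃ M : TModel n, M.Ok R₁ c₁ Cτ ∧ M.ε ≤ ε ∧ M.L = L

/-- **Proposition t:transverse** from the two halves -/
theorem tr_main (n : ℕ) (hT : TubesStmt n) (hM : ModelFalse n) : TrStmt n := by
  intro R₀
  obtain ⟨R₁, c₁, Cτ, hc0, hc1, hT⟩ := hT R₀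
  obtain ⟨ε₀, hε₀, L₁, hM⟩ := hM R₁ c₁ Cτ hc0 hc1
  obtain ⟨c, L₀, hc, hT⟩ := hT ε₀ hε₀
  refine ⟨c, max L₀ L₁, hc, ?_⟩
  intro L Y z₀ f hL h1 h2 h3 h4 h5 h6 h7
  obtain ⟨M, hOk, hε, hML⟩ := hT L Y z₀ f ((le_max_left _ _).trans hL) ⟨h1, h2, h3, h4, h5, h6, h7⟩
  exact hM M hOk hε (hML ▸ (le_max_right _ _).trans hL)

/-- Stores the on-demand equation lemmas of the definitions above in THIS module (rule 6 hygiene). -/
theorem tr_top_forced : True := by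
  have := @TubesStmt.eq_1
  trivial

end Claimed.Agent.R257.TR
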