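import Claimed.Agent.R257.TR.TubesPk

/-!
# R257 / TR / TubesAsm : block B7 of t:tubes: THE DATA FORM A `TModel`.      Architect: helper195.      PAPER-FREE.
-/

set_option autoImplicit false

namespace Claimed.Agent.R257.TR

open Claimed.Agent.R257 MeasureTheory Metric Set
open scoped BigOperators ENNReal InnerProductSpace
open Classical

variable {n : ℕ}

/-- sums over the sigma type of the tubes: only the family `i` survives -/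
theorem tr_tb_asm_sum {m : ℕ} (J : Fin m → Type) (U : ∀ i, Finset (J i)) (g : ∀ j, J j → ℝ) (i : Fin m) :
    ∑ T : (Σ j, {α : J j // α ∈ U j}), (if T.1 = i then g T.1 T.2.1 else 0) = ∑ α ∈ U i, g i α := by
  rw [Fintype.sum_sigma, Finset.sum_eq_single i]
  · simp only [if_true]
    exact Finset.sum_coe_sort (U i) (g i)
  · intro j _ hj
    simp [hj]
  · intro h
    exact absurd (Finset.mem_univ _) h

/-- the assembled model -/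
noncomputable def tbAsmM (n : ℕ) (L ε : ℝ) (J : Fin (n + 1) → Type) (om ic : ∀ i, J i → E n) (w : ∀ i, J i → ℝ)
    (𝔅 : Finset ((Fin n → ℤ) × ℤ)) (pos : (Fin n → ℤ) × ℤ → ST n) (I : ∀ i, (Fin n → ℤ) × ℤ → Finset (J i)) (ξ₀ : Fin (n + 1) → E n)
    (hne : 𝔅.Nonempty) (hw : ∀ i α, 0 ≤ w i α) (hW : ∀ i, ∀ k ∈ 𝔅, 0 < ∑ α ∈ I i k, w i α) : TModel n where
  L := L
  ε := ε
  π := {k // k ∈ 𝔅}
  τ := Σ i, {α : J i // α ∈ 𝔅.biUnion (I i)}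
  fπ := inferInstance
  fτ := inferInstance
  neπ := hne.to_subtype
  pos := fun x => pos x.1
  fr := fun i T => if T.1 = i then om T.1 T.2.1 else ξ₀ i
  ic := fun i T => if T.1 = i then ic T.1 T.2.1 else 0
  w := fun i T => if T.1 = i then w T.1 T.2.1 else 0
  κ := fun i x T => if T.1 = i then (if T.2.1 ∈ I T.1 x.1 then w T.1 T.2.1 / ∑ α ∈ I T.1 x.1, w T.1 α else 0) else 0
  κ_nonneg := by
    intro i x T
    split_ifs
    · exact div_nonneg (hw _ _) (Finset.sum_nonneg fun α _ => hw _ α)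
    · exact le_rfl
    · exact le_rfl
  κ_sum := by
    intro i x
    rw [tr_tb_asm_sum J (fun i => 𝔅.biUnion (I i)) (fun j β => if β ∈ I j x.1 then w j β / ∑ α ∈ I j x.1, w j α else 0) i,
      Finset.sum_ite_mem, Finset.inter_eq_right.2 (Finset.subset_biUnion_of_mem (I i) x.2), ← Finset.sum_div]
    exact div_self (hW i x.1 x.2).ne'

/-- stores the equation lemma of `tbAsmM` in this module -/
theorem tr_tb_asm_forced : True := by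
  have := @tbAsmM.eq_1
  trivial

/-- **EXIT of B7** (L-TB-A1, ~350 l.).   `π := {k // k ∈ 𝔅}`,  `τ := Σ i, {α : J i // α ∈ 𝔅.biUnion (I i)}` (`Fintype.card_sigma`, `Fintype.card_coe`),
`fr i T := if T.1 = i then om T.1 T.2 else ξ₀ i`,  `ic i T := if T.1 = i then ic T.1 T.2 else 0`,  `w i T := if T.1 = i then w T.1 T.2 else 0`  (NO cast: the value is computed in the family `T.1`),
`κ i x T := if T.1 = i ∧ T.2 ∈ I T.1 x then w T.1 T.2 / ∑_{α ∈ I i x} w i α else 0`.   Sums over `τ`: `Fintype.sum_sigma`, only the term `i` survives; `Finset.sum_coe_sort`/`Finset.sum_subtype`; `I i x ⊆ 𝔅.biUnion (I i)`.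
`κ_sum`: the denominator is `≥ L^{-e-ε} > 0`.   `κ_le`: `1/W ≤ L^{e+ε}`. -/
theorem tr_tb_asm (n : ℕ) {L ε R₁ c₁ Cτ : ℝ} (hL : 2 ≤ L) (hε : 0 < ε) (hε1 : ε ≤ 1)
    (J : Fin (n + 1) → Type) (om ic : ∀ i, J i → E n) (w : ∀ i, J i → ℝ)
    (𝔅 : Finset ((Fin n → ℤ) × ℤ)) (pos : (Fin n → ℤ) × ℤ → ST n) (I : ∀ i, (Fin n → ℤ) × ℤ → Finset (J i)) (ξ₀ : Fin (n + 1) → E n)
    (hne : 𝔅.Nonempty) (hpos : ∀ k ∈ 𝔅, ‖pos k‖ ≤ 1) (hcard : L ^ ((n : ℝ) - ε) ≤ (𝔅.card : ℝ))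
    (hball : ∀ (z : ST n) (r : ℝ), L⁻¹ ≤ r → r ≤ 1 → ((𝔅.filter fun k => pos k ∈ closedBall z r).card : ℝ) ≤ L ^ ((n : ℝ) + ε) * r ^ n)
    (hτ : ((∑ i, (𝔅.biUnion (I i)).card : ℕ) : ℝ) ≤ L ^ Cτ)
    (hom : ∀ i α, ‖om i α‖ ≤ R₁) (hξ₀ : ∀ i, ‖ξ₀ i‖ ≤ R₁)
    (htr : ∀ ξ : Fin (n + 1) → E n, (∀ i, ξ i = ξ₀ i ∨ ∃ α, ξ i = om i α) → Transv (L ^ ε) ξ)
    (hw : ∀ i α, 0 ≤ w i α) (hws : ∀ i (t : Finset (J i)), ∑ α ∈ t, w i α ≤ L ^ ε)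
    (hlow : ∀ i, ∀ k ∈ 𝔅, L ^ (-(eex n) - ε) ≤ ∑ α ∈ I i k, w i α)
    (hinc : ∀ i, ∀ k ∈ 𝔅, ∀ α ∈ I i k, ‖(pos k).1 - ic i α - (2 * (pos k).2) • om i α‖ ≤ L ^ (-1 + ε))
    (hstrip : ∀ i, ∀ k ∈ 𝔅, ∀ (a b : E n) (α₀ β₀ α : ℝ), ‖a‖ = 1 → ‖b‖ = 1 → ⟪a, b⟫_ℝ = 0 → 0 ≤ α → α ≤ 1 / 8 →
      ∑ T ∈ I i k with |⟪a, om i T⟫_ℝ - α₀| ≤ L ^ (-α) ∧ |⟪b, om i T⟫_ℝ - β₀| ≤ L ^ (-α), w i T ≤ L ^ (-c₁ * α + ε) * ∑ T ∈ I i k, w i T) :
    ∃ M : TModel n, M.Ok R₁ c₁ Cτ ∧ M.ε = ε ∧ M.L = L := by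
  have hL0 : 0 < L := by linarith
  have hW : ∀ i, ∀ k ∈ 𝔅, 0 < ∑ α ∈ I i k, w i α := fun i k hk => lt_of_lt_of_le (Real.rpow_pos_of_pos hL0 _) (hlow i k hk)
  refine ⟨tbAsmM n L ε J om ic w 𝔅 pos I ξ₀ hne hw hW, ?_, rfl, rfl⟩
  refine ⟨hL, hε, hε1, fun x => hpos x.1 x.2, ?_, ?_, ?_, ?_, ?_, ?_, ?_, ?_, ?_, ?_⟩
  · -- card_lo
    show L ^ ((n : ℝ) - ε) ≤ (Fintype.card {k // k ∈ 𝔅} : ℝ)
    rw [Fintype.card_coe]
    exact hcard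
  · -- ball
    intro z r hr0 hr1
    show (((Finset.univ : Finset {k // k ∈ 𝔅}).filter (fun x => pos x.1 ∈ Metric.closedBall z r)).card : ℝ) ≤ L ^ ((n : ℝ) + ε) * r ^ n
    have e : ((Finset.univ : Finset {k // k ∈ 𝔅}).filter (fun x => pos x.1 ∈ Metric.closedBall z r)).card
        = (𝔅.filter fun k => pos k ∈ closedBall z r).card := by
      rw [Finset.card_filter, Finset.card_filter]
      exact Finset.sum_coe_sort 𝔅 (fun k => if pos k ∈ closedBall z r then 1 else 0)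
    rw [e]
    exact hball z r hr0 hr1
  · -- card_τ
    show (Fintype.card (Σ i, {α : J i // α ∈ 𝔅.biUnion (I i)}) : ℝ) ≤ L ^ Cτ
    rw [Fintype.card_sigma]
    simp only [Fintype.card_coe]
    exact hτ
  · -- fr_bd
    intro i T
    show ‖(if T.1 = i then om T.1 T.2.1 else ξ₀ i)‖ ≤ R₁
    split_ifs
    · exact hom _ _
    · exact hξ₀ _
  · -- trans
    intro T t
    refine htr (fun i => if (T i).1 = i then om (T i).1 (T i).2.1 else ξ₀ i) (fun i => ?_) t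
    by_cases h : (T i).1 = i
    · right
      simp only [if_pos h]
      have key : ∀ S : (Σ i, {α : J i // α ∈ 𝔅.biUnion (I i)}), S.1 = i → ∃ α, om S.1 S.2.1 = om i α := by
        rintro ⟨j, β⟩ rfl
        exact ⟨β.1, rfl⟩
      exact key _ h
    · left
      simp only [if_neg h]
  · -- w_nonneg
    intro i T
    show 0 ≤ (if T.1 = i then w T.1 T.2.1 else 0)
    split_ifs
    · exact hw _ _
    · exact le_rfl
  · -- w_sum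
    intro i
    show ∑ T : (Σ i, {α : J i // α ∈ 𝔅.biUnion (I i)}), (if T.1 = i then w T.1 T.2.1 else 0) ≤ L ^ ε
    rw [tr_tb_asm_sum J (fun i => 𝔅.biUnion (I i)) w i]
    exact hws i _
  · -- κ_le
    intro i x T
    show (if T.1 = i then (if T.2.1 ∈ I T.1 x.1 then w T.1 T.2.1 / ∑ α ∈ I T.1 x.1, w T.1 α else 0) else 0)
      ≤ L ^ (eex n + ε) * (if T.1 = i then w T.1 T.2.1 else 0)
    have hp : 0 < L ^ (eex n + ε) := Real.rpow_pos_of_pos hL0 _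
    by_cases h : T.1 = i
    · rw [if_pos h, if_pos h]
      by_cases h2 : T.2.1 ∈ I T.1 x.1
      · rw [if_pos h2, div_le_iff₀ (hW _ _ x.2)]
        have h3 : 1 ≤ L ^ (eex n + ε) * ∑ α ∈ I T.1 x.1, w T.1 α := by
          calc (1 : ℝ) = L ^ (eex n + ε) * L ^ (-(eex n) - ε) := by
                rw [← Real.rpow_add hL0]
                simp
            _ ≤ _ := mul_le_mul_of_nonneg_left (hlow _ _ x.2) hp.le
        calc w T.1 T.2.1 = w T.1 T.2.1 * 1 := (mul_one _).symm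
          _ ≤ w T.1 T.2.1 * (L ^ (eex n + ε) * ∑ α ∈ I T.1 x.1, w T.1 α) := mul_le_mul_of_nonneg_left h3 (hw _ _)
          _ = _ := by ring
      · rw [if_neg h2]
        exact mul_nonneg hp.le (hw _ _)
    · rw [if_neg h, if_neg h, mul_zero]
  · -- inc
    intro i x T hκ
    have hκ' : 0 < (if T.1 = i then (if T.2.1 ∈ I T.1 x.1 then w T.1 T.2.1 / ∑ α ∈ I T.1 x.1, w T.1 α else 0) else 0) := hκ
    show ‖(pos x.1).1 - (if T.1 = i then ic T.1 T.2.1 else 0) - (2 * (pos x.1).2) • (if T.1 = i then om T.1 T.2.1 else ξ₀ i)‖ ≤ L ^ (-1 + ε)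
    by_cases h : T.1 = i
    · rw [if_pos h] at hκ'
      rw [if_pos h, if_pos h]
      by_cases h2 : T.2.1 ∈ I T.1 x.1
      · exact hinc _ _ x.2 _ h2
      · rw [if_neg h2] at hκ'
        exact absurd hκ' (lt_irrefl _)
    · rw [if_neg h] at hκ'
      exact absurd hκ' (lt_irrefl _)
  · -- strip
    intro i x a b α₀ β₀ α ha hb hab hα0 hα1
    show ∑ T : (Σ i, {α : J i // α ∈ 𝔅.biUnion (I i)}) with
        |⟪a, (if T.1 = i then om T.1 T.2.1 else ξ₀ i)⟫_ℝ - α₀| ≤ L ^ (-α) ∧ |⟪b, (if T.1 = i then om T.1 T.2.1 else ξ₀ i)⟫_ℝ - β₀| ≤ L ^ (-α),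
        (if T.1 = i then (if T.2.1 ∈ I T.1 x.1 then w T.1 T.2.1 / ∑ α ∈ I T.1 x.1, w T.1 α else 0) else 0) ≤ L ^ (-c₁ * α + ε)
    rw [Finset.sum_filter]
    have e1 : ∀ T : (Σ i, {α : J i // α ∈ 𝔅.biUnion (I i)}),
        (if |⟪a, (if T.1 = i then om T.1 T.2.1 else ξ₀ i)⟫_ℝ - α₀| ≤ L ^ (-α) ∧ |⟪b, (if T.1 = i then om T.1 T.2.1 else ξ₀ i)⟫_ℝ - β₀| ≤ L ^ (-α) then
          (if T.1 = i then (if T.2.1 ∈ I T.1 x.1 then w T.1 T.2.1 / ∑ α ∈ I T.1 x.1, w T.1 α else 0) else 0) else 0)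
        = if T.1 = i then (fun j (β : J j) => if β ∈ I j x.1 then
            (if |⟪a, om j β⟫_ℝ - α₀| ≤ L ^ (-α) ∧ |⟪b, om j β⟫_ℝ - β₀| ≤ L ^ (-α) then w j β / ∑ α ∈ I j x.1, w j α else 0) else 0) T.1 T.2.1 else 0 := by
      intro T
      by_cases h : T.1 = i
      · simp only [if_pos h]
        split_ifs <;> rfl
      · simp only [if_neg h, ite_self]
    rw [Finset.sum_congr rfl fun T _ => e1 T, tr_tb_asm_sum J (fun i => 𝔅.biUnion (I i)) (fun j (β : J j) => if β ∈ I j x.1 then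
            (if |⟪a, om j β⟫_ℝ - α₀| ≤ L ^ (-α) ∧ |⟪b, om j β⟫_ℝ - β₀| ≤ L ^ (-α) then w j β / ∑ α ∈ I j x.1, w j α else 0) else 0) i, Finset.sum_ite_mem,
      Finset.inter_eq_right.2 (Finset.subset_biUnion_of_mem (I i) x.2), ← Finset.sum_filter, ← Finset.sum_div, div_le_iff₀ (hW i x.1 x.2)]
    exact hstrip i x.1 x.2 a b α₀ β₀ α ha hb hab hα0 hα1

/-- L-TB-A2.  the number of tubes.   `#(𝔅.biUnion (I i)) ≤ #𝔅 · max #nr ≤ L^{n+1} Cp L^n (1 + L^θ)^A ≤ Cp 2^A L^{2n+1+θA}` (`Finset.card_biUnion_le`, `tr_tb_nr_card`);  `(n+1) Cp 2^A ≤ L`. -/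
theorem tr_tb_card (n : ℕ) (θ : ℝ) (hθ : 0 ≤ θ) (A : ℕ) (hA : θ * A ≤ 2 * eex n + n + 5) (Cp : ℝ) : ∃ L₀ : ℝ, ∀ (L R₁ : ℝ) (f : Fin (n + 1) → E n → ℂ)
    (P : ∀ i, TbPk n L R₁ Cp A (f i)) (𝔅 : Finset ((Fin n → ℤ) × ℤ)) (I : ∀ i, (Fin n → ℤ) × ℤ → Finset (P i).J), L₀ ≤ L →
    (𝔅.card : ℝ) ≤ L ^ ((n : ℝ) + 1) → (∀ k ∈ 𝔅, |(tbCor L k).2| ≤ 3 * L ^ 2) → (∀ i, ∀ k ∈ 𝔅, I i k ⊆ (P i).nr (tbCor L k) (L ^ (1 + θ))) →
    ((∑ i, (𝔅.biUnion (I i)).card : ℕ) : ℝ) ≤ L ^ (3 * (n : ℝ) + 2 * eex n + 8) := by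
  refine ⟨max 1 (((n : ℝ) + 1) * max Cp 0 * 2 ^ A), fun L R₁ f P 𝔅 I hL h𝔅 htime hI => ?_⟩
  have hL1 : 1 ≤ L := (le_max_left _ _).trans hL
  have hL0 : 0 < L := by linarith
  have hLc : ((n : ℝ) + 1) * max Cp 0 * 2 ^ A ≤ L := (le_max_right _ _).trans hL
  set Cp' : ℝ := max Cp 0 with hCp'
  have hCp0 : 0 ≤ Cp' := le_max_right _ _
  have hθ1 : 1 ≤ L ^ θ := Real.one_le_rpow hL1 hθ
  have hX : (1 + L ^ (1 + θ) / L) ^ A ≤ 2 ^ A * L ^ (θ * A) := by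
    have e1 : L ^ (1 + θ) / L = L ^ θ := by
      rw [Real.rpow_add hL0, Real.rpow_one, mul_div_cancel_left₀ _ hL0.ne']
    rw [e1, Real.rpow_mul hL0.le, Real.rpow_natCast, ← mul_pow]
    exact pow_le_pow_left₀ (by positivity) (by linarith) A
  have hone : ∀ i, ((𝔅.biUnion (I i)).card : ℝ) ≤ L ^ ((n : ℝ) + 1) * (Cp' * L ^ (n : ℝ) * (2 ^ A * L ^ (θ * A))) := by
    intro i
    have h1 : ((𝔅.biUnion (I i)).card : ℝ) ≤ ∑ k ∈ 𝔅, ((I i k).card : ℝ) := by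
      exact_mod_cast Finset.card_biUnion_le
    have h2 : ∀ k ∈ 𝔅, ((I i k).card : ℝ) ≤ Cp' * L ^ (n : ℝ) * (2 ^ A * L ^ (θ * A)) := by
      intro k hk
      have h3 : ((I i k).card : ℝ) ≤ (((P i).nr (tbCor L k) (L ^ (1 + θ))).card : ℝ) := by
        exact_mod_cast Finset.card_le_card (hI i k hk)
      have h4 := tr_tb_nr_card (P i) (htime k hk) (Real.rpow_nonneg hL0.le (1 + θ))
      refine h3.trans (h4.trans ?_)
      rw [Real.rpow_natCast]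
      calc Cp * L ^ n * (1 + L ^ (1 + θ) / L) ^ A ≤ Cp' * L ^ n * (1 + L ^ (1 + θ) / L) ^ A := by
            have : Cp ≤ Cp' := le_max_left _ _
            gcongr
        _ ≤ Cp' * L ^ n * (2 ^ A * L ^ (θ * A)) := by gcongr
    calc ((𝔅.biUnion (I i)).card : ℝ) ≤ ∑ k ∈ 𝔅, ((I i k).card : ℝ) := h1
      _ ≤ ∑ _k ∈ 𝔅, Cp' * L ^ (n : ℝ) * (2 ^ A * L ^ (θ * A)) := Finset.sum_le_sum h2
      _ = (𝔅.card : ℝ) * (Cp' * L ^ (n : ℝ) * (2 ^ A * L ^ (θ * A))) := by rw [Finset.sum_const, nsmul_eq_mul]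
      _ ≤ L ^ ((n : ℝ) + 1) * (Cp' * L ^ (n : ℝ) * (2 ^ A * L ^ (θ * A))) := by gcongr
  push_cast
  calc ∑ i : Fin (n + 1), ((𝔅.biUnion (I i)).card : ℝ) ≤ ∑ _i : Fin (n + 1), L ^ ((n : ℝ) + 1) * (Cp' * L ^ (n : ℝ) * (2 ^ A * L ^ (θ * A))) :=
        Finset.sum_le_sum fun i _ => hone i
    _ = (((n : ℝ) + 1) * Cp' * 2 ^ A) * (L ^ ((n : ℝ) + 1) * L ^ (n : ℝ) * L ^ (θ * A)) := by
        rw [Finset.sum_const, Finset.card_univ, Fintype.card_fin, nsmul_eq_mul]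
        push_cast
        ring
    _ ≤ L * (L ^ ((n : ℝ) + 1) * L ^ (n : ℝ) * L ^ (θ * A)) := by gcongr
    _ = L ^ (1 + ((n : ℝ) + 1 + n + θ * A)) := by
        rw [Real.rpow_add hL0 1, Real.rpow_one, Real.rpow_add hL0 ((n : ℝ) + 1 + n), Real.rpow_add hL0 ((n : ℝ) + 1)]
    _ ≤ L ^ (3 * (n : ℝ) + 2 * eex n + 8) := Real.rpow_le_rpow_of_exponent_le hL1 (by linarith)

end Claimed.Agent.R257.TR
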