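import Claimed.Agent.R257.TR.TubesPk
import Claimed.Agent.Lib.MK.Graph

/-!
# R257 / TR / TubesKak : block B5 of t:tubes: THE COUNTING FORM OF MULTILINEAR KAKEYA, DELETION OF THE HEAVY POINTS (transverse.tex l.184-188).      Architect: helper195.
-/

set_option autoImplicit false

namespace Claimed.Agent.R257.TR

open Claimed.Agent.R257 MeasureTheory Metric Set
open scoped BigOperators ENNReal InnerProductSpace
open Classical

variable {n : ℕ}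

theorem tr_tb_cubeS_eq_prod (a : ℝ) (k : (Fin n → ℤ) × ℤ) :
    (cubeS a k : Set (ST n)) = ((WithLp.ofLp : E n → Fin n → ℝ) ⁻¹' (Set.pi univ fun i => Ico (a * (k.1 i : ℝ)) (a * (k.1 i + 1)))) ×ˢ
      Ico (a * (k.2 : ℝ)) (a * (k.2 + 1)) := by
  ext z
  simp only [cubeS, mem_ofPred_eq, mem_prod, mem_preimage, mem_pi, mem_univ, true_imp_iff, mem_Ico]

theorem tr_tb_cubeS_meas (a : ℝ) (k : (Fin n → ℤ) × ℤ) : MeasurableSet (cubeS a k : Set (ST n)) := by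
  rw [tr_tb_cubeS_eq_prod]
  exact ((PiLp.volume_preserving_ofLp (Fin n)).measurable (MeasurableSet.univ_pi fun i => measurableSet_Ico)).prod measurableSet_Ico

theorem tr_tb_cubeS_vol {a : ℝ} (ha : 0 < a) (k : (Fin n → ℤ) × ℤ) : volume (cubeS a k : Set (ST n)) = ENNReal.ofReal (a ^ (n + 1)) := by
  rw [tr_tb_cubeS_eq_prod, Measure.volume_eq_prod, Measure.prod_prod,
    (PiLp.volume_preserving_ofLp (Fin n)).measure_preimage (MeasurableSet.univ_pi fun i => measurableSet_Ico).nullMeasurableSet,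
    Real.volume_pi_Ico, Real.volume_Ico]
  have e : ∀ j : ℤ, a * ((j : ℝ) + 1) - a * (j : ℝ) = a := fun j => by ring
  simp only [e, Finset.prod_const, Finset.card_univ, Fintype.card_fin]
  rw [pow_succ, ENNReal.ofReal_mul (by positivity), ENNReal.ofReal_pow ha.le]

theorem tr_tb_cubeS_disj {a : ℝ} (ha : 0 < a) {k k' : (Fin n → ℤ) × ℤ} (hne : k ≠ k') : Disjoint (cubeS a k : Set (ST n)) (cubeS a k') := by
  have key : ∀ (x : ℝ) (j : ℤ), (a * (j : ℝ) ≤ x ∧ x < a * ((j : ℝ) + 1)) → ⌊x / a⌋ = j := by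
    intro x j h
    rw [Int.floor_eq_iff, le_div_iff₀ ha, div_lt_iff₀ ha, mul_comm (j : ℝ) a, mul_comm ((j : ℝ) + 1) a]
    exact h
  rw [Set.disjoint_left]
  intro z h1 h2
  refine hne (Prod.ext (funext fun i => ?_) ?_)
  · exact (key _ _ (h1.1 i)).symm.trans (key _ _ (h2.1 i))
  · exact (key _ _ h1.2).symm.trans (key _ _ h2.2)

theorem tr_tb_mk (hn : 1 ≤ n) (B : ℝ) (hB : 0 ≤ B) : ∃ C : ℝ, ∃ M : ℕ, 0 < C ∧ ∀ (h Q : ℝ), 0 < h → 1 ≤ Q →
    ∀ (ι : Type) (s : Fin (n + 1) → Finset ι) (v a : Fin (n + 1) → ι → E n) (c : Fin (n + 1) → ι → ℝ≥0∞),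
    (∀ i, ∀ j ∈ s i, ‖v i j‖ ≤ B) →
    (∀ j : Fin (n + 1) → ι, (∀ i, j i ∈ s i) → ∀ t : Fin (n + 1) → ℝ, ∑ i, |t i| ≤ Q * (‖∑ i, t i • v i (j i)‖ + |∑ i, t i|)) →
    ∫⁻ z : ST n, ∏ i, (∑ j ∈ s i, c i j * ({z : ST n | ‖z.1 + (2 * z.2) • v i j - a i j‖ ≤ h}).indicator 1 z) ^ (1 / (n : ℝ))
      ≤ ENNReal.ofReal (C * Q ^ M * h ^ (n + 1)) * ∏ i, (∑ j ∈ s i, c i j) ^ (1 / (n : ℝ)) := by
  have hfin : Module.finrank ℝ (E n) = n := finrank_euclideanSpace_fin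
  obtain ⟨C, M, hC, H⟩ := MK.mk_graph_fin.{0, 0} (E n) (by rw [hfin]; exact hn) B hB
  rw [hfin] at H
  exact ⟨C, M, hC, H⟩

/-- L-TB-K1 (~300 l.).  **counting Kakeya.**   `MK.mk_graph_fin (E n)` (`finrank = n`: `finrank_euclideanSpace_fin`; generalise the finrank and `subst`, as in `R257/FR3/InflMK.lean` l.312), `B = R₁`, index type `Σ i, J i`,
`s' i = (s i).map (Function.Embedding.sigmaMk i)`, velocities `v = -om` (the tubes of `MK` are `‖z.1 + 2 z.2 v - a‖ ≤ h`; transversality is invariant under `ξ ↦ -ξ`), `a = y`, `c = ofReal w`.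
The boxes `cubeS L k` are disjoint, measurable, of volume `L^{n+1}`; on `cubeS L k` the integrand is `≥ ∏_i (∑_{α ∈ I i k} w)^{1/n}` (`hinc`).   Back to `ℝ` by `ENNReal.ofReal`/`toReal`. -/
theorem tr_tb_kak_count (hn : 2 ≤ n) (R₁ : ℝ) (hR : 0 ≤ R₁) : ∃ (C : ℝ) (M : ℕ), 0 < C ∧ ∀ (L h Q : ℝ) (J : Fin (n + 1) → Type) (s : ∀ i, Finset (J i))
    (om y : ∀ i, J i → E n) (w : ∀ i, J i → ℝ) (𝔅 : Finset ((Fin n → ℤ) × ℤ)) (I : ∀ i, (Fin n → ℤ) × ℤ → Finset (J i)),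
    1 ≤ L → 0 < h → 1 ≤ Q → (∀ i α, 0 ≤ w i α) → (∀ i, ∀ α ∈ s i, ‖om i α‖ ≤ R₁) →
    (∀ α : ∀ i, J i, (∀ i, α i ∈ s i) → Transv Q fun i => om i (α i)) → (∀ i, ∀ k ∈ 𝔅, I i k ⊆ s i) →
    (∀ i, ∀ k ∈ 𝔅, ∀ α ∈ I i k, ∀ z ∈ cubeS L k, ‖z.1 - y i α - (2 * z.2) • om i α‖ ≤ h) →
    L ^ (n + 1) * ∑ k ∈ 𝔅, ∏ i, (∑ α ∈ I i k, w i α) ^ (1 / (n : ℝ)) ≤ C * Q ^ M * h ^ (n + 1) * ∏ i, (∑ α ∈ s i, w i α) ^ (1 / (n : ℝ)) := by
  obtain ⟨C, M, hC, H⟩ := tr_tb_mk (n := n) (by omega) R₁ hR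
  refine ⟨C, M, hC, ?_⟩
  intro L h Q J s om y w 𝔅 I hL hh hQ hw hom htr hI hinc
  have hL0 : 0 < L := by linarith
  have hγ : (0 : ℝ) ≤ 1 / (n : ℝ) := by positivity
  have key := H h Q hh hQ (Σ i, J i) (fun i => (s i).map (Function.Embedding.sigmaMk i)) (fun _ p => -om p.1 p.2) (fun _ p => y p.1 p.2)
    (fun _ p => ENNReal.ofReal (w p.1 p.2))
    (by
      intro i j hj
      obtain ⟨α, hα, rfl⟩ := Finset.mem_map.1 hj
      rw [norm_neg]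
      exact hom i α hα)
    (by
      intro j hj t
      have hex : ∀ i, ∃ α : J i, α ∈ s i ∧ j i = ⟨i, α⟩ := by
        intro i
        obtain ⟨α, hα, e⟩ := Finset.mem_map.1 (hj i)
        exact ⟨α, hα, e.symm⟩
      choose α hα hjα using hex
      have h1 := htr α hα t
      have e : ∑ i, t i • -om (j i).1 (j i).2 = -∑ i, t i • om i (α i) := by
        rw [← Finset.sum_neg_distrib]
        refine Finset.sum_congr rfl fun i _ => ?_
        rw [hjα i, smul_neg]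
      rw [e, norm_neg]
      exact h1)
  simp only [Finset.sum_map] at key
  have key' : ∫⁻ z : ST n, ∏ i, (∑ α ∈ s i, ENNReal.ofReal (w i α) * ({z : ST n | ‖z.1 + (2 * z.2) • -om i α - y i α‖ ≤ h}).indicator 1 z) ^ (1 / (n : ℝ))
      ≤ ENNReal.ofReal (C * Q ^ M * h ^ (n + 1)) * ∏ i, (∑ α ∈ s i, ENNReal.ofReal (w i α)) ^ (1 / (n : ℝ)) := key
  -- lower bound of the integral
  have hlow : ∑ k ∈ 𝔅, ENNReal.ofReal (L ^ (n + 1)) * ∏ i, (∑ α ∈ I i k, ENNReal.ofReal (w i α)) ^ (1 / (n : ℝ))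
      ≤ ∫⁻ z : ST n, ∏ i, (∑ α ∈ s i, ENNReal.ofReal (w i α) * ({z : ST n | ‖z.1 + (2 * z.2) • -om i α - y i α‖ ≤ h}).indicator 1 z) ^ (1 / (n : ℝ)) := by
    calc ∑ k ∈ 𝔅, ENNReal.ofReal (L ^ (n + 1)) * ∏ i, (∑ α ∈ I i k, ENNReal.ofReal (w i α)) ^ (1 / (n : ℝ))
        ≤ ∑ k ∈ 𝔅, ∫⁻ z in cubeS L k, ∏ i, (∑ α ∈ s i, ENNReal.ofReal (w i α) * ({z : ST n | ‖z.1 + (2 * z.2) • -om i α - y i α‖ ≤ h}).indicator 1 z) ^ (1 / (n : ℝ)) := by
          refine Finset.sum_le_sum fun k hk => ?_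
          rw [← tr_tb_cubeS_vol hL0 k, mul_comm, ← setLIntegral_const]
          refine setLIntegral_mono' (tr_tb_cubeS_meas L k) fun z hz => ?_
          refine Finset.prod_le_prod' fun i _ => ENNReal.rpow_le_rpow ?_ hγ
          calc ∑ α ∈ I i k, ENNReal.ofReal (w i α)
              = ∑ α ∈ I i k, ENNReal.ofReal (w i α) * ({z : ST n | ‖z.1 + (2 * z.2) • -om i α - y i α‖ ≤ h}).indicator 1 z := by
                refine Finset.sum_congr rfl fun α hα => ?_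
                have hm : z ∈ {z : ST n | ‖z.1 + (2 * z.2) • -om i α - y i α‖ ≤ h} := by
                  have h1 := hinc i k hk α hα z hz
                  have e : z.1 + (2 * z.2) • -om i α - y i α = z.1 - y i α - (2 * z.2) • om i α := by
                    rw [smul_neg]; abel
                  show ‖z.1 + (2 * z.2) • -om i α - y i α‖ ≤ h
                  rw [e]; exact h1
                rw [Set.indicator_of_mem hm, Pi.one_apply, mul_one]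
            _ ≤ _ := Finset.sum_le_sum_of_subset (hI i k hk)
      _ = ∫⁻ z in ⋃ k ∈ 𝔅, cubeS L k, ∏ i, (∑ α ∈ s i, ENNReal.ofReal (w i α) * ({z : ST n | ‖z.1 + (2 * z.2) • -om i α - y i α‖ ≤ h}).indicator 1 z) ^ (1 / (n : ℝ)) := by
          rw [lintegral_biUnion_finset (fun k _ k' _ hne => tr_tb_cubeS_disj hL0 hne) (fun k _ => tr_tb_cubeS_meas L k)]
      _ ≤ _ := setLIntegral_le_lintegral _ _
  have hfin := hlow.trans key'
  -- back to the reals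
  have eS : ∀ (i : Fin (n + 1)) (t : Finset (J i)), (∑ α ∈ t, ENNReal.ofReal (w i α)) ^ (1 / (n : ℝ)) = ENNReal.ofReal ((∑ α ∈ t, w i α) ^ (1 / (n : ℝ))) := by
    intro i t
    rw [← ENNReal.ofReal_sum_of_nonneg fun α _ => hw i α, ENNReal.ofReal_rpow_of_nonneg (Finset.sum_nonneg fun α _ => hw i α) hγ]
  have hnn : ∀ (i : Fin (n + 1)) (t : Finset (J i)), 0 ≤ (∑ α ∈ t, w i α) ^ (1 / (n : ℝ)) :=
    fun i t => Real.rpow_nonneg (Finset.sum_nonneg fun α _ => hw i α) _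
  simp only [eS] at hfin
  rw [← Finset.mul_sum] at hfin
  simp only [← ENNReal.ofReal_prod_of_nonneg fun i _ => hnn i _] at hfin
  rw [← ENNReal.ofReal_sum_of_nonneg fun k _ => Finset.prod_nonneg fun i _ => hnn i _, ← ENNReal.ofReal_mul (by positivity),
    ← ENNReal.ofReal_mul (by positivity)] at hfin
  exact (ENNReal.ofReal_le_ofReal_iff (mul_nonneg (by positivity) (Finset.prod_nonneg fun i _ => hnn i _))).1 hfin

/-- L-TB-K2.  **deletion** (paper free).   On a bad `k`: `∏_i W_i^{1/n} ≥ b^{1/n} a^{n/n}` (one factor `> b`, the `n` others `≥ a`; `Fin.prod_univ_succAbove` or `Finset.mul_prod_erase`). -/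
theorem tr_tb_delete {κ : Type*} (hn : 1 ≤ n) (𝔅 : Finset κ) (W : Fin (n + 1) → κ → ℝ) {a b T : ℝ} (ha : 0 < a) (hab : a ≤ b)
    (hW : ∀ k ∈ 𝔅, ∀ i, a ≤ W i k) (hT : ∑ k ∈ 𝔅, ∏ i, W i k ^ (1 / (n : ℝ)) ≤ T) :
    ((𝔅.filter fun k => ∃ i, b < W i k).card : ℝ) * (b ^ (1 / (n : ℝ)) * a) ≤ T := by
  have hn0 : (0 : ℝ) < n := by exact_mod_cast hn
  have hγ : (0 : ℝ) ≤ 1 / (n : ℝ) := by positivity
  have hpos : ∀ k ∈ 𝔅, ∀ i, 0 ≤ W i k := fun k hk i => ha.le.trans (hW k hk i)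
  have hterm : ∀ k ∈ 𝔅.filter (fun k => ∃ i, b < W i k), b ^ (1 / (n : ℝ)) * a ≤ ∏ i, W i k ^ (1 / (n : ℝ)) := by
    intro k hk
    rw [Finset.mem_filter] at hk
    obtain ⟨hk, i₀, hi₀⟩ := hk
    rw [← Finset.mul_prod_erase Finset.univ (fun i => W i k ^ (1 / (n : ℝ))) (Finset.mem_univ i₀)]
    have h1 : b ^ (1 / (n : ℝ)) ≤ W i₀ k ^ (1 / (n : ℝ)) := Real.rpow_le_rpow (ha.le.trans hab) hi₀.le hγ
    have h2 : a ≤ ∏ i ∈ Finset.univ.erase i₀, W i k ^ (1 / (n : ℝ)) := by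
      have h3 : ∏ _i ∈ Finset.univ.erase i₀, a ^ (1 / (n : ℝ)) ≤ ∏ i ∈ Finset.univ.erase i₀, W i k ^ (1 / (n : ℝ)) :=
        Finset.prod_le_prod (fun i _ => Real.rpow_nonneg ha.le _) (fun i _ => Real.rpow_le_rpow ha.le (hW k hk i) hγ)
      refine le_trans (le_of_eq ?_) h3
      rw [Finset.prod_const, Finset.card_erase_of_mem (Finset.mem_univ i₀), Finset.card_univ, Fintype.card_fin, Nat.add_sub_cancel,
        ← Real.rpow_natCast, ← Real.rpow_mul ha.le, one_div_mul_cancel hn0.ne', Real.rpow_one]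
    exact mul_le_mul h1 h2 ha.le (Real.rpow_nonneg (hpos k hk i₀) _)
  calc ((𝔅.filter fun k => ∃ i, b < W i k).card : ℝ) * (b ^ (1 / (n : ℝ)) * a)
      = ∑ _k ∈ 𝔅.filter (fun k => ∃ i, b < W i k), b ^ (1 / (n : ℝ)) * a := by rw [Finset.sum_const, nsmul_eq_mul]
    _ ≤ ∑ k ∈ 𝔅.filter (fun k => ∃ i, b < W i k), ∏ i, W i k ^ (1 / (n : ℝ)) := Finset.sum_le_sum hterm
    _ ≤ ∑ k ∈ 𝔅, ∏ i, W i k ^ (1 / (n : ℝ)) :=
        Finset.sum_le_sum_of_subset_of_nonneg (Finset.filter_subset _ _) fun k hk _ => Finset.prod_nonneg fun i _ => Real.rpow_nonneg (hpos k hk i) _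
    _ ≤ T := hT

theorem tr_tb_kak_num {M : ℕ} (hn : 2 ≤ n) {s s' K L c θ B : ℝ} (hs' : 0 < s') (hs'le : s' * (2 * n * (M + n + 5)) ≤ s) (hL : 1 ≤ L)
    (hLK : 2 * K ≤ L ^ (s / (2 * n))) (hc : c ≤ s') (hθ : θ ≤ s')
    (hB : B * ((L ^ (-(eex n) + s)) ^ (1 / (n : ℝ)) * L ^ (-(eex n) - s')) ≤ K * L ^ (c * M + θ * (n + 1))) :
    2 * B ≤ L ^ ((n : ℝ) - s') := by
  have hL0 : 0 < L := by linarith
  have hn0 : (0 : ℝ) < n := by
    have : 0 < n := by omega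
    exact_mod_cast this
  have hM0 : (0 : ℝ) ≤ M := Nat.cast_nonneg M
  have e1 : (L ^ (-(eex n) + s)) ^ (1 / (n : ℝ)) * L ^ (-(eex n) - s') = L ^ (-(n : ℝ) + s / n - s') := by
    rw [← Real.rpow_mul hL0.le, ← Real.rpow_add hL0]
    congr 1
    unfold eex
    field_simp
    ring
  rw [e1] at hB
  have hpos : 0 < L ^ (-(n : ℝ) + s / n - s') := Real.rpow_pos_of_pos hL0 _
  have e2 : L ^ (-(n : ℝ) + s / n - s') * L ^ ((n : ℝ) - s / n + s') = 1 := by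
    rw [← Real.rpow_add hL0]
    have : -(n : ℝ) + s / n - s' + ((n : ℝ) - s / n + s') = 0 := by ring
    rw [this, Real.rpow_zero]
  have h1 : s' * (M + n + 5) ≤ s / (2 * n) := by
    rw [le_div_iff₀ (by positivity)]
    linarith
  have h2 : c * M ≤ s' * M := mul_le_mul_of_nonneg_right hc hM0
  have h3 : θ * (n + 1) ≤ s' * (n + 1) := mul_le_mul_of_nonneg_right hθ (by positivity)
  have h4 : s / n = 2 * (s / (2 * n)) := by field_simp
  calc 2 * B = 2 * (B * L ^ (-(n : ℝ) + s / n - s')) * L ^ ((n : ℝ) - s / n + s') := by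
        rw [mul_assoc, mul_assoc, e2, mul_one]
    _ ≤ 2 * (K * L ^ (c * M + θ * (n + 1))) * L ^ ((n : ℝ) - s / n + s') :=
        mul_le_mul_of_nonneg_right (mul_le_mul_of_nonneg_left hB zero_le_two) (Real.rpow_nonneg hL0.le _)
    _ = (2 * K) * (L ^ (c * M + θ * (n + 1)) * L ^ ((n : ℝ) - s / n + s')) := by ring
    _ ≤ L ^ (s / (2 * n)) * (L ^ (c * M + θ * (n + 1)) * L ^ ((n : ℝ) - s / n + s')) :=
        mul_le_mul_of_nonneg_right hLK (by positivity)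
    _ = L ^ (s / (2 * n) + (c * M + θ * (n + 1) + ((n : ℝ) - s / n + s'))) := by
        rw [← Real.rpow_add hL0, ← Real.rpow_add hL0]
    _ ≤ L ^ ((n : ℝ) - s') := by
        refine Real.rpow_le_rpow_of_exponent_le hL ?_
        nlinarith

/-- **EXIT of B5** (L-TB-K3, ~350 l.).   `(C, M)` from `tr_tb_kak_count (R₀+1)`;  `s' := s / (2 n (M + n + 5))`.   `s i := 𝔅.biUnion (near sets)`, `I i k := (P i).nr (tbCor L k) (L^{1+θ})`, `Q = 2 L^c` (`tr_tb_transv`, `TbPk.near`, `d = Cp/L`, `L^c Cp/L ≤ 1/2`),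
`h = (1 + (3 + 2R₀) tbG n) L^{1+θ}` (`tr_tb_td_lip`, `tr_tb_cubeS_dist`, `tr_tb_om_le`), `∑_{s i} w ≤ Cp`.   So `T = C (2L^c)^M h^{n+1} Cp^{(n+1)/n} / L^{n+1} ≤ C' L^{s'(M + n + 1)}`.
`tr_tb_delete` with `a = L^{-e-s'}`, `b = L^{-e+s}`: `b^{1/n} a = L^{-n + s/n - s'}` (`e/n + e = n`): `#bad ≤ C' L^{n - s/n + s'(M+n+2)} ≤ L^{n-s'}/2 ≤ #𝔅/2`.   `𝔅' := 𝔅 \ bad`. -/
theorem tr_tb_kak (hn : 2 ≤ n) (R₀ s : ℝ) (hR : 0 ≤ R₀) (hs : 0 < s) : ∃ s' : ℝ, 0 < s' ∧ s' ≤ s ∧ ∀ (Cp : ℝ) (A : ℕ), ∃ L₀ : ℝ, ∀ (L c θ : ℝ) (f : Fin (n + 1) → E n → ℂ)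
    (P : ∀ i, TbPk n L (R₀ + 1) Cp A (f i)) (𝔅 : Finset ((Fin n → ℤ) × ℤ)), L₀ ≤ L → 0 ≤ c → c ≤ s' → 0 ≤ θ → θ ≤ s' → (∀ i, Dat R₀ (f i)) → TransvS (L ^ c) f →
    (∀ k ∈ 𝔅, |(tbCor L k).2| ≤ 3 * L ^ 2) → L ^ ((n : ℝ) - s') ≤ (𝔅.card : ℝ) →
    (∀ k ∈ 𝔅, ∀ i, L ^ (-(eex n) - s') ≤ (P i).W ((P i).nr (tbCor L k) (L ^ (1 + θ)))) →
    ∃ 𝔅' ⊆ 𝔅, (𝔅.card : ℝ) ≤ 2 * (𝔅'.card : ℝ) ∧ ∀ k ∈ 𝔅', ∀ i, (P i).W ((P i).nr (tbCor L k) (L ^ (1 + θ))) ≤ L ^ (-(eex n) + s) := by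
  obtain ⟨C, M, hC, hkak⟩ := tr_tb_kak_count hn (R₀ + 1) (by linarith)
  have hn0 : (0 : ℝ) < n := by
    have : 0 < n := by omega
    exact_mod_cast this
  have hM0 : (0 : ℝ) ≤ M := Nat.cast_nonneg M
  have hden : (1 : ℝ) ≤ 2 * n * (M + n + 5) := by
    have : (2 : ℝ) ≤ n := by exact_mod_cast hn
    nlinarith
  set s' : ℝ := min (s / (2 * n * (M + n + 5))) (1 / 2) with hs'def
  have hs'0 : 0 < s' := lt_min (by positivity) (by norm_num)
  have hs'1 : s' * (2 * n * (M + n + 5)) ≤ s := by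
    have : s' ≤ s / (2 * n * (M + n + 5)) := min_le_left _ _
    rwa [le_div_iff₀ (by linarith)] at this
  have hs'half : s' ≤ 1 / 2 := min_le_right _ _
  have hs's : s' ≤ s := by
    refine le_trans ?_ hs'1
    exact le_mul_of_one_le_right hs'0.le hden
  refine ⟨s', hs'0, hs's, ?_⟩
  intro Cp A
  have hG : 0 ≤ tbG n := by unfold tbG; positivity
  set G₁ : ℝ := 1 + (3 + 2 * R₀) * tbG n with hG₁
  have hG₁1 : 1 ≤ G₁ := by
    have : 0 ≤ (3 + 2 * R₀) * tbG n := by positivity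
    linarith
  set K : ℝ := C * 2 ^ M * G₁ ^ (n + 1) * (Cp ^ (1 / (n : ℝ))) ^ (n + 1) with hK
  refine ⟨max (max 1 Cp) (max ((2 * Cp) ^ 2) ((2 * K) ^ (2 * n / s))), ?_⟩
  intro L c θ f P 𝔅 hL hc0 hc hθ0 hθ hdat htr htime hcard hlow
  have hL1 : 1 ≤ L := (le_max_left _ _).trans ((le_max_left _ _).trans hL)
  have hLCp : Cp ≤ L := (le_max_right _ _).trans ((le_max_left _ _).trans hL)
  have hLCp2 : (2 * Cp) ^ 2 ≤ L := (le_max_left _ _).trans ((le_max_right _ _).trans hL)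
  have hLK : (2 * K) ^ (2 * n / s) ≤ L := (le_max_right _ _).trans ((le_max_right _ _).trans hL)
  have hL0 : 0 < L := by linarith
  have hCp0 : 0 ≤ Cp := by
    have := (P 0).w_sum ∅
    simpa using this
  have hK0 : 0 ≤ K := by rw [hK]; positivity
  have hLK' : 2 * K ≤ L ^ (s / (2 * n)) := by
    have h1 := Real.rpow_le_rpow (Real.rpow_nonneg (by positivity) _) hLK (by positivity : 0 ≤ s / (2 * n))
    rw [← Real.rpow_mul (by positivity)] at h1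
    have : 2 * n / s * (s / (2 * n)) = 1 := by field_simp
    rwa [this, Real.rpow_one] at h1
  set ρ : ℝ := L ^ (1 + θ) with hρ
  have hLρ : L ≤ ρ := by
    calc L = L ^ (1 : ℝ) := (Real.rpow_one L).symm
      _ ≤ ρ := Real.rpow_le_rpow_of_exponent_le hL1 (by linarith)
  have hLc1 : 1 ≤ L ^ c := Real.one_le_rpow hL1 hc0
  have hom : ∀ i (α : (P i).J), ‖(P i).om α‖ ≤ R₀ + 1 := by
    intro i α
    have h1 := tr_tb_om_le (P i) (hdat i) α
    have h2 : Cp / L ≤ 1 := by rw [div_le_one hL0]; exact hLCp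
    linarith
  -- transversality of the labels
  have hQd : L ^ c * (Cp / L) ≤ 1 / 2 := by
    have h1 : L ^ c ≤ L ^ (1 / 2 : ℝ) := Real.rpow_le_rpow_of_exponent_le hL1 (hc.trans hs'half)
    have h2 : 2 * Cp ≤ L ^ (1 / 2 : ℝ) := by
      have h3 := Real.rpow_le_rpow (by positivity) hLCp2 (by norm_num : (0 : ℝ) ≤ 1 / 2)
      rw [← Real.rpow_natCast, ← Real.rpow_mul (by positivity)] at h3
      norm_num at h3
      exact h3
    have h4 : L ^ (1 / 2 : ℝ) * L ^ (1 / 2 : ℝ) = L := by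
      rw [← Real.rpow_add hL0]; norm_num
    have h5 : 0 < L ^ (1 / 2 : ℝ) := Real.rpow_pos_of_pos hL0 _
    rw [mul_div_assoc', div_le_iff₀ hL0]
    calc L ^ c * Cp ≤ L ^ (1 / 2 : ℝ) * (L ^ (1 / 2 : ℝ) / 2) := mul_le_mul h1 (by linarith) hCp0 h5.le
      _ = 1 / 2 * (L ^ (1 / 2 : ℝ) * L ^ (1 / 2 : ℝ)) := by ring
      _ = 1 / 2 * L := by rw [h4]
  have key := hkak L (G₁ * ρ) (2 * L ^ c) (fun i => (P i).J) (fun i => 𝔅.biUnion fun k => (P i).nr (tbCor L k) ρ) (fun i => (P i).om) (fun i => (P i).y)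
    (fun i => (P i).w) 𝔅 (fun i k => (P i).nr (tbCor L k) ρ) hL1 (by positivity) (by linarith) (fun i α => ((P i).w_pos α).le)
    (fun i α _ => hom i α)
    (fun α _ => tr_tb_transv (by positivity) hQd htr fun i => (P i).near (α i))
    (fun i k hk => Finset.subset_biUnion_of_mem (fun k => (P i).nr (tbCor L k) ρ) hk)
    (by
      intro i k hk α hα z hz
      rw [tr_tb_mem_nr (P i) (htime k hk)] at hα
      have h1 := tr_tb_td_lip (P i) α z (tbCor L k)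
      have h2 := tr_tb_cubeS_dist hL1 hz
      have h3 : (1 + 2 * ‖(P i).om α‖) * ‖z - tbCor L k‖ ≤ (3 + 2 * R₀) * (tbG n * L) :=
        mul_le_mul (by linarith [hom i α]) h2 (norm_nonneg _) (by positivity)
      have h4 : (3 + 2 * R₀) * (tbG n * L) ≤ (3 + 2 * R₀) * tbG n * ρ := by
        rw [mul_assoc]
        exact mul_le_mul_of_nonneg_left (mul_le_mul_of_nonneg_left hLρ hG) (by positivity)
      show (P i).td α z ≤ G₁ * ρ
      rw [hG₁, add_mul, one_mul]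
      linarith)
  -- the total
  have hprod : ∏ i, (∑ α ∈ 𝔅.biUnion fun k => (P i).nr (tbCor L k) ρ, (P i).w α) ^ (1 / (n : ℝ)) ≤ (Cp ^ (1 / (n : ℝ))) ^ (n + 1) := by
    calc ∏ i, (∑ α ∈ 𝔅.biUnion fun k => (P i).nr (tbCor L k) ρ, (P i).w α) ^ (1 / (n : ℝ)) ≤ ∏ _i : Fin (n + 1), Cp ^ (1 / (n : ℝ)) :=
          Finset.prod_le_prod (fun i _ => Real.rpow_nonneg (Finset.sum_nonneg fun α _ => ((P i).w_pos α).le) _)
            (fun i _ => Real.rpow_le_rpow (Finset.sum_nonneg fun α _ => ((P i).w_pos α).le) ((P i).w_sum _) (by positivity))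
      _ = _ := by rw [Finset.prod_const, Finset.card_univ, Fintype.card_fin]
  have hT : ∑ k ∈ 𝔅, ∏ i, ((P i).W ((P i).nr (tbCor L k) ρ)) ^ (1 / (n : ℝ)) ≤ K * L ^ (c * M + θ * (n + 1)) := by
    have h1 : L ^ (n + 1) * ∑ k ∈ 𝔅, ∏ i, ((P i).W ((P i).nr (tbCor L k) ρ)) ^ (1 / (n : ℝ)) ≤ L ^ (n + 1) * (K * L ^ (c * M + θ * (n + 1))) := by
      refine (key.trans (mul_le_mul_of_nonneg_left hprod (by positivity))).trans (le_of_eq ?_)
      have e1 : (2 * L ^ c) ^ M = 2 ^ M * L ^ (c * M) := by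
        rw [mul_pow, ← Real.rpow_natCast (L ^ c), ← Real.rpow_mul hL0.le]
      have e2 : (G₁ * ρ) ^ (n + 1) = G₁ ^ (n + 1) * (L ^ (n + 1) * L ^ (θ * (n + 1))) := by
        rw [mul_pow, hρ, ← Real.rpow_natCast (L ^ (1 + θ)), ← Real.rpow_mul hL0.le, ← Real.rpow_natCast L (n + 1), ← Real.rpow_add hL0]
        congr 2
        push_cast
        ring
      rw [e1, e2, Real.rpow_add hL0, hK]
      ring
    exact le_of_mul_le_mul_left h1 (by positivity)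
  have hdel := tr_tb_delete (n := n) (by omega) 𝔅 (fun i k => (P i).W ((P i).nr (tbCor L k) ρ)) (a := L ^ (-(eex n) - s')) (b := L ^ (-(eex n) + s))
    (Real.rpow_pos_of_pos hL0 _) (Real.rpow_le_rpow_of_exponent_le hL1 (by linarith)) hlow hT
  have hnum := tr_tb_kak_num hn hs'0 hs'1 hL1 hLK' hc hθ hdel
  refine ⟨𝔅.filter fun k => ¬ ∃ i, L ^ (-(eex n) + s) < (P i).W ((P i).nr (tbCor L k) ρ), Finset.filter_subset _ _, ?_, ?_⟩
  · have hsplit := Finset.card_filter_add_card_filter_not (s := 𝔅) (fun k => ∃ i, L ^ (-(eex n) + s) < (P i).W ((P i).nr (tbCor L k) ρ))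
    have hsplit' : ((𝔅.filter fun k => ∃ i, L ^ (-(eex n) + s) < (P i).W ((P i).nr (tbCor L k) ρ)).card : ℝ)
        + ((𝔅.filter fun k => ¬ ∃ i, L ^ (-(eex n) + s) < (P i).W ((P i).nr (tbCor L k) ρ)).card : ℝ) = (𝔅.card : ℝ) := by
      exact_mod_cast hsplit
    linarith
  · intro k hk i
    rw [Finset.mem_filter] at hk
    by_contra hlt
    exact hk.2 ⟨i, not_le.1 hlt⟩

end Claimed.Agent.R257.TR
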