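import Claimed.Agent.R257.TR.TubesLow

/-!
# R257 / TR / TubesPrune : block B6 of t:tubes: PRUNING OF THE HEAVY CODIMENSION TWO STRIPS (transverse.tex l.190-222).      Owner: helper34 (exit statement: helper195).

PLAN.  `b := (bet n + 2/n)/2`, `c₀` from `StripSaveStmt n b`, `c₁ := min (c₀/2) 1`.   Given `ε`: `η := ε/4`, scales `α_j = j η` (`1 ≤ j ≤ K`, `α_K < 1/8`), gain `g := (c₀ - c₁) η`, `s := min (g/16) (ε/16)`, loss `ε₁ := s` in both estimates.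
1. ABSTRACT GREEDY REMOVAL (Mathlib only): finite set `I`, weights `w > 0`, a family of "strips" (predicates on labels) with thresholds `τ(S) > 0`: there are disjoint `R_1, …, R_m ⊆ I`, `R_a` inside a strip `S_a`, `w(R_a) > τ(S_a)`,
   such that the remainder `I'` has `w(I' ∩ S) ≤ τ(S)` for EVERY strip `S` (strong induction on `#I`).   Number of removals with threshold `τ`: `< w(I)/τ`.
2. thresholds `τ_j = L^{-c₁ α_j} L^{-e+s}`: at most `L^{c₁ α_j}` removals at the scale `j`.   `tr_tb_strip` (`S = 3L`, `Γ = L^c`; the support of `G R` is within `Cp/L ≤ L^{-α_j}` of the labels: `TbPk.supp`), `TbPk.l2`, `tr_tb_N_sum_le`, `TbPk.add`: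
   `tbN Z (removed at scale j) ≤ L^{c₁ α_j} C L^{c} (3L)^{n/(n+1) - c₀ α_j + ε₁} Cp w(I) ≤ C' L^{n/(n+1) - e - g + 3 s}`.
3. `tbN Z (ext (G I)) ≥ #Z L^{-2e-2c}/4 ≥ L^{n/(n+1) - e - 3s}/4` (`tr_tb_N_lower`; `n - 2e = n/(n+1) - e`);   `tbN(I) ≤ (K+1) (tbN(I') + ∑_j tbN(removed_j))`: `tbN(I') ≥ L^{n/(n+1) - e - 3s}/(8(K+1))`;   `tr_tb_frac`: `w(I') ≥ L^{-e-ε}`.
4. strip law for real `α ∈ [0,1/8]`: `j` with `α_j ≤ α ≤ α_j + 2η` (`j = 0`: trivial bound).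
-/

set_option autoImplicit false

namespace Claimed.Agent.R257.TR

open Claimed.Agent.R257 MeasureTheory Metric Set
open scoped BigOperators ENNReal InnerProductSpace
open Classical

variable {n : ℕ}

/-- **abstract greedy removal** -/
theorem tr_tb_pr_greedy {ι 𝒮 : Type*} (w : ι → ℝ) (hw : ∀ α, 0 < w α) (mem : 𝒮 → ι → Prop) (τ : 𝒮 → ℝ) (hτ : ∀ S, 0 ≤ τ S) :
    ∀ (N : ℕ) (I : Finset ι), I.card ≤ N →
    ∃ 𝓡 : Finset (Finset ι), (∀ R ∈ 𝓡, R ⊆ I) ∧ (∀ R ∈ 𝓡, ∀ R' ∈ 𝓡, R ≠ R' → Disjoint R R') ∧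
      (∀ R ∈ 𝓡, ∃ S, (∀ α ∈ R, mem S α) ∧ τ S < ∑ α ∈ R, w α) ∧
      ∀ S, ∑ α ∈ (I \ 𝓡.biUnion id) with mem S α, w α ≤ τ S := by
  intro N
  induction N with
  | zero =>
    intro I hI
    have hI0 : I = ∅ := Finset.card_eq_zero.1 (Nat.le_zero.1 hI)
    subst hI0
    exact ⟨∅, by simp, by simp, by simp, fun S => by simpa using hτ S⟩
  | succ N ih =>
    intro I hI
    by_cases hall : ∀ S, ∑ α ∈ I with mem S α, w α ≤ τ S
    · exact ⟨∅, by simp, by simp, by simp, fun S => by simpa using hall S⟩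
    · push_neg at hall
      obtain ⟨S, hS⟩ := hall
      set R := I.filter (mem S) with hR
      have hRne : R.Nonempty := by
        by_contra hne
        rw [Finset.not_nonempty_iff_eq_empty] at hne
        rw [hne, Finset.sum_empty] at hS
        exact absurd hS (not_lt.2 (hτ S))
      have hRI : R ⊆ I := Finset.filter_subset _ _
      have hcard : (I \ R).card ≤ N := by
        have h1 := Finset.card_sdiff_add_card_eq_card hRI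
        have h2 := hRne.card_pos
        omega
      obtain ⟨𝓡, h1, h2, h3, h4⟩ := ih (I \ R) hcard
      have hdis : ∀ R' ∈ 𝓡, Disjoint R R' := fun R' hR' =>
        Finset.disjoint_left.2 fun α hα hα' => (Finset.mem_sdiff.1 (h1 R' hR' hα')).2 hα
      refine ⟨insert R 𝓡, ?_, ?_, ?_, ?_⟩
      · intro R' hR'
        rcases Finset.mem_insert.1 hR' with rfl | h
        · exact hRI
        · exact (h1 R' h).trans Finset.sdiff_subset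
      · intro R₁ hR₁ R₂ hR₂ hne
        rcases Finset.mem_insert.1 hR₁ with rfl | h₁ <;> rcases Finset.mem_insert.1 hR₂ with rfl | h₂
        · exact absurd rfl hne
        · exact hdis _ h₂
        · exact (hdis _ h₁).symm
        · exact h2 _ h₁ _ h₂ hne
      · intro R' hR'
        rcases Finset.mem_insert.1 hR' with rfl | h
        · exact ⟨S, fun α hα => (Finset.mem_filter.1 hα).2, hS⟩
        · exact h3 R' h
      · intro S'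
        have e : I \ (insert R 𝓡).biUnion id = (I \ R) \ 𝓡.biUnion id := by
          rw [Finset.biUnion_insert, id, Finset.sdiff_union_distrib]
          ext α
          simp only [Finset.mem_inter, Finset.mem_sdiff]
          tauto
        rw [e]
        exact h4 S'

/-- the total weight of disjoint subsets -/
theorem tr_tb_pr_sum_le {ι : Type*} (w : ι → ℝ) (hw : ∀ α, 0 < w α) (I : Finset ι) (𝓡 : Finset (Finset ι)) (h1 : ∀ R ∈ 𝓡, R ⊆ I)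
    (h2 : ∀ R ∈ 𝓡, ∀ R' ∈ 𝓡, R ≠ R' → Disjoint R R') : ∑ R ∈ 𝓡, ∑ α ∈ R, w α ≤ ∑ α ∈ I, w α := by
  have hd : (↑𝓡 : Set (Finset ι)).PairwiseDisjoint id := fun R hR R' hR' hne => h2 R hR R' hR' hne
  have e := Finset.sum_biUnion (f := w) hd
  simp only [id] at e
  rw [← e]
  refine Finset.sum_le_sum_of_subset_of_nonneg ?_ fun α _ _ => (hw α).le
  intro α hα
  obtain ⟨R, hR, hαR⟩ := Finset.mem_biUnion.1 hα
  exact h1 R hR hαR

/-- number of removals with threshold `τ` -/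
theorem tr_tb_pr_card_le {ι : Type*} (w : ι → ℝ) (hw : ∀ α, 0 < w α) (I : Finset ι) (𝓡 : Finset (Finset ι)) (h1 : ∀ R ∈ 𝓡, R ⊆ I)
    (h2 : ∀ R ∈ 𝓡, ∀ R' ∈ 𝓡, R ≠ R' → Disjoint R R') {τ : ℝ} (h3 : ∀ R ∈ 𝓡, τ ≤ ∑ α ∈ R, w α) : (𝓡.card : ℝ) * τ ≤ ∑ α ∈ I, w α := by
  refine le_trans ?_ (tr_tb_pr_sum_le w hw I 𝓡 h1 h2)
  calc (𝓡.card : ℝ) * τ = ∑ _R ∈ 𝓡, τ := by rw [Finset.sum_const, nsmul_eq_mul]
    _ ≤ _ := Finset.sum_le_sum h3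

variable {L R₁ Cp : ℝ} {A : ℕ} {f : E n → ℂ}

/-- the field of `I` = the field of the remainder + the fields of the removed sets -/
theorem tr_tb_pr_split (P : TbPk n L R₁ Cp A f) (I : Finset P.J) (𝓡 : Finset (Finset P.J)) (h1 : ∀ R ∈ 𝓡, R ⊆ I)
    (h2 : ∀ R ∈ 𝓡, ∀ R' ∈ 𝓡, R ≠ R' → Disjoint R R') (z : ST n) :
    ext (P.G I) z = ext (P.G (I \ 𝓡.biUnion id)) z + ∑ R ∈ 𝓡, ext (P.G R) z := by
  have hd : (↑𝓡 : Set (Finset P.J)).PairwiseDisjoint id := fun R hR R' hR' hne => h2 R hR R' hR' hne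
  have hsub : 𝓡.biUnion id ⊆ I := by
    intro α hα
    obtain ⟨R, hR, hαR⟩ := Finset.mem_biUnion.1 hα
    exact h1 R hR hαR
  have e := Finset.sum_biUnion (f := fun α => ext (P.G {α}) z) hd
  simp only [id] at e
  rw [P.add I, P.add (I \ 𝓡.biUnion id), ← Finset.sum_sdiff hsub, e]
  congr 1
  exact Finset.sum_congr rfl fun R _ => (P.add R z).symm

theorem tr_tb_pr_N_add (Z : Finset ((Fin n → ℤ) × ℤ)) (F F' : ST n → ℂ) : tbN Z (fun z => F z + F' z) ≤ 2 * (tbN Z F + tbN Z F') := by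
  have h := tr_tb_N_sum_le Z (Finset.univ : Finset Bool) (fun b => if b then F else F')
  simp only [Fintype.sum_bool, Finset.card_univ, Fintype.card_bool, if_true, Bool.false_eq_true, if_false] at h
  exact_mod_cast h

/-- the square functional of `I` in terms of the remainder and of the removed sets, grouped by a scale `sc` -/
theorem tr_tb_pr_N_le (P : TbPk n L R₁ Cp A f) (Z : Finset ((Fin n → ℤ) × ℤ)) (I : Finset P.J) (𝓡 : Finset (Finset P.J)) (h1 : ∀ R ∈ 𝓡, R ⊆ I)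
    (h2 : ∀ R ∈ 𝓡, ∀ R' ∈ 𝓡, R ≠ R' → Disjoint R R') (sc : Finset P.J → ℕ) (Js : Finset ℕ) (hsc : ∀ R ∈ 𝓡, sc R ∈ Js) :
    tbN Z (ext (P.G I)) ≤ 2 * (tbN Z (ext (P.G (I \ 𝓡.biUnion id))) +
      (Js.card : ℝ≥0∞) * ∑ j ∈ Js, ((𝓡.filter fun R => sc R = j).card : ℝ≥0∞) * ∑ R ∈ 𝓡.filter (fun R => sc R = j), tbN Z (ext (P.G R))) := by
  have e : ∀ z, ext (P.G I) z = ext (P.G (I \ 𝓡.biUnion id)) z + ∑ j ∈ Js, ∑ R ∈ 𝓡.filter (fun R => sc R = j), ext (P.G R) z := by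
    intro z
    rw [tr_tb_pr_split P I 𝓡 h1 h2 z, Finset.sum_fiberwise_of_maps_to hsc]
  rw [tr_tb_N_congr Z e]
  refine (tr_tb_pr_N_add Z _ _).trans ?_
  gcongr
  refine (tr_tb_N_sum_le Z Js _).trans ?_
  gcongr with j _
  exact tr_tb_N_sum_le Z _ _

/-- one removed set -/
theorem tr_tb_pr_piece {b c₀ ε₁ αj C Γ : ℝ} (hb : 0 ≤ b) (hSt : StripSaveWith n R₁ 6 αj b c₀ ε₁ C) (hα0 : 0 ≤ αj) (hα1 : αj ≤ 1)
    (P : TbPk n L R₁ Cp A f) (hL : 1 ≤ L) (hCpL : Cp / L ≤ L ^ (-αj)) (hΓ : 0 ≤ Γ) {Z : Finset ((Fin n → ℤ) × ℤ)} (τ₀ : ℤ)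
    (hτ : ∀ q ∈ Z, |(q.2 : ℝ) - τ₀| + 1 ≤ 3 * L) (hZ : TbCount Z Γ) (R : Finset P.J) (a a' : E n) (α₀ β₀ : ℝ) (ha : ‖a‖ = 1) (ha' : ‖a'‖ = 1)
    (haa : ⟪a, a'⟫_ℝ = 0) (hR : ∀ T ∈ R, |⟪a, P.om T⟫_ℝ - α₀| ≤ L ^ (-αj) ∧ |⟪a', P.om T⟫_ℝ - β₀| ≤ L ^ (-αj)) :
    tbN Z (ext (P.G R)) ≤ ENNReal.ofReal (max C 0 * Γ ^ b * (3 * L) ^ ((n : ℝ) / ((n : ℝ) + 1) - c₀ * αj + ε₁) * (Cp * P.W R)) := by
  have hL0 : 0 < L := by linarith
  have hN : Orthonormal ℝ ![a, a'] := by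
    refine ⟨fun i => ?_, fun i j hij => ?_⟩
    · fin_cases i
      · simpa using ha
      · simpa using ha'
    · fin_cases i <;> fin_cases j
      · exact absurd rfl hij
      · simpa using haa
      · simpa [real_inner_comm] using haa
      · exact absurd rfl hij
  have h6 : 2 * L ^ (-αj) ≤ 6 * (3 * L) ^ (-αj) := by
    rw [Real.mul_rpow (by norm_num) hL0.le]
    have h3 : (1 / 3 : ℝ) ≤ (3 : ℝ) ^ (-αj) := by
      calc (1 / 3 : ℝ) = (3 : ℝ) ^ (-1 : ℝ) := by rw [Real.rpow_neg_one]; norm_num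
        _ ≤ _ := Real.rpow_le_rpow_of_exponent_le (by norm_num) (by linarith)
    have hp : 0 ≤ L ^ (-αj) := Real.rpow_nonneg hL0.le _
    nlinarith
  have key : ∀ (u : E n) (γ : ℝ) (ξ : E n) (T : P.J), ‖u‖ = 1 → ‖ξ - P.om T‖ ≤ Cp / L → |⟪u, P.om T⟫_ℝ - γ| ≤ L ^ (-αj) → |⟪u, ξ⟫_ℝ - γ| ≤ 6 * (3 * L) ^ (-αj) := by
    intro u γ ξ T hu h1 h2
    have e : ⟪u, ξ⟫_ℝ - γ = ⟪u, ξ - P.om T⟫_ℝ + (⟪u, P.om T⟫_ℝ - γ) := by rw [inner_sub_right]; ring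
    have h3 : |⟪u, ξ - P.om T⟫_ℝ| ≤ ‖ξ - P.om T‖ := by
      have := abs_real_inner_le_norm u (ξ - P.om T)
      rwa [hu, one_mul] at this
    rw [e]
    refine (abs_add_le _ _).trans ?_
    linarith
  have hs : ∀ ξ, P.G R ξ ≠ 0 → ∀ i, |inner ℝ (![a, a'] i) ξ - ![α₀, β₀] i| ≤ 6 * (3 * L) ^ (-αj) := by
    intro ξ hξ i
    obtain ⟨T, hT, hTξ⟩ := P.supp R ξ hξ
    fin_cases i
    · exact key a α₀ ξ T ha hTξ (hR T hT).1
    · exact key a' β₀ ξ T ha' hTξ (hR T hT).2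
  refine (tr_tb_strip hb hSt (by linarith) hΓ τ₀ hτ hZ (P.dat R) ![a, a'] ![α₀, β₀] hN hs).trans (ENNReal.ofReal_le_ofReal ?_)
  have hint : 0 ≤ ∫ ξ, ‖P.G R ξ‖ ^ 2 := integral_nonneg fun _ => sq_nonneg _
  have hX : 0 ≤ Γ ^ b * (3 * L) ^ ((n : ℝ) / ((n : ℝ) + 1) - c₀ * αj + ε₁) := by positivity
  calc C * Γ ^ b * (3 * L) ^ ((n : ℝ) / ((n : ℝ) + 1) - c₀ * αj + ε₁) * ∫ ξ, ‖P.G R ξ‖ ^ 2
      = C * ((Γ ^ b * (3 * L) ^ ((n : ℝ) / ((n : ℝ) + 1) - c₀ * αj + ε₁)) * ∫ ξ, ‖P.G R ξ‖ ^ 2) := by ring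
    _ ≤ max C 0 * ((Γ ^ b * (3 * L) ^ ((n : ℝ) / ((n : ℝ) + 1) - c₀ * αj + ε₁)) * ∫ ξ, ‖P.G R ξ‖ ^ 2) :=
        mul_le_mul_of_nonneg_right (le_max_left _ _) (mul_nonneg hX hint)
    _ ≤ max C 0 * ((Γ ^ b * (3 * L) ^ ((n : ℝ) / ((n : ℝ) + 1) - c₀ * αj + ε₁)) * (Cp * P.W R)) := by
        gcongr
        exact P.l2 R
    _ = _ := by ring

/-- the remainder -/
theorem tr_tb_pr_rest {ε₁ C Γ : ℝ} (hFr : FractalWith n R₁ ε₁ C) (P : TbPk n L R₁ Cp A f) (hL : 1 ≤ L) (hΓ : 0 ≤ Γ) {Z : Finset ((Fin n → ℤ) × ℤ)} (τ₀ : ℤ)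
    (hτ : ∀ q ∈ Z, |(q.2 : ℝ) - τ₀| + 1 ≤ 3 * L) (hZ : TbCount Z Γ) (R : Finset P.J) :
    tbN Z (ext (P.G R)) ≤ ENNReal.ofReal (max C 0 * Γ ^ bet n * (3 * L) ^ ((n : ℝ) / ((n : ℝ) + 1) + ε₁) * (Cp * P.W R)) := by
  have hL0 : 0 < L := by linarith
  refine (tr_tb_frac hFr (by linarith) hΓ τ₀ hτ hZ (P.dat R)).trans (ENNReal.ofReal_le_ofReal ?_)
  have hint : 0 ≤ ∫ ξ, ‖P.G R ξ‖ ^ 2 := integral_nonneg fun _ => sq_nonneg _
  have hX : 0 ≤ Γ ^ bet n * (3 * L) ^ ((n : ℝ) / ((n : ℝ) + 1) + ε₁) := by positivity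
  calc C * Γ ^ bet n * (3 * L) ^ ((n : ℝ) / ((n : ℝ) + 1) + ε₁) * ∫ ξ, ‖P.G R ξ‖ ^ 2
      = C * ((Γ ^ bet n * (3 * L) ^ ((n : ℝ) / ((n : ℝ) + 1) + ε₁)) * ∫ ξ, ‖P.G R ξ‖ ^ 2) := by ring
    _ ≤ max C 0 * ((Γ ^ bet n * (3 * L) ^ ((n : ℝ) / ((n : ℝ) + 1) + ε₁)) * ∫ ξ, ‖P.G R ξ‖ ^ 2) :=
        mul_le_mul_of_nonneg_right (le_max_left _ _) (mul_nonneg hX hint)
    _ ≤ max C 0 * ((Γ ^ bet n * (3 * L) ^ ((n : ℝ) / ((n : ℝ) + 1) + ε₁)) * (Cp * P.W R)) := by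
        gcongr
        exact P.l2 R
    _ = _ := by ring

theorem tr_tb_pr_large (K δ : ℝ) (hδ : 0 < δ) : ∃ L₀ : ℝ, 1 ≤ L₀ ∧ ∀ L, L₀ ≤ L → K ≤ L ^ δ := by
  refine ⟨max 1 ((max K 0) ^ (1 / δ)), le_max_left _ _, fun L hL => ?_⟩
  have h0 : (0 : ℝ) ≤ max K 0 := le_max_right _ _
  have h1 : (max K 0) ^ (1 / δ) ≤ L := (le_max_right _ _).trans hL
  calc K ≤ max K 0 := le_max_left _ _
    _ = ((max K 0) ^ (1 / δ)) ^ δ := by rw [← Real.rpow_mul h0, one_div, inv_mul_cancel₀ hδ.ne', Real.rpow_one]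
    _ ≤ L ^ δ := Real.rpow_le_rpow (Real.rpow_nonneg h0 _) h1 hδ.le

theorem tr_tb_pr_three {L y : ℝ} (hL : 1 ≤ L) (hy : y ≤ 2) : (3 * L) ^ y ≤ 9 * L ^ y := by
  have hL0 : 0 ≤ L := by linarith
  rw [Real.mul_rpow (by norm_num) hL0]
  have h3 : (3 : ℝ) ^ y ≤ 9 := by
    calc (3 : ℝ) ^ y ≤ (3 : ℝ) ^ (2 : ℝ) := Real.rpow_le_rpow_of_exponent_le (by norm_num) hy
      _ = 9 := by rw [Real.rpow_two]; norm_num
  exact mul_le_mul_of_nonneg_right h3 (Real.rpow_nonneg hL0 _)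

theorem tr_tb_pr_pow {L c s b : ℝ} (hL : 1 ≤ L) (hc : 0 ≤ c) (hcs : c ≤ s) (hb1 : b ≤ 1) : (L ^ c) ^ b ≤ L ^ s := by
  rw [← Real.rpow_mul (by linarith)]
  refine Real.rpow_le_rpow_of_exponent_le hL ?_
  nlinarith

theorem tr_tb_pr_num1 {L c s b x e g c₀ c₁ αj Cm C Cp : ℝ} (hL : 1 ≤ L) (hc : 0 ≤ c) (hcs : c ≤ s) (hs1 : s ≤ 1) (hb1 : b ≤ 1) (hx : x ≤ 1)
    (hC0 : 0 ≤ C) (hC : C ≤ Cm) (hCp : 0 ≤ Cp) (hc₀α : 0 ≤ c₀ * αj) (hg : g ≤ (c₀ - c₁) * αj) :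
    L ^ (c₁ * αj) * (C * (L ^ c) ^ b * (3 * L) ^ (x - c₀ * αj + s) * (Cp * L ^ (-e + s))) ≤ 9 * Cm * Cp * L ^ (x - e - g + 3 * s) := by
  have hL0 : 0 < L := by linarith
  have h1 := tr_tb_pr_pow hL hc hcs hb1
  have h2 : (3 * L) ^ (x - c₀ * αj + s) ≤ 9 * L ^ (x - c₀ * αj + s) := tr_tb_pr_three hL (by linarith)
  have hp : ∀ y : ℝ, 0 < L ^ y := fun y => Real.rpow_pos_of_pos hL0 y
  have hq : 0 ≤ (L ^ c) ^ b := Real.rpow_nonneg (hp c).le _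
  have hq3 : 0 ≤ (3 * L) ^ (x - c₀ * αj + s) := Real.rpow_nonneg (by positivity) _
  calc L ^ (c₁ * αj) * (C * (L ^ c) ^ b * (3 * L) ^ (x - c₀ * αj + s) * (Cp * L ^ (-e + s)))
      ≤ L ^ (c₁ * αj) * (Cm * L ^ s * (9 * L ^ (x - c₀ * αj + s)) * (Cp * L ^ (-e + s))) := by
        have := (hp (c₁ * αj)).le
        have := (hp (-e + s)).le
        have := (hp s).le
        have hCm : 0 ≤ Cm := hC0.trans hC
        gcongr
    _ = 9 * Cm * Cp * (L ^ (c₁ * αj) * L ^ s * L ^ (x - c₀ * αj + s) * L ^ (-e + s)) := by ring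
    _ = 9 * Cm * Cp * L ^ (c₁ * αj + s + (x - c₀ * αj + s) + (-e + s)) := by
        rw [← Real.rpow_add hL0, ← Real.rpow_add hL0, ← Real.rpow_add hL0]
    _ ≤ 9 * Cm * Cp * L ^ (x - e - g + 3 * s) := by
        have hCm : 0 ≤ Cm := hC0.trans hC
        refine mul_le_mul_of_nonneg_left (Real.rpow_le_rpow_of_exponent_le hL ?_) (by positivity)
        nlinarith

theorem tr_tb_pr_num2 {L c s ε x e nn g k CF Cp Cm Zc W' β : ℝ} (hL : 1 ≤ L) (hc : 0 ≤ c) (hcs : c ≤ s) (hs1 : s ≤ 1) (hβ1 : β ≤ 1) (hx : x ≤ 1)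
    (hne : nn - 2 * e = x - e) (hCF : 0 ≤ CF) (hCp : 0 ≤ Cp) (hW' : 0 ≤ W') (hZ : L ^ (nn - s) ≤ Zc)
    (hmain : Zc * (L ^ (-e - c) / 2) ^ 2 ≤ 2 * (CF * (L ^ c) ^ β * (3 * L) ^ (x + s) * (Cp * W') + k * (k * (9 * Cm * Cp * L ^ (x - e - g + 3 * s)))))
    (hN2 : 144 * k ^ 2 * Cm * Cp ≤ L ^ (g - 6 * s)) (hN3 : 144 * CF * Cp ≤ L ^ (ε / 4 - 5 * s)) :
    L ^ (-e - ε / 4) ≤ W' := by
  have hL0 : 0 < L := by linarith
  have hp : ∀ y : ℝ, 0 < L ^ y := fun y => Real.rpow_pos_of_pos hL0 y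
  -- a)
  have ha : L ^ (x - e - 3 * s) / 4 ≤ Zc * (L ^ (-e - c) / 2) ^ 2 := by
    have e1 : (L ^ (-e - c) / 2) ^ 2 = L ^ (-2 * e - 2 * c) / 4 := by
      rw [div_pow, ← Real.rpow_natCast (L ^ (-e - c)) 2, ← Real.rpow_mul hL0.le]
      norm_num
      ring_nf
    rw [e1]
    calc L ^ (x - e - 3 * s) / 4 ≤ L ^ ((nn - s) + (-2 * e - 2 * c)) / 4 := by
          refine div_le_div_of_nonneg_right (Real.rpow_le_rpow_of_exponent_le hL ?_) (by norm_num)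
          nlinarith
      _ = L ^ (nn - s) * (L ^ (-2 * e - 2 * c) / 4) := by rw [Real.rpow_add hL0]; ring
      _ ≤ Zc * (L ^ (-2 * e - 2 * c) / 4) := by
          have := (hp (-2 * e - 2 * c)).le
          gcongr
  -- b)
  have hb : 2 * (k * (k * (9 * Cm * Cp * L ^ (x - e - g + 3 * s)))) ≤ L ^ (x - e - 3 * s) / 8 := by
    calc 2 * (k * (k * (9 * Cm * Cp * L ^ (x - e - g + 3 * s)))) = (144 * k ^ 2 * Cm * Cp) * L ^ (x - e - g + 3 * s) / 8 := by ring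
      _ ≤ L ^ (g - 6 * s) * L ^ (x - e - g + 3 * s) / 8 := by
          have := (hp (x - e - g + 3 * s)).le
          gcongr
      _ = L ^ (x - e - 3 * s) / 8 := by rw [← Real.rpow_add hL0]; ring_nf
  -- c)
  have hc' : CF * (L ^ c) ^ β * (3 * L) ^ (x + s) * (Cp * W') ≤ 9 * CF * Cp * L ^ (x + 2 * s) * W' := by
    have h1 := tr_tb_pr_pow hL hc hcs hβ1
    have h2 : (3 * L) ^ (x + s) ≤ 9 * L ^ (x + s) := tr_tb_pr_three hL (by linarith)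
    have hq : 0 ≤ (L ^ c) ^ β := Real.rpow_nonneg (hp c).le _
    have hq3 : 0 ≤ (3 * L) ^ (x + s) := Real.rpow_nonneg (by positivity) _
    calc CF * (L ^ c) ^ β * (3 * L) ^ (x + s) * (Cp * W') ≤ CF * L ^ s * (9 * L ^ (x + s)) * (Cp * W') := by
          have := (hp s).le
          gcongr
      _ = 9 * CF * Cp * (L ^ s * L ^ (x + s)) * W' := by ring
      _ = 9 * CF * Cp * L ^ (x + 2 * s) * W' := by rw [← Real.rpow_add hL0]; ring_nf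
  have hd : L ^ (x - e - 3 * s) ≤ 144 * CF * Cp * L ^ (x + 2 * s) * W' := by nlinarith
  have he : L ^ (x - e - 3 * s) ≤ L ^ (ε / 4 - 5 * s) * L ^ (x + 2 * s) * W' := by
    refine hd.trans ?_
    have := (hp (x + 2 * s)).le
    gcongr
  rw [← Real.rpow_add hL0] at he
  have hf : L ^ (-e - ε / 4) * L ^ (ε / 4 - 5 * s + (x + 2 * s)) ≤ W' * L ^ (ε / 4 - 5 * s + (x + 2 * s)) := by
    rw [← Real.rpow_add hL0, mul_comm W']
    refine le_trans (le_of_eq ?_) he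
    congr 1
    ring
  exact le_of_mul_le_mul_right hf (hp _)


/-- **the core of the pruning at a fixed scale `L`**, explicit constants -/
theorem tr_tb_pr_core {b c₀ c₁ η s g ε CF Cm c : ℝ} (Js : Finset ℕ) (Cj : ℕ → ℝ)
    (hb0 : 0 ≤ b) (hb1 : b ≤ 1) (hβ1 : bet n ≤ 1) (hc₀ : 0 < c₀) (hc01 : c₁ ≤ c₀) (hη : 0 < η) (hg : g = (c₀ - c₁) * η) (hs1 : s ≤ 1)
    (hJs : ∀ j ∈ Js, 1 ≤ j ∧ (j : ℝ) * η < 1 / 8) (hCj : ∀ j ∈ Js, StripSaveWith n R₁ 6 ((j : ℝ) * η) b c₀ s (Cj j))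
    (hCm : ∀ j ∈ Js, max (Cj j) 0 ≤ Cm) (hCF : FractalWith n R₁ s CF) (hL : 1 ≤ L) (hCpL : Cp ≤ L ^ (7 / 8 : ℝ))
    (hN2 : 144 * (Js.card : ℝ) ^ 2 * Cm * Cp ≤ L ^ (g - 6 * s)) (hN3 : 144 * max CF 0 * Cp ≤ L ^ (ε / 4 - 5 * s))
    (Z : Finset ((Fin n → ℤ) × ℤ)) (τ₀ : ℤ) (P : TbPk n L R₁ Cp A f) (I : Finset P.J) (hc : 0 ≤ c) (hcs : c ≤ s) (hZ : TbCount Z (L ^ c))
    (hτ : ∀ q ∈ Z, |(q.2 : ℝ) - τ₀| + 1 ≤ 3 * L) (hcard : L ^ ((n : ℝ) - s) ≤ (Z.card : ℝ))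
    (hbig : ∀ q ∈ Z, ∃ z ∈ cube q, L ^ (-(eex n) - c) / 2 ≤ ‖ext (P.G I) z‖) (hW : P.W I ≤ L ^ (-(eex n) + s)) :
    ∃ I' ⊆ I, L ^ (-(eex n) - ε / 4) ≤ P.W I' ∧
      ∀ j ∈ Js, ∀ (a a' : E n) (α₀ β₀ : ℝ), ‖a‖ = 1 → ‖a'‖ = 1 → ⟪a, a'⟫_ℝ = 0 →
        ∑ T ∈ I' with |⟪a, P.om T⟫_ℝ - α₀| ≤ L ^ (-((j : ℝ) * η)) ∧ |⟪a', P.om T⟫_ℝ - β₀| ≤ L ^ (-((j : ℝ) * η)), P.w T ≤
          L ^ (-c₁ * ((j : ℝ) * η)) * L ^ (-(eex n) + s) := by
  have hL0 : 0 < L := by linarith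
  have hp : ∀ y : ℝ, 0 < L ^ y := fun y => Real.rpow_pos_of_pos hL0 y
  have hCp0 : 0 ≤ Cp := by simpa using P.w_sum ∅
  have hΓ : 0 ≤ L ^ c := (hp c).le
  obtain ⟨x, hxdef⟩ : ∃ x : ℝ, x = (n : ℝ) / ((n : ℝ) + 1) := ⟨_, rfl⟩
  have hn0 : (0 : ℝ) ≤ n := Nat.cast_nonneg n
  have hx1 : x ≤ 1 := by rw [hxdef, div_le_one (by positivity)]; linarith
  have hne : (n : ℝ) - 2 * eex n = x - eex n := by
    rw [hxdef]; unfold eex
    field_simp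
    ring
  obtain ⟨mem, hmem⟩ : ∃ mem : (ℕ × E n × E n × ℝ × ℝ) → P.J → Prop, ∀ S T, mem S T ↔
      ((S.1 ∈ Js ∧ ‖S.2.1‖ = 1 ∧ ‖S.2.2.1‖ = 1 ∧ ⟪S.2.1, S.2.2.1⟫_ℝ = 0) ∧
        |⟪S.2.1, P.om T⟫_ℝ - S.2.2.2.1| ≤ L ^ (-((S.1 : ℝ) * η)) ∧ |⟪S.2.2.1, P.om T⟫_ℝ - S.2.2.2.2| ≤ L ^ (-((S.1 : ℝ) * η))) := ⟨_, fun _ _ => Iff.rfl⟩
  obtain ⟨τ, hτdef⟩ : ∃ τ : (ℕ × E n × E n × ℝ × ℝ) → ℝ, ∀ S, τ S = L ^ (-c₁ * ((S.1 : ℝ) * η)) * L ^ (-(eex n) + s) := ⟨_, fun _ => rfl⟩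
  have hτpos : ∀ S, 0 < τ S := fun S => by rw [hτdef]; exact mul_pos (hp _) (hp _)
  obtain ⟨𝓡, h1, h2, h3, h4⟩ := tr_tb_pr_greedy P.w P.w_pos mem τ (fun S => (hτpos S).le) I.card I le_rfl
  choose! St hSt using h3
  refine ⟨I \ 𝓡.biUnion id, Finset.sdiff_subset, ?_, ?_⟩
  · -- lower bound of the surviving weight
    have hval : ∀ R ∈ 𝓡, (St R).1 ∈ Js ∧ ‖(St R).2.1‖ = 1 ∧ ‖(St R).2.2.1‖ = 1 ∧ ⟪(St R).2.1, (St R).2.2.1⟫_ℝ = 0 := by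
      intro R hR
      have hne' : R.Nonempty := by
        by_contra hcon
        rw [Finset.not_nonempty_iff_eq_empty] at hcon
        have := (hSt R hR).2
        rw [hcon, Finset.sum_empty] at this
        exact absurd this (not_lt.2 (hτpos _).le)
      obtain ⟨T, hT⟩ := hne'
      exact ((hmem _ _).1 ((hSt R hR).1 T hT)).1
    have hNle := tr_tb_pr_N_le P Z I 𝓡 h1 h2 (fun R => (St R).1) Js (fun R hR => (hval R hR).1)
    have hscale : ∀ j ∈ Js, ((𝓡.filter fun R => (St R).1 = j).card : ℝ≥0∞) * ∑ R ∈ 𝓡.filter (fun R => (St R).1 = j), tbN Z (ext (P.G R)) ≤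
        ENNReal.ofReal (9 * Cm * Cp * L ^ (x - eex n - g + 3 * s)) := by
      intro j hj
      obtain ⟨hj1, hj8⟩ := hJs j hj
      have hj1' : (1 : ℝ) ≤ j := by exact_mod_cast hj1
      have hα0 : 0 ≤ (j : ℝ) * η := by positivity
      have hsubj : ∀ R ∈ 𝓡.filter (fun R => (St R).1 = j), R ⊆ I := fun R hR => h1 R (Finset.mem_filter.1 hR).1
      have hdisj : ∀ R ∈ 𝓡.filter (fun R => (St R).1 = j), ∀ R' ∈ 𝓡.filter (fun R => (St R).1 = j), R ≠ R' → Disjoint R R' :=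
        fun R hR R' hR' => h2 R (Finset.mem_filter.1 hR).1 R' (Finset.mem_filter.1 hR').1
      have hcj : ((𝓡.filter fun R => (St R).1 = j).card : ℝ) * (L ^ (-c₁ * ((j : ℝ) * η)) * L ^ (-(eex n) + s)) ≤ P.W I := by
        refine tr_tb_pr_card_le P.w P.w_pos I _ hsubj hdisj fun R hR => ?_
        obtain ⟨hR1, hR2⟩ := Finset.mem_filter.1 hR
        have := (hSt R hR1).2
        rw [hτdef, hR2] at this
        exact this.le
      have hcj' : ((𝓡.filter fun R => (St R).1 = j).card : ℝ) ≤ L ^ (c₁ * ((j : ℝ) * η)) := by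
        have h5 : ((𝓡.filter fun R => (St R).1 = j).card : ℝ) * L ^ (-c₁ * ((j : ℝ) * η)) * L ^ (-(eex n) + s) ≤ 1 * L ^ (-(eex n) + s) := by
          rw [one_mul, mul_assoc]; exact hcj.trans hW
        have h6 := le_of_mul_le_mul_right h5 (hp _)
        have h7 : L ^ (-c₁ * ((j : ℝ) * η)) * L ^ (c₁ * ((j : ℝ) * η)) = 1 := by
          rw [← Real.rpow_add hL0]; simp
        calc ((𝓡.filter fun R => (St R).1 = j).card : ℝ)
            = ((𝓡.filter fun R => (St R).1 = j).card : ℝ) * L ^ (-c₁ * ((j : ℝ) * η)) * L ^ (c₁ * ((j : ℝ) * η)) := by rw [mul_assoc, h7, mul_one]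
          _ ≤ 1 * L ^ (c₁ * ((j : ℝ) * η)) := mul_le_mul_of_nonneg_right h6 (hp _).le
          _ = _ := one_mul _
      have hCpL' : Cp / L ≤ L ^ (-((j : ℝ) * η)) := by
        rw [div_le_iff₀ hL0]
        calc Cp ≤ L ^ (7 / 8 : ℝ) := hCpL
          _ ≤ L ^ (-((j : ℝ) * η) + 1) := Real.rpow_le_rpow_of_exponent_le hL (by linarith)
          _ = L ^ (-((j : ℝ) * η)) * L := by rw [Real.rpow_add hL0, Real.rpow_one]
      obtain ⟨Vj, hVj⟩ : ∃ Vj : ℝ, Vj = max (Cj j) 0 * (L ^ c) ^ b * (3 * L) ^ (x - c₀ * ((j : ℝ) * η) + s) := ⟨_, rfl⟩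
      have hVj0 : 0 ≤ Vj := by
        rw [hVj]
        have : 0 ≤ max (Cj j) 0 := le_max_right _ _
        positivity
      have hpiece : ∀ R ∈ 𝓡.filter (fun R => (St R).1 = j), tbN Z (ext (P.G R)) ≤ ENNReal.ofReal (Vj * (Cp * P.W R)) := by
        intro R hR
        obtain ⟨hR1, hR2⟩ := Finset.mem_filter.1 hR
        obtain ⟨-, hv1, hv2, hv3⟩ := hval R hR1
        rw [hVj, hxdef]
        refine tr_tb_pr_piece hb0 (hCj j hj) hα0 (by linarith) P hL hCpL' hΓ τ₀ hτ hZ R (St R).2.1 (St R).2.2.1 (St R).2.2.2.1 (St R).2.2.2.2 hv1 hv2 hv3 fun T hT => ?_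
        have := ((hmem _ _).1 ((hSt R hR1).1 T hT)).2
        rwa [hR2] at this
      have hWnn : ∀ R : Finset P.J, 0 ≤ P.W R := fun R => Finset.sum_nonneg fun T _ => (P.w_pos T).le
      have hsum : ∑ R ∈ 𝓡.filter (fun R => (St R).1 = j), tbN Z (ext (P.G R)) ≤ ENNReal.ofReal (Vj * (Cp * L ^ (-(eex n) + s))) := by
        calc ∑ R ∈ 𝓡.filter (fun R => (St R).1 = j), tbN Z (ext (P.G R))
            ≤ ∑ R ∈ 𝓡.filter (fun R => (St R).1 = j), ENNReal.ofReal (Vj * (Cp * P.W R)) := Finset.sum_le_sum hpiece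
          _ = ENNReal.ofReal (∑ R ∈ 𝓡.filter (fun R => (St R).1 = j), Vj * (Cp * P.W R)) :=
              (ENNReal.ofReal_sum_of_nonneg fun R _ => mul_nonneg hVj0 (mul_nonneg hCp0 (hWnn R))).symm
          _ ≤ _ := by
              refine ENNReal.ofReal_le_ofReal ?_
              rw [← Finset.mul_sum, ← Finset.mul_sum]
              have h8 : ∑ R ∈ 𝓡.filter (fun R => (St R).1 = j), P.W R ≤ P.W I := tr_tb_pr_sum_le P.w P.w_pos I _ hsubj hdisj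
              exact mul_le_mul_of_nonneg_left (mul_le_mul_of_nonneg_left (h8.trans hW) hCp0) hVj0
      calc ((𝓡.filter fun R => (St R).1 = j).card : ℝ≥0∞) * ∑ R ∈ 𝓡.filter (fun R => (St R).1 = j), tbN Z (ext (P.G R))
          ≤ ENNReal.ofReal (L ^ (c₁ * ((j : ℝ) * η))) * ENNReal.ofReal (Vj * (Cp * L ^ (-(eex n) + s))) := by
            refine mul_le_mul' ?_ hsum
            rw [← ENNReal.ofReal_natCast]
            exact ENNReal.ofReal_le_ofReal hcj'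
        _ = ENNReal.ofReal (L ^ (c₁ * ((j : ℝ) * η)) * (Vj * (Cp * L ^ (-(eex n) + s)))) := (ENNReal.ofReal_mul (hp _).le).symm
        _ ≤ _ := by
            refine ENNReal.ofReal_le_ofReal ?_
            rw [hVj]
            refine tr_tb_pr_num1 hL hc hcs hs1 hb1 hx1 (le_max_right _ _) (hCm j hj) hCp0 (by positivity) ?_
            rw [hg]
            have h00 : 0 ≤ c₀ - c₁ := by linarith
            exact mul_le_mul_of_nonneg_left (by nlinarith [hj1', hη] : η ≤ (j : ℝ) * η) h00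
    have hlow := tr_tb_N_lower Z (ext (P.G I)) (a := L ^ (-(eex n) - c) / 2) (by have := hp (-(eex n) - c); positivity) hbig
    have hrest := tr_tb_pr_rest hCF P hL hΓ τ₀ hτ hZ (I \ 𝓡.biUnion id)
    have hW'nn : 0 ≤ P.W (I \ 𝓡.biUnion id) := Finset.sum_nonneg fun T _ => (P.w_pos T).le
    obtain ⟨M, hM⟩ : ∃ M : ℝ, M = 9 * Cm * Cp * L ^ (x - eex n - g + 3 * s) := ⟨_, rfl⟩
    obtain ⟨U, hU⟩ : ∃ U : ℝ, U = max CF 0 * (L ^ c) ^ bet n * (3 * L) ^ (x + s) * (Cp * P.W (I \ 𝓡.biUnion id)) := ⟨_, rfl⟩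
    have hU0 : 0 ≤ U := by
      rw [hU]
      have : 0 ≤ max CF 0 := le_max_right _ _
      positivity
    have hchain : ENNReal.ofReal ((Z.card : ℝ) * (L ^ (-(eex n) - c) / 2) ^ 2) ≤ ENNReal.ofReal (2 * (U + (Js.card : ℝ) * ((Js.card : ℝ) * max M 0))) := by
      refine hlow.trans (hNle.trans ?_)
      have h9 : ∑ j ∈ Js, ((𝓡.filter fun R => (St R).1 = j).card : ℝ≥0∞) * ∑ R ∈ 𝓡.filter (fun R => (St R).1 = j), tbN Z (ext (P.G R)) ≤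
          (Js.card : ℝ≥0∞) * ENNReal.ofReal (max M 0) := by
        calc _ ≤ ∑ _j ∈ Js, ENNReal.ofReal (max M 0) :=
              Finset.sum_le_sum fun j hj => (hscale j hj).trans (ENNReal.ofReal_le_ofReal (by rw [← hM]; exact le_max_left _ _))
          _ = _ := by rw [Finset.sum_const, nsmul_eq_mul]
      have hM0 : 0 ≤ max M 0 := le_max_right _ _
      have e2 : (2 : ℝ≥0∞) = ENNReal.ofReal 2 := by norm_num
      rw [ENNReal.ofReal_mul (by norm_num), ENNReal.ofReal_add hU0 (by positivity), ENNReal.ofReal_mul (Nat.cast_nonneg _),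
        ENNReal.ofReal_mul (Nat.cast_nonneg _), ENNReal.ofReal_natCast, ← e2]
      refine mul_le_mul' le_rfl (add_le_add ?_ (mul_le_mul' le_rfl h9))
      rw [hU, hxdef]
      exact hrest
    have hreal := (ENNReal.ofReal_le_ofReal_iff (by have : 0 ≤ max M 0 := le_max_right _ _; positivity)).1 hchain
    by_cases hJe : Js = ∅
    · -- no scale: `M` does not matter
      refine tr_tb_pr_num2 (k := 0) (Cm := 0) (g := g) hL hc hcs hs1 (β := bet n) hβ1 hx1 hne (le_max_right CF 0) hCp0 hW'nn hcard ?_ ?_ hN3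
      · rw [hJe] at hreal
        simp only [Finset.card_empty, Nat.cast_zero, zero_mul, add_zero] at hreal
        rw [hU] at hreal
        simpa using hreal
      · simpa using (hp _).le
    · obtain ⟨j₀, hj₀⟩ := Finset.nonempty_iff_ne_empty.2 hJe
      have hCm0 : 0 ≤ Cm := (le_max_right _ _).trans (hCm j₀ hj₀)
      have hMM : max M 0 = M := max_eq_left (by rw [hM]; have := hp (x - eex n - g + 3 * s); positivity)
      rw [hMM, hU, hM] at hreal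
      refine tr_tb_pr_num2 (k := (Js.card : ℝ)) (Cm := Cm) (g := g) hL hc hcs hs1 (β := bet n) hβ1 hx1 hne (le_max_right CF 0) hCp0 hW'nn hcard hreal hN2 hN3
  · intro j hj a a' α₀ β₀ ha ha' haa
    have := h4 (j, a, a', α₀, β₀)
    rw [hτdef] at this
    refine le_trans (le_of_eq ?_) this
    refine Finset.sum_congr (Finset.filter_congr fun T _ => ?_) fun _ _ => rfl
    rw [hmem]
    simp only
    tauto


/-- **EXIT of B6.** -/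
theorem tr_tb_prune (hn : 2 ≤ n) (hFr : FractalStmt n) (hSt : StripSaveStmt n) : ∃ c₁ : ℝ, 0 < c₁ ∧ c₁ ≤ 1 ∧ ∀ R₀ ε : ℝ, 0 ≤ R₀ → 0 < ε → ε ≤ 1 →
    ∃ s : ℝ, 0 < s ∧ ∀ (Cp : ℝ) (A : ℕ), ∃ L₀ : ℝ, ∀ (L c : ℝ) (Z : Finset ((Fin n → ℤ) × ℤ)) (τ₀ : ℤ) (f : E n → ℂ)
      (P : TbPk n L (R₀ + 1) Cp A f) (I : Finset P.J), L₀ ≤ L → 0 ≤ c → c ≤ s → TbCount Z (L ^ c) → (∀ q ∈ Z, |(q.2 : ℝ) - τ₀| + 1 ≤ 3 * L) →
      L ^ ((n : ℝ) - s) ≤ (Z.card : ℝ) → (∀ q ∈ Z, ∃ z ∈ cube q, L ^ (-(eex n) - c) / 2 ≤ ‖ext (P.G I) z‖) → P.W I ≤ L ^ (-(eex n) + s) →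
      ∃ I' ⊆ I, L ^ (-(eex n) - ε) ≤ P.W I' ∧
        ∀ (a b : E n) (α₀ β₀ α : ℝ), ‖a‖ = 1 → ‖b‖ = 1 → ⟪a, b⟫_ℝ = 0 → 0 ≤ α → α ≤ 1 / 8 →
          ∑ T ∈ I' with |⟪a, P.om T⟫_ℝ - α₀| ≤ L ^ (-α) ∧ |⟪b, P.om T⟫_ℝ - β₀| ≤ L ^ (-α), P.w T ≤ L ^ (-c₁ * α + ε) * P.W I' := by
  have hn' : (2 : ℝ) ≤ n := by exact_mod_cast hn
  have hn0 : (0 : ℝ) < n := by linarith
  obtain ⟨b, hbdef⟩ : ∃ b : ℝ, b = (bet n + 2 / n) / 2 := ⟨_, rfl⟩
  have hbet : bet n < 2 / n := by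
    unfold bet
    exact div_lt_div_of_pos_left (by norm_num) hn0 (by linarith)
  have hbet0 : 0 < bet n := by unfold bet; positivity
  have hβ1 : bet n ≤ 1 := by unfold bet; rw [div_le_one (by positivity)]; linarith
  have h2n : 2 / (n : ℝ) ≤ 1 := by rw [div_le_one hn0]; exact hn'
  have hb1 : bet n < b := by rw [hbdef]; linarith
  have hb2 : b * n < 2 := by
    have : b < 2 / n := by rw [hbdef]; linarith
    rwa [lt_div_iff₀ hn0] at this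
  have hb0 : 0 ≤ b := by linarith
  have hb1' : b ≤ 1 := by rw [hbdef]; linarith
  obtain ⟨c₀, hc₀, hS⟩ := hSt b hb1 hb2
  obtain ⟨c₁, hc₁⟩ : ∃ c₁ : ℝ, c₁ = min (c₀ / 2) 1 := ⟨_, rfl⟩
  have hc₁0 : 0 < c₁ := by rw [hc₁]; exact lt_min (by positivity) one_pos
  have hc₁1 : c₁ ≤ 1 := by rw [hc₁]; exact min_le_right _ _
  have hc₁h : c₁ ≤ c₀ / 2 := by rw [hc₁]; exact min_le_left _ _
  refine ⟨c₁, hc₁0, hc₁1, fun R₀ ε hR₀ hε hε1 => ?_⟩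
  obtain ⟨η, hη⟩ : ∃ η : ℝ, η = ε / 4 := ⟨_, rfl⟩
  have hη0 : 0 < η := by rw [hη]; positivity
  obtain ⟨g, hg⟩ : ∃ g : ℝ, g = (c₀ - c₁) * η := ⟨_, rfl⟩
  have hg0 : 0 < g := by rw [hg]; exact mul_pos (by linarith) hη0
  obtain ⟨s, hs⟩ : ∃ s : ℝ, s = min (g / 16) (ε / 64) := ⟨_, rfl⟩
  have hs0 : 0 < s := by rw [hs]; exact lt_min (by positivity) (by positivity)
  have hsg : s ≤ g / 16 := by rw [hs]; exact min_le_left _ _
  have hsε : s ≤ ε / 64 := by rw [hs]; exact min_le_right _ _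
  refine ⟨s, hs0, fun Cp A => ?_⟩
  obtain ⟨CF, hCF⟩ := hFr (R₀ + 1) s hs0
  have hex : ∀ j : ℕ, ∃ C : ℝ, (1 ≤ j ∧ (j : ℝ) * η < 1 / 8) → StripSaveWith n (R₀ + 1) 6 ((j : ℝ) * η) b c₀ s C := by
    intro j
    by_cases hj : 1 ≤ j ∧ (j : ℝ) * η < 1 / 8
    · have hj1 : (0 : ℝ) < j := by exact_mod_cast hj.1
      obtain ⟨C, hC⟩ := hS (R₀ + 1) 6 ((j : ℝ) * η) s (mul_pos hj1 hη0) hj.2 hs0
      exact ⟨C, fun _ => hC⟩
    · exact ⟨0, fun h => absurd h hj⟩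
  choose Cj hCj using hex
  obtain ⟨K, hK⟩ : ∃ K : ℕ, 1 / (8 * η) ≤ K := exists_nat_ge _
  obtain ⟨Js, hJsdef⟩ : ∃ Js : Finset ℕ, Js = (Finset.range (K + 1)).filter (fun j : ℕ => 1 ≤ j ∧ (j : ℝ) * η < 1 / 8) := ⟨_, rfl⟩
  have hJs : ∀ j ∈ Js, 1 ≤ j ∧ (j : ℝ) * η < 1 / 8 := fun j hj => by
    rw [hJsdef] at hj
    exact (Finset.mem_filter.1 hj).2
  obtain ⟨Cm, hCmdef⟩ : ∃ Cm : ℝ, Cm = ∑ j ∈ Js, max (Cj j) 0 := ⟨_, rfl⟩
  have hCm : ∀ j ∈ Js, max (Cj j) 0 ≤ Cm := fun j hj => by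
    rw [hCmdef]
    exact Finset.single_le_sum (f := fun j => max (Cj j) 0) (fun i _ => le_max_right _ _) hj
  obtain ⟨L1, hL1, hL1'⟩ := tr_tb_pr_large Cp (7 / 8) (by norm_num)
  obtain ⟨L2, hL2, hL2'⟩ := tr_tb_pr_large (144 * (Js.card : ℝ) ^ 2 * Cm * Cp) (g - 6 * s) (by linarith)
  obtain ⟨L3, hL3, hL3'⟩ := tr_tb_pr_large (144 * max CF 0 * Cp) (ε / 4 - 5 * s) (by linarith)
  refine ⟨max L1 (max L2 L3), fun L c Z τ₀ f P I hL hc hcs hZ hτ hcard hbig hW => ?_⟩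
  have hLa : L1 ≤ L := (le_max_left _ _).trans hL
  have hLb : L2 ≤ L := ((le_max_left _ _).trans (le_max_right _ _)).trans hL
  have hLc : L3 ≤ L := ((le_max_right _ _).trans (le_max_right _ _)).trans hL
  have hL1L : 1 ≤ L := hL1.trans hLa
  have hL0 : 0 < L := by linarith
  obtain ⟨I', hI', hW', hstrip⟩ := tr_tb_pr_core (ε := ε) Js Cj hb0 hb1' hβ1 hc₀ (by linarith) hη0 hg (by linarith) hJs (fun j hj => hCj j (hJs j hj)) hCm hCF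
    hL1L (hL1' L hLa) (hL2' L hLb) (hL3' L hLc) Z τ₀ P I hc hcs hZ hτ hcard hbig hW
  refine ⟨I', hI', ?_, ?_⟩
  · exact (Real.rpow_le_rpow_of_exponent_le hL1L (by linarith)).trans hW'
  · intro a a' α₀ β₀ α ha ha' haa hα0 hα8
    have hWnn : 0 ≤ P.W I' := Finset.sum_nonneg fun T _ => (P.w_pos T).le
    by_cases hαη : α ≤ η
    · calc ∑ T ∈ I' with |⟪a, P.om T⟫_ℝ - α₀| ≤ L ^ (-α) ∧ |⟪a', P.om T⟫_ℝ - β₀| ≤ L ^ (-α), P.w T
          ≤ P.W I' := Finset.sum_le_sum_of_subset_of_nonneg (Finset.filter_subset _ _) fun T _ _ => (P.w_pos T).le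
        _ = 1 * P.W I' := (one_mul _).symm
        _ ≤ L ^ (-c₁ * α + ε) * P.W I' := by
            refine mul_le_mul_of_nonneg_right (Real.one_le_rpow hL1L ?_) hWnn
            nlinarith
    · push_neg at hαη
      obtain ⟨j, hj1, hj2⟩ : ∃ j : ℕ, (j : ℝ) * η < α ∧ α ≤ (j : ℝ) * η + η := by
        have hq0 : 0 ≤ α / η := by positivity
        have hq1 : 1 < α / η := by rwa [lt_div_iff₀ hη0, one_mul]
        have hm1 : α / η ≤ (⌈α / η⌉₊ : ℝ) := Nat.le_ceil _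
        have hm2 : (⌈α / η⌉₊ : ℝ) < α / η + 1 := Nat.ceil_lt_add_one hq0
        have hm3 : 1 ≤ ⌈α / η⌉₊ := by
          have : (0 : ℝ) < (⌈α / η⌉₊ : ℝ) := by linarith
          exact_mod_cast this
        refine ⟨⌈α / η⌉₊ - 1, ?_, ?_⟩
        · rw [Nat.cast_sub hm3, Nat.cast_one, ← lt_div_iff₀ hη0]
          linarith
        · rw [Nat.cast_sub hm3, Nat.cast_one]
          rw [div_le_iff₀ hη0] at hm1
          linarith
      have hjJ : j ∈ Js := by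
        rw [hJsdef, Finset.mem_filter, Finset.mem_range]
        refine ⟨?_, ?_, by linarith⟩
        · have h1 : (j : ℝ) < 1 / (8 * η) := by
            rw [lt_div_iff₀ (by positivity)]
            nlinarith
          have h2 : (j : ℝ) < (K : ℝ) := h1.trans_le hK
          have h3 : j < K := by exact_mod_cast h2
          omega
        · have h1 : 0 < (j : ℝ) * η := by linarith
          have h2 : (0 : ℝ) < j := by
            by_contra hcon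
            have : (j : ℝ) = 0 := le_antisymm (not_lt.1 hcon) (Nat.cast_nonneg _)
            rw [this] at h1
            simp at h1
          exact_mod_cast h2
      have hmono : L ^ (-α) ≤ L ^ (-((j : ℝ) * η)) := Real.rpow_le_rpow_of_exponent_le hL1L (by linarith)
      calc ∑ T ∈ I' with |⟪a, P.om T⟫_ℝ - α₀| ≤ L ^ (-α) ∧ |⟪a', P.om T⟫_ℝ - β₀| ≤ L ^ (-α), P.w T
          ≤ ∑ T ∈ I' with |⟪a, P.om T⟫_ℝ - α₀| ≤ L ^ (-((j : ℝ) * η)) ∧ |⟪a', P.om T⟫_ℝ - β₀| ≤ L ^ (-((j : ℝ) * η)), P.w T := by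
            refine Finset.sum_le_sum_of_subset_of_nonneg (fun T hT => ?_) fun T _ _ => (P.w_pos T).le
            rw [Finset.mem_filter] at hT ⊢
            exact ⟨hT.1, hT.2.1.trans hmono, hT.2.2.trans hmono⟩
        _ ≤ L ^ (-c₁ * ((j : ℝ) * η)) * L ^ (-(eex n) + s) := hstrip j hjJ a a' α₀ β₀ ha ha' haa
        _ = L ^ (-c₁ * ((j : ℝ) * η) + (-(eex n) + s)) := (Real.rpow_add hL0 _ _).symm
        _ ≤ L ^ ((-c₁ * α + ε) + (-(eex n) - ε / 4)) := by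
            refine Real.rpow_le_rpow_of_exponent_le hL1L ?_
            have h5 : c₁ * (α - (j : ℝ) * η) ≤ 1 * η := mul_le_mul hc₁1 (by linarith) (by linarith) (by norm_num)
            have h6 : c₁ * (α - (j : ℝ) * η) = c₁ * α - c₁ * ((j : ℝ) * η) := by ring
            have h7 : -c₁ * ((j : ℝ) * η) = -(c₁ * ((j : ℝ) * η)) := by ring
            have h8 : -c₁ * α = -(c₁ * α) := by ring
            rw [h7, h8]
            linarith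
        _ = L ^ (-c₁ * α + ε) * L ^ (-(eex n) - ε / 4) := Real.rpow_add hL0 _ _
        _ ≤ L ^ (-c₁ * α + ε) * P.W I' := mul_le_mul_of_nonneg_left hW' (Real.rpow_nonneg hL0.le _)

end Claimed.Agent.R257.TR
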