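import Claimed.Agent.R257.TR.TubesOcc
import Claimed.Agent.R257.TR.TubesKak
import Claimed.Agent.R257.TR.TubesPrune
import Claimed.Agent.R257.TR.TubesAsm

/-!
# R257 / TR / Tubes : block B8 of t:tubes: GLUE.   `tr_tb_main : OccStmt n → FractalStmt n → StripSaveStmt n → PktStmt n → TubesStmt n`.      Architect: helper195.
This file has no sorry of its own.   Plan of the block: header of `TR/TubesDefs.lean`.
-/

set_option autoImplicit false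

namespace Claimed.Agent.R257.TR

open Claimed.Agent.R257 MeasureTheory Metric Set
open scoped BigOperators ENNReal InnerProductSpace
open Classical

variable {n : ℕ}

/-- constants are absorbed in a positive power of `L` -/
theorem tr_tb_large (K a : ℝ) (ha : 0 < a) : ∃ L₀ : ℝ, 1 ≤ L₀ ∧ ∀ L, L₀ ≤ L → K ≤ L ^ a := by
  refine ⟨max 1 ((max K 1) ^ (1 / a)), le_max_left _ _, fun L hL => ?_⟩
  have h1 : (max K 1) ^ (1 / a) ≤ L := (le_max_right _ _).trans hL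
  have h0 : 0 < max K 1 := lt_of_lt_of_le one_pos (le_max_right _ _)
  calc K ≤ max K 1 := le_max_left _ _
    _ = ((max K 1) ^ (1 / a)) ^ a := by rw [← Real.rpow_mul h0.le, one_div_mul_cancel ha.ne', Real.rpow_one]
    _ ≤ L ^ a := Real.rpow_le_rpow (by positivity) h1 ha.le

theorem tr_tb_cfg_mono {R₀ R₀' c L : ℝ} {Y : Finset ((Fin n → ℤ) × ℤ)} {f : Fin (n + 1) → E n → ℂ} (h : TbCfg n R₀ c L Y f)
    (hR : R₀ ≤ R₀') : TbCfg n R₀' c L Y f :=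
  { h with dat := fun i => ⟨(h.dat i).meas, fun ξ hξ => ((h.dat i).supp ξ hξ).trans hR, (h.dat i).l2⟩ }

theorem tr_tb_transv_mono {Q Q' : ℝ} (hQ : Q ≤ Q') {ξ : Fin (n + 1) → E n} (h : Transv Q ξ) : Transv Q' ξ :=
  fun t => (h t).trans (mul_le_mul_of_nonneg_right hQ (by positivity))

set_option maxHeartbeats 4000000 in
/-- **Lemma t:tubes** from the contracts. -/
theorem tr_tb_main (hn : 2 ≤ n) (hOcc : OccStmt n) (hFr : FractalStmt n) (hSt : StripSaveStmt n) (hPk : PktStmt n) : TubesStmt n := by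
  intro R₀
  obtain ⟨c₁, hc₁0, hc₁1, hPr⟩ := tr_tb_prune hn hFr hSt
  obtain ⟨R, hR⟩ : ∃ R, R = max R₀ 0 := ⟨_, rfl⟩
  have hR0 : 0 ≤ R := hR ▸ le_max_right _ _
  have hRR : R₀ ≤ R := hR ▸ le_max_left _ _
  refine ⟨R + 1, c₁, 3 * (n : ℝ) + 2 * eex n + 8, hc₁0, hc₁1, fun ε hε => ?_⟩
  obtain ⟨ε', hε'⟩ : ∃ ε', ε' = min ε 1 := ⟨_, rfl⟩
  have hε'0 : 0 < ε' := hε' ▸ lt_min hε one_pos
  have hε'1 : ε' ≤ 1 := hε' ▸ min_le_right _ _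
  have hε'ε : ε' ≤ ε := hε' ▸ min_le_left _ _
  obtain ⟨s₁, hs₁, hPr⟩ := hPr R ε' hR0 hε'0 hε'1
  obtain ⟨s₂, hs₂, hs₂₁, hKak⟩ := tr_tb_kak hn R s₁ hR0 hs₁
  obtain ⟨δ, hδ⟩ : ∃ δ, δ = min (s₂ / 8) (ε' / 4) := ⟨_, rfl⟩
  have hδ0 : 0 < δ := hδ ▸ lt_min (by positivity) (by positivity)
  have hδs : δ ≤ s₂ / 8 := hδ ▸ min_le_left _ _
  have hδε : δ ≤ ε' / 4 := hδ ▸ min_le_right _ _
  obtain ⟨c₀, Locc, hc₀, hOc⟩ := tr_tb_occ hn hOcc R δ hδ0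
  obtain ⟨θ, hθ⟩ : ∃ θ, θ = min s₂ ε' := ⟨_, rfl⟩
  have hθ0 : 0 < θ := hθ ▸ lt_min hs₂ hε'0
  have hθs : θ ≤ s₂ := hθ ▸ min_le_left _ _
  have hθε : θ ≤ ε' := hθ ▸ min_le_right _ _
  have he0 : 0 ≤ eex n := by unfold eex; positivity
  -- the decay order
  obtain ⟨A, hA⟩ : ∃ A : ℕ, A = max ⌈(2 * eex n + 4) / θ⌉₊ (n + 1) := ⟨_, rfl⟩
  have hA1 : n + 1 ≤ A := hA ▸ le_max_right _ _
  have hA2 : 2 * eex n + 4 ≤ θ * A := by
    have h1 : (2 * eex n + 4) / θ ≤ (A : ℝ) :=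
      (Nat.le_ceil _).trans (by exact_mod_cast hA ▸ le_max_left _ _)
    rw [div_le_iff₀ hθ0] at h1
    linarith
  have hA3 : θ * A ≤ 2 * eex n + n + 5 := by
    have hθ1 : θ ≤ 1 := hθε.trans hε'1
    have hn0 : (0 : ℝ) ≤ n := Nat.cast_nonneg _
    rcases le_total ⌈(2 * eex n + 4) / θ⌉₊ (n + 1) with h | h
    · rw [hA, max_eq_right h]
      push_cast
      nlinarith
    · rw [hA, max_eq_left h]
      have h1 := (Nat.ceil_lt_add_one (show 0 ≤ (2 * eex n + 4) / θ by positivity)).le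
      have h2 : θ * (⌈(2 * eex n + 4) / θ⌉₊ : ℝ) ≤ θ * ((2 * eex n + 4) / θ + 1) := mul_le_mul_of_nonneg_left h1 hθ0.le
      have h3 : θ * ((2 * eex n + 4) / θ + 1) = 2 * eex n + 4 + θ := by
        field_simp
      linarith
  obtain ⟨Cp, hCp1, hPkE⟩ := tr_tb_pk hPk R A hA1
  obtain ⟨Lpr, hPr⟩ := hPr Cp A
  obtain ⟨Lkak, hKak⟩ := hKak Cp A
  obtain ⟨Lfld, hFld⟩ := tr_tb_field R θ hR0 hθ0 A hA2 Cp
  obtain ⟨Llow, hLow⟩ := tr_tb_low hn hFr R s₂ hs₂ Cp A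
  obtain ⟨Lpt, hPt⟩ := tr_tb_points n ε' hε'0
  obtain ⟨Lcard, hCard⟩ := tr_tb_card n θ hθ0.le A hA3 Cp
  obtain ⟨La, -, hLa⟩ := tr_tb_large (2 * Cp) (ε' / 2) (by positivity)
  obtain ⟨Lb, -, hLb⟩ := tr_tb_large (2 * Cp) (3 / 4) (by norm_num)
  -- the exponent of the configuration
  obtain ⟨c, hc⟩ : ∃ c, c = min c₀ δ := ⟨_, rfl⟩
  have hc0 : 0 < c := hc ▸ lt_min hc₀ hδ0
  have hcc₀ : c ≤ c₀ := hc ▸ min_le_left _ _
  have hcδ : c ≤ δ := hc ▸ min_le_right _ _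
  refine ⟨c, max (max (max (max Locc Lpr) (max Lkak Lfld)) (max (max Llow Lpt) (max Lcard La))) (max (max Lb Cp) (max 2 (tbG n))), hc0, ?_⟩
  intro L Y₀ z₀ f₀ hL hcfg₀
  have hLocc : Locc ≤ L := le_trans (by simp) hL
  have hLpr : Lpr ≤ L := le_trans (by simp) hL
  have hLkak : Lkak ≤ L := le_trans (by simp) hL
  have hLfld : Lfld ≤ L := le_trans (by simp) hL
  have hLlow : Llow ≤ L := le_trans (by simp) hL
  have hLpt : Lpt ≤ L := le_trans (by simp) hL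
  have hLcard : Lcard ≤ L := le_trans (by simp) hL
  have hLLa : La ≤ L := le_trans (by simp) hL
  have hLLb : Lb ≤ L := le_trans (by simp) hL
  have hLCp : Cp ≤ L := le_trans (by simp) hL
  have hL2 : 2 ≤ L := le_trans (by simp) hL
  have hLG : tbG n ≤ L := le_trans (by simp) hL
  have hL1 : 1 ≤ L := le_trans (by norm_num) hL2
  have hLpos : 0 < L := lt_of_lt_of_le one_pos hL1
  have hrp : ∀ {a b : ℝ}, a ≤ b → L ^ a ≤ L ^ b := fun h => Real.rpow_le_rpow_of_exponent_le hL1 h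
  have hcs₂8 : c ≤ s₂ / 8 := hcδ.trans hδs
  have hcs₂ : c ≤ s₂ := hcs₂8.trans (by linarith only [hs₂])
  have hcs₁ : c ≤ s₁ := hcs₂.trans hs₂₁
  have hcε : c ≤ ε' / 4 := hcδ.trans hδε
  have hc1 : c ≤ 1 := hcε.trans (by linarith only [hε'1])
  -- centre
  have hsq : Real.sqrt n + 1 ≤ L ^ 2 := by
    have h1 : Real.sqrt n + 1 ≤ tbG n := by
      unfold tbG
      linarith only [Real.sqrt_nonneg (n : ℝ)]
    have h2 : L ≤ L ^ 2 := by nlinarith only [hL1]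
    exact (h1.trans hLG).trans h2
  obtain ⟨Y, f, hcfg'⟩ := tr_tb_centre hsq hcfg₀
  have hcfg : TbCfg n R c L Y f := tr_tb_cfg_mono hcfg' hRR
  obtain ⟨𝔅, hocc, hcard𝔅⟩ := hOc c L Y f hc0 hcc₀ hLocc hcfg
  -- packets
  have hP : ∀ i, Nonempty (TbPk n L (R + 1) Cp A (f i)) := fun i => hPkE L (f i) hLCp (hcfg.dat i) (hcfg.norm i)
  obtain ⟨P⟩ : Nonempty (∀ i, TbPk n L (R + 1) Cp A (f i)) := ⟨fun i => (hP i).some⟩
  -- corners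
  have hne : ∀ k ∈ 𝔅, (tbIn L Y k).Nonempty := by
    intro k hk
    rw [← Finset.card_pos]
    have h1 : (0 : ℝ) < ((tbIn L Y k).card : ℝ) := lt_of_lt_of_le (Real.rpow_pos_of_pos hLpos _) (hocc k hk)
    exact_mod_cast h1
  have hcor : ∀ k ∈ 𝔅, |(tbCor L k).2| ≤ 3 * L ^ 2 := by
    intro k hk
    have h1 := tr_tb_cor_norm hL1 hLG hcfg.inball (hne k hk)
    exact (norm_snd_le (tbCor L k)).trans h1
  -- the incident sets
  obtain ⟨I₀, hI₀⟩ : ∃ I₀ : ∀ i, (Fin n → ℤ) × ℤ → Finset (P i).J, I₀ = fun i k => (P i).nr (tbCor L k) (L ^ (1 + θ)) := ⟨_, rfl⟩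
  have hfield : ∀ k i, ∀ q ∈ tbIn L Y k, ∃ z ∈ cube q, L ^ (-(eex n) - c) / 2 ≤ ‖ext ((P i).G (I₀ i k)) z‖ :=
    fun k i => hFld L c Y (f i) (P i) k (I₀ i k) hLfld hc0.le hc1 (hcfg.dat i) hcfg.inball (fun q hq => hcfg.big q hq i)
      (by rw [hI₀])
  have hcount : ∀ k, TbCount (tbIn L Y k) (L ^ c) := fun k => tr_tb_count_mono hcfg.count (Finset.filter_subset _ _)
  have htime : ∀ k, ∀ q ∈ tbIn L Y k, |(q.2 : ℝ) - (⌊L * (k.2 : ℝ)⌋ : ℤ)| + 1 ≤ 3 * L :=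
    fun k q hq => tr_tb_box_time hL1 (Finset.mem_filter.1 hq).2
  have hlow : ∀ k ∈ 𝔅, ∀ i, L ^ (-(eex n) - s₂) ≤ (P i).W (I₀ i k) := fun k hk i =>
    hLow L c (tbIn L Y k) ⌊L * (k.2 : ℝ)⌋ (f i) (P i) (I₀ i k) hLlow hc0.le hcs₂8 (hcount k) (htime k)
      ((hrp (by linarith only [hδs])).trans (hocc k hk)) (hfield k i)
  obtain ⟨𝔅', h𝔅', hcard', hup⟩ := hKak L c θ f P 𝔅 hLkak hc0.le hcs₂ hθ0.le hθs hcfg.dat hcfg.trans hcor
    ((hrp (by linarith only [hδs, hs₂])).trans hcard𝔅) (by rw [hI₀] at hlow; exact hlow)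
  -- pruning
  have hprune : ∀ i k, k ∈ 𝔅' → ∃ I' ⊆ I₀ i k, L ^ (-(eex n) - ε') ≤ (P i).W I' ∧
      ∀ (a b : E n) (α₀ β₀ α : ℝ), ‖a‖ = 1 → ‖b‖ = 1 → ⟪a, b⟫_ℝ = 0 → 0 ≤ α → α ≤ 1 / 8 →
        ∑ T ∈ I' with |⟪a, (P i).om T⟫_ℝ - α₀| ≤ L ^ (-α) ∧ |⟪b, (P i).om T⟫_ℝ - β₀| ≤ L ^ (-α), (P i).w T
          ≤ L ^ (-c₁ * α + ε') * (P i).W I' := fun i k hk =>
    hPr L c (tbIn L Y k) ⌊L * (k.2 : ℝ)⌋ (f i) (P i) (I₀ i k) hLpr hc0.le hcs₁ (hcount k) (htime k)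
      ((hrp (by linarith only [hδs, hs₂, hs₂₁])).trans (hocc k (h𝔅' hk))) (hfield k i) (by rw [hI₀]; exact hup k hk i)
  choose I' hI'sub hI'low hI'strip using hprune
  obtain ⟨I, hI⟩ : ∃ I : ∀ i, (Fin n → ℤ) × ℤ → Finset (P i).J, I = fun i k => if h : k ∈ 𝔅' then I' i k h else ∅ := ⟨_, rfl⟩
  have hIk : ∀ i k (hk : k ∈ 𝔅'), I i k = I' i k hk := fun i k hk => by rw [hI]; exact dif_pos hk
  -- the points
  obtain ⟨hne', hpos, hcardlo, hball⟩ := hPt R c L Y f 𝔅' hLpt hc0.le hcε hcfg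
    (fun k hk => (hrp (by linarith only [hδε])).trans (hocc k (h𝔅' hk)))
    (((hrp (by linarith only [hδε])).trans hcard𝔅).trans hcard')
  have hcor' : ∀ k ∈ 𝔅', |(tbCor L k).2| ≤ 3 * L ^ 2 := fun k hk => hcor k (h𝔅' hk)
  have hIsub : ∀ i, ∀ k ∈ 𝔅', I i k ⊆ (P i).nr (tbCor L k) (L ^ (1 + θ)) := fun i k hk => by
    rw [hIk i k hk]
    have := hI'sub i k hk
    rw [hI₀] at this
    exact this
  have hcardup : (𝔅'.card : ℝ) ≤ L ^ ((n : ℝ) + 1) := by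
    have h1 := hball 0 1 (inv_le_one_of_one_le₀ hL1) le_rfl
    rw [one_pow, mul_one] at h1
    have h2 : 𝔅'.filter (fun k => (3 * L ^ 2)⁻¹ • tbCor L k ∈ closedBall (0 : ST n) 1) = 𝔅' := by
      refine Finset.filter_true_of_mem fun k hk => ?_
      rw [mem_closedBall_zero_iff]
      exact hpos k hk
    rw [h2] at h1
    exact h1.trans (hrp (by linarith only [hε'1]))
  have hτ := hCard L (R + 1) f P 𝔅' I hLcard hcardup hcor' hIsub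
  -- labels
  have hlowI : ∀ i, ∀ k ∈ 𝔅', L ^ (-(eex n) - ε') ≤ ∑ α ∈ I i k, (P i).w α := fun i k hk => by
    rw [hIk i k hk]
    exact hI'low i k hk
  obtain ⟨k₀, hk₀⟩ := hne'
  have hlab : ∀ i, ∃ _α : (P i).J, True := by
    intro i
    have h1 : 0 < ∑ α ∈ I i k₀, (P i).w α := lt_of_lt_of_le (Real.rpow_pos_of_pos hLpos _) (hlowI i k₀ hk₀)
    obtain ⟨α, -, -⟩ := Finset.exists_ne_zero_of_sum_ne_zero h1.ne'
    exact ⟨α, trivial⟩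
  choose α₀ _ using hlab
  have hCp0 : 0 ≤ Cp := le_trans zero_le_one hCp1
  have hCpL : Cp / L ≤ 1 := (div_le_one hLpos).2 hLCp
  have hom : ∀ i α, ‖(P i).om α‖ ≤ R + 1 := fun i α =>
    (tr_tb_om_le (P i) (hcfg.dat i) α).trans (by linarith only [hCpL])
  have hLa' : 2 * Cp ≤ L ^ (ε' / 2) := hLa L hLLa
  have htr : ∀ ξ : Fin (n + 1) → E n, (∀ i, ξ i = (P i).om (α₀ i) ∨ ∃ α, ξ i = (P i).om α) → Transv (L ^ ε') ξ := by
    intro ξ hξ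
    have h1 : ∀ i, ∃ ξ', f i ξ' ≠ 0 ∧ ‖ξ' - ξ i‖ ≤ Cp / L := by
      intro i
      rcases hξ i with h | ⟨α, h⟩
      · rw [h]
        exact (P i).near _
      · rw [h]
        exact (P i).near _
    have h2 : L ^ c * (Cp / L) ≤ 1 / 2 := by
      have e1 : L ^ c ≤ L ^ (1 / 4 : ℝ) := hrp (hcε.trans (by linarith only [hε'1]))
      have e2 : 2 * Cp ≤ L ^ (3 / 4 : ℝ) := hLb L hLLb
      have e3 : L ^ (1 / 4 : ℝ) * L ^ (3 / 4 : ℝ) = L := by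
        rw [← Real.rpow_add hLpos]
        norm_num
      rw [← mul_div_assoc, div_le_iff₀ hLpos]
      calc L ^ c * Cp ≤ L ^ (1 / 4 : ℝ) * Cp := mul_le_mul_of_nonneg_right e1 hCp0
        _ ≤ L ^ (1 / 4 : ℝ) * (L ^ (3 / 4 : ℝ) / 2) :=
            mul_le_mul_of_nonneg_left (by linarith only [e2]) (Real.rpow_nonneg hLpos.le _)
        _ = 1 / 2 * (L ^ (1 / 4 : ℝ) * L ^ (3 / 4 : ℝ)) := by ring
        _ = 1 / 2 * L := by rw [e3]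
    have h3 := tr_tb_transv (Real.rpow_nonneg hLpos.le c) h2 hcfg.trans h1
    refine tr_tb_transv_mono ?_ h3
    have e1 : (2 : ℝ) ≤ L ^ (ε' / 2) := le_trans (by linarith only [hCp1]) hLa'
    calc 2 * L ^ c ≤ L ^ (ε' / 2) * L ^ (ε' / 4) :=
          mul_le_mul e1 (hrp hcε) (Real.rpow_nonneg hLpos.le _) (Real.rpow_nonneg hLpos.le _)
      _ = L ^ (ε' / 2 + ε' / 4) := (Real.rpow_add hLpos _ _).symm
      _ ≤ L ^ ε' := hrp (by linarith only [hε'0])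
  have hws : ∀ i (t : Finset (P i).J), ∑ α ∈ t, (P i).w α ≤ L ^ ε' := fun i t =>
    ((P i).w_sum t).trans ((by linarith only [hCp0, hLa'] : Cp ≤ L ^ (ε' / 2)).trans (hrp (by linarith only [hε'0])))
  have hinc : ∀ i, ∀ k ∈ 𝔅', ∀ α ∈ I i k, ‖((3 * L ^ 2)⁻¹ • tbCor L k).1 - (3 * L ^ 2)⁻¹ • (P i).y α
      - (2 * ((3 * L ^ 2)⁻¹ • tbCor L k).2) • (P i).om α‖ ≤ L ^ (-1 + ε') := by
    intro i k hk α hα
    have h1 : (P i).td α (tbCor L k) ≤ L ^ (1 + θ) := (tr_tb_mem_nr (P i) (hcor' k hk) _ α).1 (hIsub i k hk hα)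
    have h2 : ((3 * L ^ 2)⁻¹ • tbCor L k).1 - (3 * L ^ 2)⁻¹ • (P i).y α - (2 * ((3 * L ^ 2)⁻¹ • tbCor L k).2) • (P i).om α
        = (3 * L ^ 2)⁻¹ • ((tbCor L k).1 - (P i).y α - (2 * (tbCor L k).2) • (P i).om α) := by
      simp only [Prod.smul_fst, Prod.smul_snd, smul_eq_mul, smul_sub, smul_smul]
      congr 2
      ring
    rw [h2, norm_smul, Real.norm_of_nonneg (by positivity)]
    have h3 : (3 * L ^ 2)⁻¹ ≤ L ^ (-2 : ℝ) := by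
      rw [Real.rpow_neg hLpos.le, Real.rpow_two]
      exact inv_anti₀ (by positivity) (by nlinarith only [sq_nonneg L])
    calc (3 * L ^ 2)⁻¹ * ‖(tbCor L k).1 - (P i).y α - (2 * (tbCor L k).2) • (P i).om α‖
        ≤ L ^ (-2 : ℝ) * L ^ (1 + θ) := mul_le_mul h3 h1 (norm_nonneg _) (Real.rpow_nonneg hLpos.le _)
      _ = L ^ (-2 + (1 + θ)) := (Real.rpow_add hLpos _ _).symm
      _ ≤ L ^ (-1 + ε') := hrp (by linarith only [hθε])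
  have hstrip : ∀ i, ∀ k ∈ 𝔅', ∀ (a b : E n) (α₀ β₀ α : ℝ), ‖a‖ = 1 → ‖b‖ = 1 → ⟪a, b⟫_ℝ = 0 → 0 ≤ α → α ≤ 1 / 8 →
      ∑ T ∈ I i k with |⟪a, (P i).om T⟫_ℝ - α₀| ≤ L ^ (-α) ∧ |⟪b, (P i).om T⟫_ℝ - β₀| ≤ L ^ (-α), (P i).w T
        ≤ L ^ (-c₁ * α + ε') * ∑ T ∈ I i k, (P i).w T := by
    intro i k hk a b α₀ β₀ α ha hb hab hα0 hα1
    rw [hIk i k hk]
    exact hI'strip i k hk a b α₀ β₀ α ha hb hab hα0 hα1
  obtain ⟨M, hM, hMε, hML⟩ := tr_tb_asm n hL2 hε'0 hε'1 (fun i => (P i).J) (fun i => (P i).om)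
    (fun i α => (3 * L ^ 2)⁻¹ • (P i).y α) (fun i => (P i).w) 𝔅' (fun k => (3 * L ^ 2)⁻¹ • tbCor L k) I
    (fun i => (P i).om (α₀ i)) ⟨k₀, hk₀⟩ hpos hcardlo hball hτ hom (fun i => hom i _) htr (fun i α => ((P i).w_pos α).le)
    hws hlowI hinc hstrip (c₁ := c₁)
  exact ⟨M, hM, hMε ▸ hε'ε, hML⟩

end Claimed.Agent.R257.TR
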