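import Claimed.Agent.R257.TR.TubesDefs

/-!
# R257 / TR / TubesGeo : block B0 of t:tubes: CENTRE, GEOMETRY OF THE BOXES, THE POINTS OF THE MODEL.      Architect: helper195.      PAPER-FREE.
LEAVES `L-TB-G*`: every `sorry`; prove IN PLACE, statements verbatim, helpers directly above (prefix `tr_tb_`), pull before landing.
-/

set_option autoImplicit false

namespace Claimed.Agent.R257.TR

open Claimed.Agent.R257 MeasureTheory Metric Set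
open scoped BigOperators ENNReal InnerProductSpace
open Classical

variable {n : ℕ}

theorem tr_tb_norm_le_sqrt {a : ℝ} (ha : 0 ≤ a) (v : E n) (hv : ∀ i, |v i| ≤ a) : ‖v‖ ≤ Real.sqrt n * a := by
  rw [EuclideanSpace.norm_eq]
  have h1 : ∑ i, ‖v i‖ ^ 2 ≤ n * a ^ 2 := by
    calc ∑ i, ‖v i‖ ^ 2 ≤ ∑ i : Fin n, a ^ 2 := Finset.sum_le_sum fun i _ => by
            rw [Real.norm_eq_abs]; exact pow_le_pow_left₀ (abs_nonneg _) (hv i) 2
      _ = n * a ^ 2 := by simp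
  calc Real.sqrt _ ≤ Real.sqrt (n * a ^ 2) := Real.sqrt_le_sqrt h1
    _ = Real.sqrt n * a := by rw [Real.sqrt_mul (Nat.cast_nonneg n), Real.sqrt_sq ha]

theorem tr_tb_st_norm_le {a : ℝ} (ha : 0 ≤ a) (z : ST n) (hv : ∀ i, |z.1 i| ≤ a) (h2 : |z.2| ≤ a) :
    ‖z‖ ≤ (Real.sqrt n + 1) * a := by
  rw [Prod.norm_def]
  have hs : 0 ≤ Real.sqrt n := Real.sqrt_nonneg _
  apply max_le
  · refine (tr_tb_norm_le_sqrt ha z.1 hv).trans ?_
    nlinarith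
  · rw [Real.norm_eq_abs]
    refine h2.trans ?_
    nlinarith

theorem tr_tb_cube_shift (q k₀ : (Fin n → ℤ) × ℤ) (z : ST n) :
    z ∈ cube (q - k₀) ↔ z + ((zvec k₀.1, (k₀.2 : ℝ)) : ST n) ∈ cube q := by
  simp only [cube, Set.mem_ofPred_eq, Prod.fst_sub, Prod.snd_sub, Pi.sub_apply, Int.cast_sub, Prod.fst_add, Prod.snd_add,
    PiLp.add_apply, zvec]
  constructor
  · rintro ⟨h1, h2, h3⟩
    refine ⟨fun i => ⟨?_, ?_⟩, ?_, ?_⟩
    · have := (h1 i).1; linarith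
    · have := (h1 i).2; linarith
    · linarith
    · linarith
  · rintro ⟨h1, h2, h3⟩
    refine ⟨fun i => ⟨?_, ?_⟩, ?_, ?_⟩
    · have := (h1 i).1; linarith
    · have := (h1 i).2; linarith
    · linarith
    · linarith

/-- L-TB-G0.  CENTRE.  `k₀ = (⌊z₀.1 i⌋, ⌊z₀.2⌋)`, `w = (zvec k₀.1, k₀.2)`, `Y' = Y.image (· - k₀)` (injective), `f' i ξ = car ξ w * f i ξ`.
`z ∈ cube (q - k₀) ↔ z + w ∈ cube q`;  `‖z₀ - w‖ ≤ max √n 1`;  `inf_ext_translate`, `inf_dat_modulate`, `inf_car_norm`;  balls are translated by `w`. -/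
theorem tr_tb_centre {R₀ c L : ℝ} {Y : Finset ((Fin n → ℤ) × ℤ)} {z₀ : ST n} {f : Fin (n + 1) → E n → ℂ}
    (hL : Real.sqrt n + 1 ≤ L ^ 2) (h : TrCfg n R₀ c L Y z₀ f) :
    ∃ (Y' : Finset ((Fin n → ℤ) × ℤ)) (f' : Fin (n + 1) → E n → ℂ), TbCfg n R₀ c L Y' f' := by
  obtain ⟨k₀, hk₀⟩ : ∃ k₀ : (Fin n → ℤ) × ℤ, k₀ = (fun i => ⌊z₀.1 i⌋, ⌊z₀.2⌋) := ⟨_, rfl⟩
  obtain ⟨w, hw⟩ : ∃ w : ST n, w = (zvec k₀.1, (k₀.2 : ℝ)) := ⟨_, rfl⟩
  have hsh : ∀ (q : (Fin n → ℤ) × ℤ) (z : ST n), z ∈ cube (q - k₀) ↔ z + w ∈ cube q := by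
    intro q z; rw [hw]; exact tr_tb_cube_shift q k₀ z
  have hzw : ‖z₀ - w‖ ≤ Real.sqrt n + 1 := by
    have := tr_tb_st_norm_le (a := 1) zero_le_one (z₀ - w) ?_ ?_
    · linarith
    · intro i
      rw [hw, hk₀]
      simp only [zvec, Prod.fst_sub, PiLp.sub_apply]
      have h1 := Int.floor_le (z₀.1 i)
      have h2 := Int.lt_floor_add_one (z₀.1 i)
      rw [abs_le]; constructor <;> linarith
    · rw [hw, hk₀]
      simp only [Prod.snd_sub]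
      have h1 := Int.floor_le (z₀.2)
      have h2 := Int.lt_floor_add_one (z₀.2)
      rw [abs_le]; constructor <;> linarith
  have hinj : Function.Injective (fun q : (Fin n → ℤ) × ℤ => q - k₀) := sub_left_injective
  have hinj2 : Function.Injective (fun q : (Fin n → ℤ) × ℤ => q + k₀) := add_left_injective k₀
  refine ⟨Y.image (fun q => q - k₀), fun i ξ => car ξ w * f i ξ, ?_, ?_, ?_, ?_, ?_, ?_, ?_⟩
  · intro q' hq' z hz
    obtain ⟨q, hq, rfl⟩ := Finset.mem_image.1 hq'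
    have h1 := h.inball q hq ((hsh q z).1 hz)
    rw [mem_closedBall, dist_eq_norm] at h1
    rw [mem_closedBall, dist_zero_right]
    have h2 : z = (z + w - z₀) + (z₀ - w) := by abel
    have h3 : ‖z‖ ≤ ‖z + w - z₀‖ + ‖z₀ - w‖ := by
      conv_lhs => rw [h2]
      exact norm_add_le _ _
    linarith
  · rw [Finset.card_image_of_injective _ hinj]
    exact h.card
  · intro z r t hr ht hq
    have h1 := h.count (z + w) r (t.image (fun q => q + k₀)) hr ?_ ?_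
    · rwa [Finset.card_image_of_injective _ hinj2] at h1
    · intro q' hq'
      obtain ⟨q, hq1, rfl⟩ := Finset.mem_image.1 hq'
      obtain ⟨q₀, hq₀, rfl⟩ := Finset.mem_image.1 (ht hq1)
      simpa using hq₀
    · intro q' hq'
      obtain ⟨q, hq1, rfl⟩ := Finset.mem_image.1 hq'
      obtain ⟨y, hy1, hy2⟩ := hq q hq1
      refine ⟨y + w, ?_, ?_⟩
      · rw [← hsh]; simpa using hy1
      · rw [mem_closedBall] at hy2 ⊢
        simpa using hy2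
  · intro i
    exact inf_dat_modulate (h.dat i) w
  · intro i
    have : ∀ ξ, ‖car ξ w * f i ξ‖ = ‖f i ξ‖ := fun ξ => by rw [norm_mul, inf_car_norm, one_mul]
    simp only [this]
    exact h.norm i
  · intro q' hq' i
    obtain ⟨q, hq, rfl⟩ := Finset.mem_image.1 hq'
    obtain ⟨z, hz, hb⟩ := h.big q hq i
    refine ⟨z - w, ?_, ?_⟩
    · rw [hsh]; simpa using hz
    · rw [← inf_ext_translate]; simpa using hb
  · intro ξ hξ
    exact h.trans ξ fun i => right_ne_zero_of_mul (hξ i)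

theorem tr_tb_box_floor {L : ℝ} (hL : 1 ≤ L) (a : ℤ) : L * (⌊(a : ℝ) / L⌋ : ℤ) ≤ a ∧ (a : ℝ) < L * (⌊(a : ℝ) / L⌋ : ℤ) + L := by
  have hL0 : 0 < L := by linarith
  have h1 := Int.floor_le ((a : ℝ) / L)
  have h2 := Int.lt_floor_add_one ((a : ℝ) / L)
  rw [le_div_iff₀ hL0] at h1
  rw [div_lt_iff₀ hL0] at h2
  constructor <;> nlinarith

theorem tr_tb_corner_mem (q : (Fin n → ℤ) × ℤ) : ((zvec q.1, (q.2 : ℝ)) : ST n) ∈ cube q := by
  refine ⟨fun i => ?_, ?_⟩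
  · simp [zvec]
  · simp

theorem tr_tb_G_ge : 2 ≤ tbG n := by
  unfold tbG
  have hs : 0 ≤ Real.sqrt n := Real.sqrt_nonneg _
  linarith

theorem tr_tb_count_nonneg {Γ : ℝ} {Y : Finset ((Fin n → ℤ) × ℤ)} (hY : TbCount Y Γ) : 0 ≤ Γ := by
  have := hY 0 1 ∅ le_rfl (Finset.empty_subset _) (by simp)
  simpa using this

/-- L-TB-G1.  `q_i/L ∈ [k_i, k_i + 1)`, `z_i ∈ [q_i, q_i + 1)`: `0 ≤ z_i - L k_i < L + 1`; `EuclideanSpace.norm_eq`, `Prod.norm_def`. -/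
theorem tr_tb_box_dist {L : ℝ} (hL : 1 ≤ L) {q k : (Fin n → ℤ) × ℤ} (hq : tbBox L q = k) {z : ST n} (hz : z ∈ cube q) :
    ‖z - tbCor L k‖ ≤ tbG n * L := by
  subst hq
  have h := tr_tb_st_norm_le (a := 2 * L) (by linarith) (z - tbCor L (tbBox L q)) ?_ ?_
  · unfold tbG; linarith
  · intro i
    have h1 := tr_tb_box_floor hL (q.1 i)
    have h2 := hz.1 i
    simp only [tbCor, tbBox, zvec, Prod.fst_sub, PiLp.sub_apply, PiLp.smul_apply, smul_eq_mul]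
    rw [abs_le]; constructor <;> linarith
  · have h1 := tr_tb_box_floor hL q.2
    have h2 := hz.2
    simp only [tbCor, tbBox, Prod.snd_sub]
    rw [abs_le]; constructor <;> linarith

/-- L-TB-G1.  a point of the box itself -/
theorem tr_tb_cubeS_dist {L : ℝ} (hL : 1 ≤ L) {k : (Fin n → ℤ) × ℤ} {z : ST n} (hz : z ∈ cubeS L k) :
    ‖z - tbCor L k‖ ≤ tbG n * L := by
  have h := tr_tb_st_norm_le (a := 2 * L) (by linarith) (z - tbCor L k) ?_ ?_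
  · unfold tbG; linarith
  · intro i
    have h2 := hz.1 i
    simp only [tbCor, zvec, Prod.fst_sub, PiLp.sub_apply, PiLp.smul_apply, smul_eq_mul]
    rw [abs_le]; constructor <;> linarith
  · have h2 := hz.2
    simp only [tbCor, Prod.snd_sub]
    rw [abs_le]; constructor <;> linarith

/-- L-TB-G1.  time localisation of the cubes of a box (`τ₀ = ⌊L k.2⌋`) -/
theorem tr_tb_box_time {L : ℝ} (hL : 1 ≤ L) {q k : (Fin n → ℤ) × ℤ} (hq : tbBox L q = k) :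
    |(q.2 : ℝ) - (⌊L * (k.2 : ℝ)⌋ : ℤ)| + 1 ≤ 3 * L := by
  subst hq
  have h1 := tr_tb_box_floor hL q.2
  simp only [tbBox]
  have h3 := Int.floor_le (L * ((⌊(q.2 : ℝ) / L⌋ : ℤ) : ℝ))
  have h4 := Int.lt_floor_add_one (L * ((⌊(q.2 : ℝ) / L⌋ : ℤ) : ℝ))
  have : |(q.2 : ℝ) - (⌊L * ((⌊(q.2 : ℝ) / L⌋ : ℤ) : ℝ)⌋ : ℤ)| ≤ L + 1 := by
    rw [abs_le]; constructor <;> linarith
  linarith

/-- L-TB-G2.  occupancy from above: all the cubes of the box meet `closedBall (tbCor L k) (tbG n * L)`. -/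
theorem tr_tb_in_le {L Γ : ℝ} (hL : 1 ≤ L) {Y : Finset ((Fin n → ℤ) × ℤ)} (hY : TbCount Y Γ) (k : (Fin n → ℤ) × ℤ) :
    ((tbIn L Y k).card : ℝ) ≤ Γ * (tbG n * L) ^ n := by
  have hG := tr_tb_G_ge (n := n)
  refine hY (tbCor L k) (tbG n * L) (tbIn L Y k) (by nlinarith) (Finset.filter_subset _ _) ?_
  intro q hq
  refine ⟨_, tr_tb_corner_mem q, ?_⟩
  rw [mem_closedBall, dist_eq_norm]
  exact tr_tb_box_dist hL (Finset.mem_filter.1 hq).2 (tr_tb_corner_mem q)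

theorem tr_tb_count_mono {Γ : ℝ} {Y Z : Finset ((Fin n → ℤ) × ℤ)} (hY : TbCount Y Γ) (hZ : Z ⊆ Y) : TbCount Z Γ :=
  fun z r t hr ht h => hY z r t hr (ht.trans hZ) h

/-- L-TB-G3.  the sets `tbIn L Y k` are disjoint subsets of `Y`; the cubes of the boxes with corner in `closedBall z ρ` meet `closedBall z (ρ + tbG n * L)`. -/
theorem tr_tb_ball {L Γ m ρ : ℝ} (hL : 1 ≤ L) (hρ : L ≤ ρ) {Y : Finset ((Fin n → ℤ) × ℤ)} (hY : TbCount Y Γ)
    (𝔅 : Finset ((Fin n → ℤ) × ℤ)) (hm : ∀ k ∈ 𝔅, m ≤ ((tbIn L Y k).card : ℝ)) (z : ST n) :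
    ((𝔅.filter fun k => tbCor L k ∈ closedBall z ρ).card : ℝ) * m ≤ Γ * ((1 + tbG n) * ρ) ^ n := by
  have hG := tr_tb_G_ge (n := n)
  have hΓ := tr_tb_count_nonneg hY
  obtain ⟨B', hB'⟩ : ∃ B', B' = 𝔅.filter fun k => tbCor L k ∈ closedBall z ρ := ⟨_, rfl⟩
  rw [← hB']
  have hdisj : ∀ x ∈ B', ∀ y ∈ B', x ≠ y → Disjoint (tbIn L Y x) (tbIn L Y y) := by
    intro x _ y _ hxy
    rw [Finset.disjoint_left]
    intro q hq1 hq2
    exact hxy ((Finset.mem_filter.1 hq1).2.symm.trans (Finset.mem_filter.1 hq2).2)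
  have hcard : ((B'.biUnion (tbIn L Y)).card : ℝ) = ∑ k ∈ B', ((tbIn L Y k).card : ℝ) := by
    rw [Finset.card_biUnion hdisj]; push_cast; rfl
  have h1 : (B'.card : ℝ) * m ≤ ((B'.biUnion (tbIn L Y)).card : ℝ) := by
    rw [hcard, ← nsmul_eq_mul, ← Finset.sum_const]
    refine Finset.sum_le_sum fun k hk => hm k ?_
    rw [hB'] at hk
    exact (Finset.mem_filter.1 hk).1
  have h2 : ((B'.biUnion (tbIn L Y)).card : ℝ) ≤ Γ * (ρ + tbG n * L) ^ n := by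
    refine hY z (ρ + tbG n * L) _ (by nlinarith) ?_ ?_
    · intro q hq
      obtain ⟨k, _, hq⟩ := Finset.mem_biUnion.1 hq
      exact (Finset.mem_filter.1 hq).1
    · intro q hq
      obtain ⟨k, hk, hq⟩ := Finset.mem_biUnion.1 hq
      refine ⟨_, tr_tb_corner_mem q, ?_⟩
      rw [hB'] at hk
      have hk2 := (Finset.mem_filter.1 hk).2
      rw [mem_closedBall] at hk2 ⊢
      have h3 := tr_tb_box_dist hL (Finset.mem_filter.1 hq).2 (tr_tb_corner_mem q)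
      rw [← dist_eq_norm] at h3
      have := dist_triangle ((zvec q.1, (q.2 : ℝ)) : ST n) (tbCor L k) z
      linarith
  refine h1.trans (h2.trans ?_)
  refine mul_le_mul_of_nonneg_left ?_ hΓ
  refine pow_le_pow_left₀ (by nlinarith) ?_ n
  nlinarith

/-- L-TB-G4. -/
theorem tr_tb_cor_norm {L : ℝ} (hL : 1 ≤ L) (hG : tbG n ≤ L) {Y : Finset ((Fin n → ℤ) × ℤ)}
    (hY : ∀ q ∈ Y, cube q ⊆ closedBall (0 : ST n) (2 * L ^ 2)) {k : (Fin n → ℤ) × ℤ} (hk : (tbIn L Y k).Nonempty) :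
    ‖tbCor L k‖ ≤ 3 * L ^ 2 := by
  obtain ⟨q, hq⟩ := hk
  have h1 := hY q (Finset.mem_filter.1 hq).1 (tr_tb_corner_mem q)
  rw [mem_closedBall, dist_zero_right] at h1
  have h3 := tr_tb_box_dist hL (Finset.mem_filter.1 hq).2 (tr_tb_corner_mem q)
  have h4 : ‖tbCor L k‖ ≤ ‖((zvec q.1, (q.2 : ℝ)) : ST n)‖ + ‖((zvec q.1, (q.2 : ℝ)) : ST n) - tbCor L k‖ := by
    have := norm_sub_le ((zvec q.1, (q.2 : ℝ)) : ST n) (((zvec q.1, (q.2 : ℝ)) : ST n) - tbCor L k)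
    simpa using this
  nlinarith

/-- L-TB-G5.  perturbation of transversality: `∑|t_i| ≤ Q (‖∑ t_i ξ'_i‖ + |∑ t_i|) ≤ Q (‖∑ t_i ξ_i‖ + d ∑ |t_i| + |∑ t_i|)`. -/
theorem tr_tb_transv {Q d : ℝ} (hQ : 0 ≤ Q) (hd : Q * d ≤ 1 / 2) {f : Fin (n + 1) → E n → ℂ} (hf : TransvS Q f)
    {ξ : Fin (n + 1) → E n} (hξ : ∀ i, ∃ ξ', f i ξ' ≠ 0 ∧ ‖ξ' - ξ i‖ ≤ d) : Transv (2 * Q) ξ := by
  choose ξ' h1 h2 using hξ
  intro t
  have h3 := hf ξ' h1 t
  have h4 : ‖∑ i, t i • ξ' i‖ ≤ ‖∑ i, t i • ξ i‖ + d * ∑ i, |t i| := by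
    have e : ∑ i, t i • ξ' i = ∑ i, t i • ξ i + ∑ i, t i • (ξ' i - ξ i) := by
      rw [← Finset.sum_add_distrib]
      refine Finset.sum_congr rfl fun i _ => ?_
      rw [← smul_add]; congr 1; abel
    rw [e]
    refine (norm_add_le _ _).trans ?_
    gcongr
    refine (norm_sum_le _ _).trans ?_
    rw [Finset.mul_sum]
    refine Finset.sum_le_sum fun i _ => ?_
    rw [norm_smul, Real.norm_eq_abs, mul_comm]
    exact mul_le_mul_of_nonneg_right (h2 i) (abs_nonneg _)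
  have hS : 0 ≤ ∑ i, |t i| := Finset.sum_nonneg fun i _ => abs_nonneg _
  have h5 : Q * ‖∑ i, t i • ξ' i‖ ≤ Q * (‖∑ i, t i • ξ i‖ + d * ∑ i, |t i|) := mul_le_mul_of_nonneg_left h4 hQ
  have h6 : Q * d * ∑ i, |t i| ≤ 1 / 2 * ∑ i, |t i| := mul_le_mul_of_nonneg_right hd hS
  nlinarith

/-- constants are absorbed in a positive power of `L` -/
theorem tr_tb_absorb (K a : ℝ) (ha : 0 < a) : ∃ L₀ : ℝ, 1 ≤ L₀ ∧ ∀ L, L₀ ≤ L → K ≤ L ^ a := by
  refine ⟨max 1 ((max K 1) ^ (1 / a)), le_max_left _ _, fun L hL => ?_⟩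
  have h1 : (max K 1) ^ (1 / a) ≤ L := (le_max_right _ _).trans hL
  have h0 : 0 < max K 1 := lt_of_lt_of_le one_pos (le_max_right _ _)
  calc K ≤ max K 1 := le_max_left _ _
    _ = ((max K 1) ^ (1 / a)) ^ a := by rw [← Real.rpow_mul h0.le, one_div_mul_cancel ha.ne', Real.rpow_one]
    _ ≤ L ^ a := Real.rpow_le_rpow (by positivity) h1 ha.le

/-- **EXIT of B0** (L-TB-G6): the points `pos k = tbCor L k / (3L²)` of the model.   From G2-G4; `s = ε/4`; `closedBall z r` in model coordinates = `closedBall (3L² z) (3L² r)`, `3L² r ≥ L`;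
`(3 (1 + tbG n))^n ≤ L^{ε/4}`, `2 ≤ L^{ε/4}` for `L ≥ L₀`. -/
theorem tr_tb_points (n : ℕ) (ε : ℝ) (hε : 0 < ε) : ∃ L₀ : ℝ, ∀ (R₀ c L : ℝ) (Y : Finset ((Fin n → ℤ) × ℤ)) (f : Fin (n + 1) → E n → ℂ)
    (𝔅 : Finset ((Fin n → ℤ) × ℤ)), L₀ ≤ L → 0 ≤ c → c ≤ ε / 4 → TbCfg n R₀ c L Y f →
    (∀ k ∈ 𝔅, L ^ ((n : ℝ) - ε / 4) ≤ ((tbIn L Y k).card : ℝ)) → L ^ ((n : ℝ) - ε / 4) ≤ 2 * (𝔅.card : ℝ) →
    𝔅.Nonempty ∧ (∀ k ∈ 𝔅, ‖(3 * L ^ 2)⁻¹ • tbCor L k‖ ≤ 1) ∧ L ^ ((n : ℝ) - ε) ≤ (𝔅.card : ℝ) ∧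
    ∀ (z : ST n) (r : ℝ), L⁻¹ ≤ r → r ≤ 1 →
      ((𝔅.filter fun k => (3 * L ^ 2)⁻¹ • tbCor L k ∈ closedBall z r).card : ℝ) ≤ L ^ ((n : ℝ) + ε) * r ^ n := by
  obtain ⟨La, hLa1, hLa⟩ := tr_tb_absorb (max 2 ((3 * (1 + tbG n)) ^ n)) (ε / 4) (by positivity)
  refine ⟨max La (tbG n), ?_⟩
  intro R₀ c L Y f 𝔅 hL hc0 hc hcfg hocc hcard
  have hLLa : La ≤ L := (le_max_left _ _).trans hL
  have hLG : tbG n ≤ L := (le_max_right _ _).trans hL
  have hL1 : 1 ≤ L := hLa1.trans hLLa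
  have hLpos : 0 < L := lt_of_lt_of_le one_pos hL1
  have hrp : ∀ {a b : ℝ}, a ≤ b → L ^ a ≤ L ^ b := fun h => Real.rpow_le_rpow_of_exponent_le hL1 h
  have hK := hLa L hLLa
  have hK2 : (2 : ℝ) ≤ L ^ (ε / 4) := (le_max_left _ _).trans hK
  have hKG : (3 * (1 + tbG n)) ^ n ≤ L ^ (ε / 4) := (le_max_right _ _).trans hK
  have h3L : (0 : ℝ) < 3 * L ^ 2 := by positivity
  refine ⟨?_, ?_, ?_, ?_⟩
  · rw [← Finset.card_pos]
    have h1 : (0 : ℝ) < 2 * (𝔅.card : ℝ) := lt_of_lt_of_le (Real.rpow_pos_of_pos hLpos _) hcard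
    have h2 : (0 : ℝ) < (𝔅.card : ℝ) := by linarith
    exact_mod_cast h2
  · intro k hk
    have hne : (tbIn L Y k).Nonempty := by
      rw [← Finset.card_pos]
      have h1 : (0 : ℝ) < ((tbIn L Y k).card : ℝ) := lt_of_lt_of_le (Real.rpow_pos_of_pos hLpos _) (hocc k hk)
      exact_mod_cast h1
    have h1 := tr_tb_cor_norm hL1 hLG hcfg.inball hne
    rw [norm_smul, Real.norm_of_nonneg (inv_nonneg.2 h3L.le), inv_mul_le_iff₀ h3L, mul_one]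
    exact h1
  · have h1 : L ^ ((n : ℝ) - ε) * 2 ≤ L ^ ((n : ℝ) - ε / 4) := by
      calc L ^ ((n : ℝ) - ε) * 2 ≤ L ^ ((n : ℝ) - ε) * L ^ (ε / 4) := mul_le_mul_of_nonneg_left hK2 (Real.rpow_nonneg hLpos.le _)
        _ = L ^ ((n : ℝ) - ε + ε / 4) := (Real.rpow_add hLpos _ _).symm
        _ ≤ L ^ ((n : ℝ) - ε / 4) := hrp (by linarith)
    linarith
  · intro z r hr hr1
    have hr0 : 0 < r := lt_of_lt_of_le (inv_pos.2 hLpos) hr
    have hρ : L ≤ 3 * L ^ 2 * r := by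
      have h1 : 1 ≤ L * r := by
        rw [inv_le_iff_one_le_mul₀ hLpos] at hr
        linarith
      nlinarith
    have hfil : (𝔅.filter fun k => (3 * L ^ 2)⁻¹ • tbCor L k ∈ closedBall z r)
        = 𝔅.filter fun k => tbCor L k ∈ closedBall ((3 * L ^ 2) • z) (3 * L ^ 2 * r) := by
      refine Finset.filter_congr fun k _ => ?_
      rw [mem_closedBall, mem_closedBall, dist_eq_norm, dist_eq_norm]
      have h1 : tbCor L k - (3 * L ^ 2) • z = (3 * L ^ 2) • ((3 * L ^ 2)⁻¹ • tbCor L k - z) := by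
        rw [smul_sub, smul_smul, mul_inv_cancel₀ h3L.ne', one_smul]
      rw [h1, norm_smul, Real.norm_of_nonneg h3L.le]
      exact (mul_le_mul_iff_right₀ h3L).symm
    rw [hfil]
    have h1 := tr_tb_ball hL1 hρ hcfg.count 𝔅 hocc ((3 * L ^ 2) • z)
    set N : ℝ := ((𝔅.filter fun k => tbCor L k ∈ closedBall ((3 * L ^ 2) • z) (3 * L ^ 2 * r)).card : ℝ) with hN
    have hm : 0 < L ^ ((n : ℝ) - ε / 4) := Real.rpow_pos_of_pos hLpos _
    have h2 : L ^ c * ((1 + tbG n) * (3 * L ^ 2 * r)) ^ n = L ^ c * (3 * (1 + tbG n)) ^ n * L ^ (2 * (n : ℝ)) * r ^ n := by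
      have : L ^ (2 * (n : ℝ)) = (L ^ 2) ^ n := by
        rw [← Real.rpow_natCast (L ^ 2) n, ← Real.rpow_natCast L 2, ← Real.rpow_mul hLpos.le]
        norm_num
      rw [this, show (1 + tbG n) * (3 * L ^ 2 * r) = (3 * (1 + tbG n)) * (L ^ 2) * r by ring, mul_pow, mul_pow]
      ring
    rw [h2] at h1
    have h3 : L ^ c * (3 * (1 + tbG n)) ^ n * L ^ (2 * (n : ℝ)) ≤ L ^ ((n : ℝ) + ε) * L ^ ((n : ℝ) - ε / 4) := by
      calc L ^ c * (3 * (1 + tbG n)) ^ n * L ^ (2 * (n : ℝ))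
          ≤ L ^ (ε / 4) * L ^ (ε / 4) * L ^ (2 * (n : ℝ)) := by
            refine mul_le_mul_of_nonneg_right ?_ (Real.rpow_nonneg hLpos.le _)
            exact mul_le_mul (hrp hc) hKG (by unfold tbG; positivity) (Real.rpow_nonneg hLpos.le _)
        _ = L ^ (ε / 4 + ε / 4 + 2 * (n : ℝ)) := by rw [Real.rpow_add hLpos, Real.rpow_add hLpos]
        _ ≤ L ^ ((n : ℝ) + ε + ((n : ℝ) - ε / 4)) := hrp (by linarith)
        _ = L ^ ((n : ℝ) + ε) * L ^ ((n : ℝ) - ε / 4) := Real.rpow_add hLpos _ _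
    have h4 : N * L ^ ((n : ℝ) - ε / 4) ≤ (L ^ ((n : ℝ) + ε) * r ^ n) * L ^ ((n : ℝ) - ε / 4) := by
      calc N * L ^ ((n : ℝ) - ε / 4) ≤ L ^ c * (3 * (1 + tbG n)) ^ n * L ^ (2 * (n : ℝ)) * r ^ n := h1
        _ ≤ L ^ ((n : ℝ) + ε) * L ^ ((n : ℝ) - ε / 4) * r ^ n := mul_le_mul_of_nonneg_right h3 (by positivity)
        _ = (L ^ ((n : ℝ) + ε) * r ^ n) * L ^ ((n : ℝ) - ε / 4) := by ring
    exact le_of_mul_le_mul_right h4 hm

end Claimed.Agent.R257.TR
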