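import Claimed.Agent.R257.TR.TubesGeo

/-!
# R257 / TR / TubesLoc : block B3 of t:tubes: THE LOCAL SQUARE FUNCTIONAL `tbN`, ADAPTERS OF `FractalStmt`, `StripSaveWith`.      Architect: helper195.
-/

set_option autoImplicit false

namespace Claimed.Agent.R257.TR

open Claimed.Agent.R257 MeasureTheory Metric Set
open scoped BigOperators ENNReal InnerProductSpace
open Classical

variable {n : ℕ}

/-- Cauchy-Schwarz with the cardinality in `ℝ≥0∞`. -/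
theorem tr_tb_cs {κ : Type*} (T : Finset κ) (a : κ → ℝ≥0∞) : (∑ j ∈ T, a j) ^ 2 ≤ (T.card : ℝ≥0∞) * ∑ j ∈ T, a j ^ 2 := by
  have h := ENNReal.inner_le_Lp_mul_Lq T a (fun _ => 1) (Real.HolderConjugate.two_two)
  simp only [mul_one, ENNReal.one_rpow, Finset.sum_const, nsmul_eq_mul] at h
  calc (∑ j ∈ T, a j) ^ 2 ≤ ((∑ j ∈ T, a j ^ (2 : ℝ)) ^ (1 / (2 : ℝ)) * (T.card : ℝ≥0∞) ^ (1 / (2 : ℝ))) ^ 2 := pow_le_pow_left₀ zero_le h 2
    _ = (T.card : ℝ≥0∞) * ∑ j ∈ T, a j ^ 2 := by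
        rw [mul_pow, ← ENNReal.rpow_natCast, ← ENNReal.rpow_natCast, ← ENNReal.rpow_mul, ← ENNReal.rpow_mul]
        norm_num
        rw [mul_comm]

/-- L-TB-N1.  `sup_q |∑_j F_j| ≤ ∑_j sup_q |F_j|`, Cauchy-Schwarz `(∑_{j ∈ T} a_j)² ≤ #T ∑ a_j²` in `ℝ≥0∞` (`ENNReal.inner_le_Lp_mul_Lq` or `inner_mul_le_norm_mul_norm`-free: induction / `Finset.sum_mul_sq_le_sq_mul_sq` after `toReal`; the case of an infinite term is trivial). -/
theorem tr_tb_N_sum_le {κ : Type*} (Z : Finset ((Fin n → ℤ) × ℤ)) (T : Finset κ) (F : κ → ST n → ℂ) :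
    tbN Z (fun z => ∑ j ∈ T, F j z) ≤ (T.card : ℝ≥0∞) * ∑ j ∈ T, tbN Z (F j) := by
  unfold tbN
  rw [Finset.sum_comm, Finset.mul_sum]
  refine Finset.sum_le_sum fun q _ => ?_
  refine le_trans (pow_le_pow_left₀ zero_le ?_ 2) (tr_tb_cs T fun j => ⨆ z ∈ cube q, ‖F j z‖ₑ)
  refine iSup₂_le fun z hz => ?_
  refine (enorm_sum_le _ _).trans (Finset.sum_le_sum fun j _ => ?_)
  exact le_iSup₂ (f := fun z (_ : z ∈ cube q) => ‖F j z‖ₑ) z hz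

/-- L-TB-N1. -/
theorem tr_tb_N_lower (Z : Finset ((Fin n → ℤ) × ℤ)) (F : ST n → ℂ) {a : ℝ} (ha : 0 ≤ a) (h : ∀ q ∈ Z, ∃ z ∈ cube q, a ≤ ‖F z‖) :
    ENNReal.ofReal ((Z.card : ℝ) * a ^ 2) ≤ tbN Z F := by
  unfold tbN
  calc ENNReal.ofReal ((Z.card : ℝ) * a ^ 2) = ∑ _q ∈ Z, ENNReal.ofReal (a ^ 2) := by
        rw [Finset.sum_const, nsmul_eq_mul, ENNReal.ofReal_mul (Nat.cast_nonneg _), ENNReal.ofReal_natCast]
    _ ≤ ∑ q ∈ Z, (⨆ z ∈ cube q, ‖F z‖ₑ) ^ 2 := by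
        refine Finset.sum_le_sum fun q hq => ?_
        obtain ⟨z, hz, hle⟩ := h q hq
        rw [ENNReal.ofReal_pow ha]
        refine pow_le_pow_left₀ zero_le ?_ 2
        refine le_trans ?_ (le_iSup₂ (f := fun z (_ : z ∈ cube q) => ‖F z‖ₑ) z hz)
        rw [← ofReal_norm]
        exact ENNReal.ofReal_le_ofReal hle

theorem tr_tb_N_congr (Z : Finset ((Fin n → ℤ) × ℤ)) {F F' : ST n → ℂ} (h : ∀ z, F z = F' z) : tbN Z F = tbN Z F' := by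
  have : F = F' := funext h
  rw [this]

/-- L-TB-N2 (~150 l.).  **integer time translation.**   `w = (0, τ₀)`, `G' ξ = car ξ w * G ξ` (`inf_ext_translate`: `ext G' z = ext G (z + w)`; `inf_dat_modulate`; `∫ |G'|² = ∫ |G|²`),
`μ = ∑_{q ∈ Z} Measure.dirac (zvec q.1, q.2 - τ₀)` (the corner of the translated cube `q' = (q.1, q.2 - τ₀)`; it belongs to `cube q'` and to no other cube).
`Grow μ Γ n`: `μ (closedBall z r) = #{q : corner' ∈ closedBall z r} ≤ Γ r^n` (`hZ` at the centre `z + w`).   `Slab μ S`.   `supN b μ (ext G') ≥ ∑_{q ∈ Z} 1^b (sup_{cube q'} |ext G'|)² = tbN Z (ext G)` (`ENNReal.sum_le_tsum` over the image). -/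
theorem tr_tb_supN (b : ℝ) (hb : 0 ≤ b) {S Γ R₁ : ℝ} {Z : Finset ((Fin n → ℤ) × ℤ)} (τ₀ : ℤ) (hτ : ∀ q ∈ Z, |(q.2 : ℝ) - τ₀| + 1 ≤ S)
    (hZ : TbCount Z Γ) {G : E n → ℂ} (hG : Dat R₁ G) :
    ∃ (μ : Measure (ST n)) (G' : E n → ℂ), Grow μ Γ n ∧ Slab μ S ∧ Dat R₁ G' ∧ (∀ ξ, ‖G' ξ‖ = ‖G ξ‖) ∧ tbN Z (ext G) ≤ supN b μ (ext G') := by
  set w : ST n := (0, (τ₀ : ℝ)) with hw
  set cr : (Fin n → ℤ) × ℤ → ST n := fun q => (zvec q.1, (q.2 : ℝ) - τ₀) with hcr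
  set sg : (Fin n → ℤ) × ℤ → (Fin n → ℤ) × ℤ := fun q => (q.1, q.2 - τ₀) with hsg
  have hsginj : Function.Injective sg := by
    intro q q' h
    rw [hsg] at h
    simp only [Prod.mk.injEq] at h
    exact Prod.ext h.1 (by linarith [h.2])
  have hcr_mem : ∀ q, cr q ∈ cube (sg q) := by
    intro q
    refine ⟨fun i => ⟨?_, ?_⟩, ?_, ?_⟩
    · simp [hcr, hsg, zvec]
    · simp [hcr, hsg, zvec]
    · simp [hcr, hsg]
    · simp [hcr, hsg]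
  have hcrw : ∀ q, cr q + w ∈ cube q := by
    intro q
    refine ⟨fun i => ⟨?_, ?_⟩, ?_, ?_⟩
    · simp [hcr, hw, zvec]
    · simp [hcr, hw, zvec]
    · simp [hcr, hw]
    · simp [hcr, hw]
  refine ⟨∑ q ∈ Z, Measure.dirac (cr q), fun ξ => car ξ w * G ξ, ?_, ?_, inf_dat_modulate hG w, fun ξ => by rw [norm_mul, inf_car_norm, one_mul], ?_⟩
  · -- growth
    intro z r hr
    rw [Measure.finsetSum_apply]
    simp_rw [Measure.dirac_apply]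
    have h1 : ∑ q ∈ Z, (closedBall z r).indicator (1 : ST n → ℝ≥0∞) (cr q) = ((Z.filter fun q => cr q ∈ closedBall z r).card : ℝ≥0∞) := by
      rw [Finset.card_filter]
      push_cast
      refine Finset.sum_congr rfl fun q _ => ?_
      by_cases h : cr q ∈ closedBall z r <;> simp [h]
    rw [h1, ← ENNReal.ofReal_natCast, Real.rpow_natCast]
    refine ENNReal.ofReal_le_ofReal ?_
    refine hZ (z + w) r _ hr (Finset.filter_subset _ _) fun q hq => ⟨cr q + w, hcrw q, ?_⟩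
    rw [Finset.mem_filter] at hq
    rw [mem_closedBall, dist_add_right]
    exact hq.2
  · -- slab
    unfold Slab
    rw [Measure.finsetSum_apply]
    refine Finset.sum_eq_zero fun q hq => ?_
    rw [Measure.dirac_apply, Set.indicator_of_notMem]
    rw [Set.mem_ofPred_eq, not_lt]
    have := hτ q hq
    simp only [hcr]
    linarith
  · -- the functional
    unfold tbN supN
    have hterm : ∀ q ∈ Z, (⨆ z ∈ cube q, ‖ext G z‖ₑ) ^ 2 ≤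
        (∑ q ∈ Z, Measure.dirac (cr q)) (cube (sg q)) ^ b * (⨆ z ∈ cube (sg q), ‖ext (fun ξ => car ξ w * G ξ) z‖ₑ) ^ 2 := by
      intro q hq
      have h1 : (1 : ℝ≥0∞) ≤ (∑ q ∈ Z, Measure.dirac (cr q)) (cube (sg q)) := by
        rw [Measure.finsetSum_apply]
        refine le_trans ?_ (Finset.single_le_sum (f := fun q' => Measure.dirac (cr q') (cube (sg q))) (fun _ _ => zero_le) hq)
        rw [Measure.dirac_apply, Set.indicator_of_mem (hcr_mem q)]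
        rfl
      have h2 : (1 : ℝ≥0∞) ≤ (∑ q ∈ Z, Measure.dirac (cr q)) (cube (sg q)) ^ b := by
        calc (1 : ℝ≥0∞) = 1 ^ b := (ENNReal.one_rpow b).symm
          _ ≤ _ := ENNReal.rpow_le_rpow h1 hb
      have h3 : (⨆ z ∈ cube q, ‖ext G z‖ₑ) ≤ ⨆ z ∈ cube (sg q), ‖ext (fun ξ => car ξ w * G ξ) z‖ₑ := by
        refine iSup₂_le fun z hz => ?_
        have hz' : z - w ∈ cube (sg q) := by
          obtain ⟨a1, a2, a3⟩ := hz
          refine ⟨fun i => ?_, ?_, ?_⟩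
          · simpa [hw, hsg] using a1 i
          · simp only [hw, hsg, Prod.snd_sub]
            push_cast
            linarith
          · simp only [hw, hsg, Prod.snd_sub]
            push_cast
            linarith
        refine le_trans (le_of_eq ?_) (le_iSup₂ (f := fun z (_ : z ∈ cube (sg q)) => ‖ext (fun ξ => car ξ w * G ξ) z‖ₑ) (z - w) hz')
        rw [← inf_ext_translate, sub_add_cancel]
      calc (⨆ z ∈ cube q, ‖ext G z‖ₑ) ^ 2 ≤ (⨆ z ∈ cube (sg q), ‖ext (fun ξ => car ξ w * G ξ) z‖ₑ) ^ 2 := pow_le_pow_left₀ zero_le h3 2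
        _ = 1 * (⨆ z ∈ cube (sg q), ‖ext (fun ξ => car ξ w * G ξ) z‖ₑ) ^ 2 := (one_mul _).symm
        _ ≤ _ := mul_le_mul_left h2 _
    calc ∑ q ∈ Z, (⨆ z ∈ cube q, ‖ext G z‖ₑ) ^ 2
        ≤ ∑ q ∈ Z, (∑ q ∈ Z, Measure.dirac (cr q)) (cube (sg q)) ^ b * (⨆ z ∈ cube (sg q), ‖ext (fun ξ => car ξ w * G ξ) z‖ₑ) ^ 2 :=
          Finset.sum_le_sum hterm
      _ = ∑ k ∈ Z.image sg, (∑ q ∈ Z, Measure.dirac (cr q)) (cube k) ^ b * (⨆ z ∈ cube k, ‖ext (fun ξ => car ξ w * G ξ) z‖ₑ) ^ 2 := by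
          rw [Finset.sum_image fun q _ q' _ h => hsginj h]
      _ ≤ _ := ENNReal.sum_le_tsum _

/-- L-TB-N3.  the local fractal estimate for finite families of cubes (from `tr_tb_supN`). -/
theorem tr_tb_frac {R₁ ε C : ℝ} (hFr : FractalWith n R₁ ε C) {S Γ : ℝ} (hS : 1 ≤ S) (hΓ : 0 ≤ Γ) {Z : Finset ((Fin n → ℤ) × ℤ)} (τ₀ : ℤ)
    (hτ : ∀ q ∈ Z, |(q.2 : ℝ) - τ₀| + 1 ≤ S) (hZ : TbCount Z Γ) {G : E n → ℂ} (hG : Dat R₁ G) :
    tbN Z (ext G) ≤ ENNReal.ofReal (C * Γ ^ bet n * S ^ ((n : ℝ) / ((n : ℝ) + 1) + ε) * ∫ ξ, ‖G ξ‖ ^ 2) := by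
  have hb : 0 ≤ bet n := by unfold bet; positivity
  obtain ⟨μ, G', h1, h2, h3, h4, h5⟩ := tr_tb_supN (bet n) hb τ₀ hτ hZ hG
  refine h5.trans ((hFr S Γ μ G' hS hΓ h1 h2 h3).trans (le_of_eq ?_))
  simp_rw [h4]

/-- L-TB-N3.  the local strip estimate for finite families of cubes (from `tr_tb_supN`; the support condition only involves `G ξ ≠ 0 ↔ G' ξ ≠ 0`). -/
theorem tr_tb_strip {R₁ Cs α b c₀ ε C : ℝ} (hb : 0 ≤ b) (hSt : StripSaveWith n R₁ Cs α b c₀ ε C) {S Γ : ℝ} (hS : 1 ≤ S) (hΓ : 0 ≤ Γ)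
    {Z : Finset ((Fin n → ℤ) × ℤ)} (τ₀ : ℤ) (hτ : ∀ q ∈ Z, |(q.2 : ℝ) - τ₀| + 1 ≤ S) (hZ : TbCount Z Γ) {G : E n → ℂ} (hG : Dat R₁ G)
    (N : Fin 2 → E n) (c : Fin 2 → ℝ) (hN : Orthonormal ℝ N) (hs : ∀ ξ, G ξ ≠ 0 → ∀ i, |inner ℝ (N i) ξ - c i| ≤ Cs * S ^ (-α)) :
    tbN Z (ext G) ≤ ENNReal.ofReal (C * Γ ^ b * S ^ ((n : ℝ) / ((n : ℝ) + 1) - c₀ * α + ε) * ∫ ξ, ‖G ξ‖ ^ 2) := by
  obtain ⟨μ, G', h1, h2, h3, h4, h5⟩ := tr_tb_supN b hb τ₀ hτ hZ hG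
  refine h5.trans ((hSt S Γ μ G' N c hS hΓ h1 h2 h3 hN (fun ξ hξ => hs ξ ?_)).trans (le_of_eq ?_))
  · intro h0
    apply hξ
    rw [← norm_eq_zero, h4, h0, norm_zero]
  · simp_rw [h4]

end Claimed.Agent.R257.TR
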