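import Claimed.Agent.R257.TR.TubesPk
import Claimed.Agent.R257.TR.TubesLoc

/-!
# R257 / TR / TubesLow : block B4 of t:tubes: THE RETAINED FIELD ON A BOX, LOWER BOUND OF THE INCIDENT WEIGHTS (transverse.tex l.174-183).      Architect: helper195.
-/

set_option autoImplicit false

namespace Claimed.Agent.R257.TR

open Claimed.Agent.R257 MeasureTheory Metric Set
open scoped BigOperators ENNReal InnerProductSpace
open Classical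

variable {n : ℕ}

/-- L-TB-F1 (~200 l.).  **FIELD.**   `q` a cube of the box `k`, `z ∈ cube q` the witness of `hbig`.   `|z.2| ≤ 2L²`, `|(tbCor L k).2| ≤ 3L²` (`tr_tb_cor_norm`), `‖z - tbCor L k‖ ≤ tbG n L` (`tr_tb_box_dist`).
`α ∉ t` ⟹ `α ∉ nr` ⟹ `td α (corner) > L^{1+θ}` (`tr_tb_mem_nr`) ⟹ `td α z ≥ L^{1+θ} - (3 + 2R₀) tbG n L ≥ L^{1+θ}/2` (`tr_tb_td_lip`, `tr_tb_om_le`, `Cp ≤ L`; `L^θ ≥ 2 (3 + 2 R₀) tbG n`).
`TbPk.tail` with `ρ = L^{1+θ}/2`: `|ext f z - ext (G t) z|² ≤ Cp (1 + L^θ/2)^{-A} ≤ Cp 2^A L^{-θ A} ≤ Cp 2^A L^{-2e-4} ≤ (L^{-e-c}/2)²` (`c ≤ 1`, `L² ≥ 4 Cp 2^A`). -/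
theorem tr_tb_field (R₀ θ : ℝ) (hR : 0 ≤ R₀) (hθ : 0 < θ) (A : ℕ) (hA : 2 * eex n + 4 ≤ θ * A) (Cp : ℝ) : ∃ L₀ : ℝ, ∀ (L c : ℝ)
    (Y : Finset ((Fin n → ℤ) × ℤ)) (f : E n → ℂ) (P : TbPk n L (R₀ + 1) Cp A f) (k : (Fin n → ℤ) × ℤ) (t : Finset P.J),
    L₀ ≤ L → 0 ≤ c → c ≤ 1 → Dat R₀ f → (∀ q ∈ Y, cube q ⊆ closedBall (0 : ST n) (2 * L ^ 2)) →
    (∀ q ∈ Y, ∃ z ∈ cube q, L ^ (-(eex n) - c) ≤ ‖ext f z‖) → P.nr (tbCor L k) (L ^ (1 + θ)) ⊆ t →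
    ∀ q ∈ tbIn L Y k, ∃ z ∈ cube q, L ^ (-(eex n) - c) / 2 ≤ ‖ext (P.G t) z‖ := by
  have hG0 : 0 < tbG n := by
    unfold tbG
    have := Real.sqrt_nonneg (n : ℝ)
    linarith
  obtain ⟨B, hBdef⟩ : ∃ B : ℝ, B = 2 * (3 + 2 * R₀) * tbG n := ⟨_, rfl⟩
  have hB0 : 0 < B := by rw [hBdef]; positivity
  refine ⟨max (max 1 (tbG n)) (max (max Cp (B ^ (1 / θ))) (4 * Cp * 2 ^ A)), ?_⟩
  intro L c Y f P k t hL hc0 hc1 hf hY hbig hnr q hq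
  have hL1 : 1 ≤ L := ((le_max_left _ _).trans (le_max_left _ _)).trans hL
  have hLG : tbG n ≤ L := ((le_max_right _ _).trans (le_max_left _ _)).trans hL
  have hLCp : Cp ≤ L := ((le_max_left _ _).trans ((le_max_left _ _).trans (le_max_right _ _))).trans hL
  have hLB : B ^ (1 / θ) ≤ L := ((le_max_right _ _).trans ((le_max_left _ _).trans (le_max_right _ _))).trans hL
  have hL4 : 4 * Cp * 2 ^ A ≤ L := ((le_max_right _ _).trans (le_max_right _ _)).trans hL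
  have hL0 : 0 < L := by linarith
  have hCp0 : 0 ≤ Cp := by simpa using P.w_sum ∅
  have hX : B ≤ L ^ θ := by
    have h1 := Real.rpow_le_rpow (Real.rpow_nonneg hB0.le _) hLB hθ.le
    rwa [← Real.rpow_mul hB0.le, one_div_mul_cancel hθ.ne', Real.rpow_one] at h1
  have hqY : q ∈ Y := (Finset.mem_filter.1 hq).1
  have hqk : tbBox L q = k := (Finset.mem_filter.1 hq).2
  obtain ⟨z, hz, hzbig⟩ := hbig q hqY
  refine ⟨z, hz, ?_⟩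
  have hzn : ‖z‖ ≤ 2 * L ^ 2 := mem_closedBall_zero_iff.1 (hY q hqY hz)
  have hz2 : |z.2| ≤ 3 * L ^ 2 := by
    have h1 : ‖z.2‖ ≤ ‖z‖ := norm_snd_le z
    rw [Real.norm_eq_abs] at h1
    nlinarith [sq_nonneg L]
  have hcor : ‖tbCor L k‖ ≤ 3 * L ^ 2 := tr_tb_cor_norm hL1 hLG hY ⟨q, hq⟩
  have hcor2 : |(tbCor L k).2| ≤ 3 * L ^ 2 := by
    have h1 : ‖(tbCor L k).2‖ ≤ ‖tbCor L k‖ := norm_snd_le _
    rw [Real.norm_eq_abs] at h1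
    linarith
  have hdist : ‖z - tbCor L k‖ ≤ tbG n * L := tr_tb_box_dist hL1 hqk hz
  have hLθ : L ^ (1 + θ) = L * L ^ θ := by rw [Real.rpow_add hL0, Real.rpow_one]
  have hfar : ∀ α, α ∉ t → L ^ (1 + θ) / 2 ≤ ‖z.1 - P.y α - (2 * z.2) • P.om α‖ := by
    intro α hα
    have h1 : ¬ P.td α (tbCor L k) ≤ L ^ (1 + θ) := fun h => hα (hnr ((tr_tb_mem_nr P hcor2 _ α).2 h))
    have h2 := tr_tb_td_lip P α (tbCor L k) z
    have h3 : ‖P.om α‖ ≤ R₀ + 1 := by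
      have h4 := tr_tb_om_le P hf α
      have h5 : Cp / L ≤ 1 := (div_le_one hL0).2 hLCp
      linarith
    have h6 : (1 + 2 * ‖P.om α‖) * ‖tbCor L k - z‖ ≤ (3 + 2 * R₀) * (tbG n * L) := by
      rw [norm_sub_rev]
      exact mul_le_mul (by linarith) hdist (norm_nonneg _) (by linarith)
    have h7 : (3 + 2 * R₀) * (tbG n * L) ≤ L ^ (1 + θ) / 2 := by
      rw [hLθ]
      have : B * L ≤ L ^ θ * L := mul_le_mul_of_nonneg_right hX hL0.le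
      rw [hBdef] at this
      linarith
    show L ^ (1 + θ) / 2 ≤ P.td α z
    rw [not_le] at h1
    linarith
  have htail := P.tail z (L ^ (1 + θ) / 2) t hz2 (by positivity) hfar
  have hρ : L ^ (1 + θ) / 2 / L = L ^ θ / 2 := by
    rw [hLθ]
    field_simp
  rw [hρ] at htail
  have hXpos : 0 < L ^ θ := Real.rpow_pos_of_pos hL0 _
  obtain ⟨e, he⟩ : ∃ e : ℝ, e = eex n := ⟨_, rfl⟩
  rw [← he] at hA hzbig ⊢
  have h1 : (1 + L ^ θ / 2) ^ (-(A : ℝ)) ≤ L ^ (-2 * e - 4) * 2 ^ A := by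
    calc (1 + L ^ θ / 2) ^ (-(A : ℝ)) ≤ (L ^ θ / 2) ^ (-(A : ℝ)) :=
          Real.rpow_le_rpow_of_nonpos (by positivity) (by linarith) (by simp)
      _ = L ^ (θ * -(A : ℝ)) * 2 ^ A := by
          rw [Real.div_rpow hXpos.le (by norm_num), ← Real.rpow_mul hL0.le, Real.rpow_neg (by norm_num : (0 : ℝ) ≤ 2),
            Real.rpow_natCast, div_inv_eq_mul]
      _ ≤ L ^ (-2 * e - 4) * 2 ^ A := by
          refine mul_le_mul_of_nonneg_right ?_ (by positivity)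
          exact Real.rpow_le_rpow_of_exponent_le hL1 (by linarith)
  have e1 : L ^ (-2 * e - 4) = L ^ (-2 * e - 2) / L ^ 2 := by
    rw [show -2 * e - 4 = (-2 * e - 2) - ((2 : ℕ) : ℝ) by push_cast; ring, Real.rpow_sub hL0, Real.rpow_natCast]
  have e2 : (L ^ (-e - c) / 2) ^ 2 = L ^ (-2 * e - 2 * c) / 4 := by
    rw [div_pow, ← Real.rpow_natCast (L ^ (-e - c)) 2, ← Real.rpow_mul hL0.le]
    congr 1
    · congr 1
      push_cast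
      ring
    · norm_num
  have h2 : L ^ (-2 * e - 2) ≤ L ^ (-2 * e - 2 * c) := Real.rpow_le_rpow_of_exponent_le hL1 (by linarith)
  have hu : 0 < L ^ (-2 * e - 2) := Real.rpow_pos_of_pos hL0 _
  have h3 : Cp * (L ^ (-2 * e - 4) * 2 ^ A) ≤ L ^ (-2 * e - 2) / 4 := by
    rw [e1]
    have h4 : 4 * Cp * 2 ^ A ≤ L ^ 2 := by nlinarith
    have h5 : Cp * (L ^ (-2 * e - 2) / L ^ 2 * 2 ^ A) = L ^ (-2 * e - 2) / 4 * ((4 * Cp * 2 ^ A) / L ^ 2) := by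
      field_simp
    rw [h5]
    exact mul_le_of_le_one_right (by positivity) ((div_le_one (by positivity)).2 h4)
  have h4 : ‖ext f z - ext (P.G t) z‖ ^ 2 ≤ (L ^ (-e - c) / 2) ^ 2 := by
    rw [e2]
    calc ‖ext f z - ext (P.G t) z‖ ^ 2 ≤ Cp * (1 + L ^ θ / 2) ^ (-(A : ℝ)) := htail
      _ ≤ Cp * (L ^ (-2 * e - 4) * 2 ^ A) := mul_le_mul_of_nonneg_left h1 hCp0
      _ ≤ L ^ (-2 * e - 2) / 4 := h3
      _ ≤ L ^ (-2 * e - 2 * c) / 4 := by linarith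
  have h5 : ‖ext f z - ext (P.G t) z‖ ≤ L ^ (-e - c) / 2 :=
    (pow_le_pow_iff_left₀ (norm_nonneg _) (by positivity) (by norm_num)).1 h4
  have h6 : ‖ext f z‖ ≤ ‖ext f z - ext (P.G t) z‖ + ‖ext (P.G t) z‖ := by
    have := norm_add_le (ext f z - ext (P.G t) z) (ext (P.G t) z)
    simpa using this
  linarith

/-- **EXIT of B4** (L-TB-F2, ~200 l.).  **LOW.**   `C` from `FractalStmt (R₀+1) (s/8)`.   `tr_tb_N_lower`: `#Z L^{-2e-2c}/4 ≤ tbN Z (ext (G t))`;   `tr_tb_frac` (`S = 3L`, `Γ = L^c`, `Γ^β ≤ L^c`) and `TbPk.l2`: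
`tbN ≤ C L^c (3L)^{n/(n+1)+s/8} Cp W`.   Exponents: `n - s/8 - 2e - 2c - c - n/(n+1) - s/8 = -e - s/4 - 3c ≥ -e - 5s/8`;  `4 · 9 · C Cp ≤ L^{3s/8}`. -/
theorem tr_tb_low (hn : 2 ≤ n) (hFr : FractalStmt n) (R₀ s : ℝ) (hs : 0 < s) (Cp : ℝ) (A : ℕ) : ∃ L₀ : ℝ, ∀ (L c : ℝ)
    (Z : Finset ((Fin n → ℤ) × ℤ)) (τ₀ : ℤ) (f : E n → ℂ) (P : TbPk n L (R₀ + 1) Cp A f) (t : Finset P.J),
    L₀ ≤ L → 0 ≤ c → c ≤ s / 8 → TbCount Z (L ^ c) → (∀ q ∈ Z, |(q.2 : ℝ) - τ₀| + 1 ≤ 3 * L) → L ^ ((n : ℝ) - s / 8) ≤ (Z.card : ℝ) →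
    (∀ q ∈ Z, ∃ z ∈ cube q, L ^ (-(eex n) - c) / 2 ≤ ‖ext (P.G t) z‖) → L ^ (-(eex n) - s) ≤ P.W t := by
  obtain ⟨C, hC⟩ := hFr (R₀ + 1) (s / 8) (by positivity)
  obtain ⟨γ, hγ⟩ : ∃ γ : ℝ, γ = (n : ℝ) / ((n : ℝ) + 1) + s / 8 := ⟨_, rfl⟩
  obtain ⟨K, hK⟩ : ∃ K : ℝ, K = max (4 * (max C 0) * 3 ^ γ * Cp) 1 := ⟨_, rfl⟩
  have hK1 : 1 ≤ K := by rw [hK]; exact le_max_right _ _
  have hK2 : 4 * (max C 0) * 3 ^ γ * Cp ≤ K := by rw [hK]; exact le_max_left _ _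
  refine ⟨max 1 (K ^ (1 / (3 * s / 8))), ?_⟩
  intro L c Z τ₀ f P t hL hc0 hc1 hcount hτ hcard hbig
  have hL1 : 1 ≤ L := (le_max_left _ _).trans hL
  have hL0 : 0 < L := by linarith
  have hKL : K ≤ L ^ (3 * s / 8) := by
    have h1 := Real.rpow_le_rpow (Real.rpow_nonneg (by linarith : (0 : ℝ) ≤ K) _) ((le_max_right _ _).trans hL)
      (by positivity : 0 ≤ 3 * s / 8)
    rwa [← Real.rpow_mul (by linarith), one_div_mul_cancel (by positivity), Real.rpow_one] at h1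
  have hCp0 : 0 ≤ Cp := by simpa using P.w_sum ∅
  have hW0 := tr_tb_W_nonneg P t
  obtain ⟨e, he⟩ : ∃ e : ℝ, e = eex n := ⟨_, rfl⟩
  have hn0 : (0 : ℝ) < (n : ℝ) + 1 := by positivity
  have hee : (n : ℝ) - 2 * e - (n : ℝ) / ((n : ℝ) + 1) = -e := by
    rw [he]
    unfold eex
    field_simp
    ring
  rw [← he] at hbig ⊢
  have ha0 : 0 < L ^ (-e - c) / 2 := by positivity
  have h1 := tr_tb_N_lower Z (ext (P.G t)) ha0.le hbig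
  have h2 := tr_tb_frac hC (S := 3 * L) (Γ := L ^ c) (by linarith) (by positivity) τ₀ hτ hcount (P.dat t)
  have h3 := h1.trans h2
  have hZ0 : 0 < (Z.card : ℝ) := lt_of_lt_of_le (Real.rpow_pos_of_pos hL0 _) hcard
  rw [← hγ] at h3
  have h4 : (Z.card : ℝ) * (L ^ (-e - c) / 2) ^ 2 ≤ C * (L ^ c) ^ bet n * (3 * L) ^ γ * ∫ ξ, ‖P.G t ξ‖ ^ 2 := by
    rcases (ENNReal.ofReal_le_ofReal_iff').1 h3 with h | h
    · exact h
    · exfalso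
      have : 0 < (Z.card : ℝ) * (L ^ (-e - c) / 2) ^ 2 := by positivity
      linarith
  have hI0 : 0 ≤ ∫ ξ, ‖P.G t ξ‖ ^ 2 := integral_nonneg fun ξ => by positivity
  have hI1 : ∫ ξ, ‖P.G t ξ‖ ^ 2 ≤ Cp * P.W t := P.l2 t
  have hβ : bet n ≤ 1 := by
    unfold bet
    rw [div_le_one hn0]
    have : (2 : ℝ) ≤ n := by exact_mod_cast hn
    linarith
  have hΓ : (L ^ c) ^ bet n ≤ L ^ c := by
    rw [← Real.rpow_mul hL0.le]
    refine Real.rpow_le_rpow_of_exponent_le hL1 ?_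
    nlinarith
  have hΓ0 : 0 ≤ (L ^ c) ^ bet n := by positivity
  have hS : (3 * L) ^ γ = 3 ^ γ * L ^ γ := Real.mul_rpow (by norm_num) hL0.le
  have h3γ : (0 : ℝ) < 3 ^ γ := Real.rpow_pos_of_pos (by norm_num) _
  have hC1 : 0 ≤ max C 0 := le_max_right _ _
  have h5 : C * (L ^ c) ^ bet n * (3 * L) ^ γ * ∫ ξ, ‖P.G t ξ‖ ^ 2 ≤ max C 0 * L ^ c * (3 ^ γ * L ^ γ) * (Cp * P.W t) := by
    rw [hS]
    have a1 : C * (L ^ c) ^ bet n ≤ max C 0 * L ^ c :=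
      (mul_le_mul_of_nonneg_right (le_max_left C 0) hΓ0).trans (mul_le_mul_of_nonneg_left hΓ hC1)
    have a2 : C * (L ^ c) ^ bet n * (3 ^ γ * L ^ γ) ≤ max C 0 * L ^ c * (3 ^ γ * L ^ γ) :=
      mul_le_mul_of_nonneg_right a1 (by positivity)
    exact mul_le_mul a2 hI1 hI0 (by positivity)
  have e2 : (L ^ (-e - c) / 2) ^ 2 = L ^ (-2 * e - 2 * c) / 4 := by
    rw [div_pow, ← Real.rpow_natCast (L ^ (-e - c)) 2, ← Real.rpow_mul hL0.le]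
    congr 1
    · congr 1
      push_cast
      ring
    · norm_num
  have h6 : L ^ ((n : ℝ) - s / 8) * (L ^ (-2 * e - 2 * c) / 4) ≤ (Z.card : ℝ) * (L ^ (-e - c) / 2) ^ 2 := by
    rw [e2]
    exact mul_le_mul_of_nonneg_right hcard (by positivity)
  have key : L ^ ((n : ℝ) - s / 8) * L ^ (-2 * e - 2 * c) ≤ K * P.W t * (L ^ c * L ^ γ) := by
    have a1 := (h6.trans h4).trans h5
    have a2 : max C 0 * L ^ c * (3 ^ γ * L ^ γ) * (Cp * P.W t) = (4 * max C 0 * 3 ^ γ * Cp) * P.W t * (L ^ c * L ^ γ) / 4 := by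
      ring
    rw [a2] at a1
    have a3 : (4 * max C 0 * 3 ^ γ * Cp) * P.W t * (L ^ c * L ^ γ) ≤ K * P.W t * (L ^ c * L ^ γ) :=
      mul_le_mul_of_nonneg_right (mul_le_mul_of_nonneg_right hK2 hW0) (by positivity)
    linarith
  have e5 : L ^ (-e - s / 4 - 3 * c) * (L ^ c * L ^ γ) = L ^ ((n : ℝ) - s / 8) * L ^ (-2 * e - 2 * c) := by
    rw [← Real.rpow_add hL0, ← Real.rpow_add hL0, ← Real.rpow_add hL0]
    congr 1
    rw [hγ]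
    linarith
  rw [← e5] at key
  have h7 : L ^ (-e - s / 4 - 3 * c) ≤ K * P.W t := le_of_mul_le_mul_right key (by positivity)
  have h8 : L ^ (-e - 5 * s / 8) ≤ L ^ (-e - s / 4 - 3 * c) := Real.rpow_le_rpow_of_exponent_le hL1 (by linarith)
  have h9 : K * P.W t ≤ L ^ (3 * s / 8) * P.W t := mul_le_mul_of_nonneg_right hKL hW0
  have e6 : L ^ (-e - 5 * s / 8) = L ^ (3 * s / 8) * L ^ (-e - s) := by
    rw [← Real.rpow_add hL0]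
    congr 1
    ring
  have h10 : L ^ (3 * s / 8) * L ^ (-e - s) ≤ L ^ (3 * s / 8) * P.W t := by
    rw [← e6]
    linarith
  exact le_of_mul_le_mul_left h10 (Real.rpow_pos_of_pos hL0 _)

end Claimed.Agent.R257.TR
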