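import Claimed.Agent.R257.TR.TubesGeo

/-!
# R257 / TR / TubesOcc : block B1 of t:tubes: OCCUPANCY OF THE `L`-BOXES (transverse.tex l.161-172, redesigned: report 862 (4)).      Architect: helper195.
-/

set_option autoImplicit false

namespace Claimed.Agent.R257.TR

open Claimed.Agent.R257 MeasureTheory Metric Set
open scoped BigOperators ENNReal InnerProductSpace
open Classical

variable {n : ℕ}

/-- L-TB-O1.  exponent identities: `e (n+1) r = 2n(n+2)/(n+3)`,  `n · 2/(n+3) + 2n(n+2)/(n+3) = 2n`. -/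
theorem tr_tb_occ_num (hn : 1 ≤ n) :
    eex n * (((n : ℝ) + 1) * tbR n) + (n : ℝ) * (2 / ((n : ℝ) + 3)) = 2 * (n : ℝ) ∧ 0 < ((n : ℝ) + 1) * tbR n ∧ ((n : ℝ) + 1) * tbR n ≤ 4 := by
  have hx : (1 : ℝ) ≤ n := by exact_mod_cast hn
  unfold eex tbR
  refine ⟨?_, ?_, ?_⟩
  · field_simp
    ring
  · positivity
  · rw [← mul_div_assoc, div_le_iff₀ (by positivity)]
    nlinarith

/-- L-TB-O2.  the cubes in sparse boxes.   `Y₀ = Y.filter (occupancy of its box ≤ L^{n-δ})`; `tbIn L Y₀ k ⊆ tbIn L Y k`, and it is empty if the box is not sparse: hypothesis of `OccStmt` with `Λ = L^{n-δ}`, `a = L^{-e-c}`, `Q = L^c`;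
`|q.2| ≤ 2L²` (the corner of `q` belongs to `cube q`);  `∫ |f_i|² ≤ 1`. -/
theorem tr_tb_occ_sparse (hn : 2 ≤ n) {R₀ ε C M : ℝ}
    (hOcc : ∀ (L Q a Λ : ℝ) (Y : Finset ((Fin n → ℤ) × ℤ)) (f : Fin (n + 1) → E n → ℂ),
      1 ≤ L → 1 ≤ Q → 0 ≤ a → 0 ≤ Λ → (∀ q ∈ Y, |(q.2 : ℝ)| ≤ 3 * L ^ 2) → (∀ i, Dat R₀ (f i)) → TransvS Q f →
      (∀ q ∈ Y, ∀ i, ∃ z ∈ cube q, a ≤ ‖ext (f i) z‖) → (∀ k, ((tbIn L Y k).card : ℝ) ≤ Λ) →
      (Y.card : ℝ) * a ^ (((n : ℝ) + 1) * tbR n) ≤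
        C * Q ^ M * L ^ ε * Λ ^ (2 / ((n : ℝ) + 3)) * ∏ i, (∫ ξ, ‖f i ξ‖ ^ 2) ^ (tbR n / 2))
    {c δ L : ℝ} (hL : 1 ≤ L) (hc : 0 ≤ c) {Y : Finset ((Fin n → ℤ) × ℤ)} {f : Fin (n + 1) → E n → ℂ} (h : TbCfg n R₀ c L Y f) :
    ((Y.filter fun q => ((tbIn L Y (tbBox L q)).card : ℝ) ≤ L ^ ((n : ℝ) - δ)).card : ℝ) ≤
      max C 0 * L ^ (2 * (n : ℝ) - 2 * δ / ((n : ℝ) + 3) + c * (max M 0 + 4) + ε) := by
  obtain ⟨e1, e2, e3⟩ := tr_tb_occ_num (n := n) (by omega)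
  have hL0 : 0 < L := by linarith
  have hr0 : 0 ≤ tbR n / 2 := by
    unfold tbR
    positivity
  obtain ⟨Y₀, hY₀⟩ : ∃ Y₀, Y₀ = Y.filter fun q => ((tbIn L Y (tbBox L q)).card : ℝ) ≤ L ^ ((n : ℝ) - δ) := ⟨_, rfl⟩
  rw [← hY₀]
  have hsub : Y₀ ⊆ Y := hY₀ ▸ Finset.filter_subset _ _
  have htime : ∀ q ∈ Y₀, |(q.2 : ℝ)| ≤ 3 * L ^ 2 := by
    intro q hq
    have hz : ((zvec q.1, (q.2 : ℝ)) : ST n) ∈ cube q := by
      refine ⟨fun i => ?_, le_rfl, by linarith⟩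
      have : (zvec q.1) i = (q.1 i : ℝ) := rfl
      show (q.1 i : ℝ) ≤ (zvec q.1) i ∧ (zvec q.1) i < (q.1 i : ℝ) + 1
      rw [this]
      exact ⟨le_rfl, by linarith⟩
    have h1 := h.inball q (hsub hq) hz
    rw [mem_closedBall_zero_iff] at h1
    have h2 : ‖(q.2 : ℝ)‖ ≤ ‖((zvec q.1, (q.2 : ℝ)) : ST n)‖ := norm_snd_le ((zvec q.1, (q.2 : ℝ)) : ST n)
    rw [Real.norm_eq_abs] at h2
    nlinarith [sq_nonneg L]
  have hocc : ∀ k, ((tbIn L Y₀ k).card : ℝ) ≤ L ^ ((n : ℝ) - δ) := by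
    intro k
    by_cases hne : (tbIn L Y₀ k).Nonempty
    · obtain ⟨q, hq⟩ := hne
      obtain ⟨hq1, hq2⟩ := Finset.mem_filter.1 hq
      rw [hY₀] at hq1
      have h3 := (Finset.mem_filter.1 hq1).2
      rw [hq2] at h3
      refine le_trans ?_ h3
      have : (tbIn L Y₀ k).card ≤ (tbIn L Y k).card := Finset.card_le_card (Finset.filter_subset_filter _ hsub)
      exact_mod_cast this
    · rw [Finset.not_nonempty_iff_eq_empty.1 hne, Finset.card_empty, Nat.cast_zero]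
      exact Real.rpow_nonneg hL0.le _
  have key := hOcc L (L ^ c) (L ^ (-(eex n) - c)) (L ^ ((n : ℝ) - δ)) Y₀ f hL (Real.one_le_rpow hL hc) (Real.rpow_nonneg hL0.le _)
    (Real.rpow_nonneg hL0.le _) htime h.dat h.trans (fun q hq i => h.big q (hsub hq) i) hocc
  have hPr0 : 0 ≤ ∏ i, (∫ ξ, ‖f i ξ‖ ^ 2) ^ (tbR n / 2) :=
    Finset.prod_nonneg fun i _ => Real.rpow_nonneg (integral_nonneg fun ξ => by positivity) _
  have hPr1 : ∏ i, (∫ ξ, ‖f i ξ‖ ^ 2) ^ (tbR n / 2) ≤ 1 :=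
    Finset.prod_le_one (fun i _ => Real.rpow_nonneg (integral_nonneg fun ξ => by positivity) _)
      fun i _ => Real.rpow_le_one (integral_nonneg fun ξ => by positivity) (h.norm i) hr0
  rw [← Real.rpow_mul hL0.le, ← Real.rpow_mul hL0.le, ← Real.rpow_mul hL0.le] at key
  have hC : C ≤ max C 0 := le_max_left _ _
  have hC0 : 0 ≤ max C 0 := le_max_right _ _
  have hM : c * M ≤ c * max M 0 := mul_le_mul_of_nonneg_left (le_max_left _ _) hc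
  have p1 := Real.rpow_pos_of_pos hL0 (c * M)
  have p2 := Real.rpow_pos_of_pos hL0 ε
  have p3 := Real.rpow_pos_of_pos hL0 (((n : ℝ) - δ) * (2 / ((n : ℝ) + 3)))
  have p4 := Real.rpow_pos_of_pos hL0 ((eex n + c) * (((n : ℝ) + 1) * tbR n))
  have hrhs : C * L ^ (c * M) * L ^ ε * L ^ (((n : ℝ) - δ) * (2 / ((n : ℝ) + 3))) * ∏ i, (∫ ξ, ‖f i ξ‖ ^ 2) ^ (tbR n / 2)
      ≤ max C 0 * L ^ (c * max M 0) * L ^ ε * L ^ (((n : ℝ) - δ) * (2 / ((n : ℝ) + 3))) := by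
    calc C * L ^ (c * M) * L ^ ε * L ^ (((n : ℝ) - δ) * (2 / ((n : ℝ) + 3))) * ∏ i, (∫ ξ, ‖f i ξ‖ ^ 2) ^ (tbR n / 2)
        ≤ max C 0 * L ^ (c * M) * L ^ ε * L ^ (((n : ℝ) - δ) * (2 / ((n : ℝ) + 3))) * ∏ i, (∫ ξ, ‖f i ξ‖ ^ 2) ^ (tbR n / 2) := by
          gcongr
      _ ≤ max C 0 * L ^ (c * M) * L ^ ε * L ^ (((n : ℝ) - δ) * (2 / ((n : ℝ) + 3))) * 1 :=
          mul_le_mul_of_nonneg_left hPr1 (by positivity)
      _ ≤ max C 0 * L ^ (c * max M 0) * L ^ ε * L ^ (((n : ℝ) - δ) * (2 / ((n : ℝ) + 3))) := by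
          rw [mul_one]
          have := Real.rpow_le_rpow_of_exponent_le hL hM
          gcongr
  calc (Y₀.card : ℝ) = (Y₀.card : ℝ) * L ^ ((-(eex n) - c) * (((n : ℝ) + 1) * tbR n)) * L ^ ((eex n + c) * (((n : ℝ) + 1) * tbR n)) := by
        rw [mul_assoc, ← Real.rpow_add hL0]
        have : (-(eex n) - c) * (((n : ℝ) + 1) * tbR n) + (eex n + c) * (((n : ℝ) + 1) * tbR n) = 0 := by ring
        rw [this, Real.rpow_zero, mul_one]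
    _ ≤ max C 0 * L ^ (c * max M 0) * L ^ ε * L ^ (((n : ℝ) - δ) * (2 / ((n : ℝ) + 3))) * L ^ ((eex n + c) * (((n : ℝ) + 1) * tbR n)) :=
        mul_le_mul_of_nonneg_right (key.trans hrhs) p4.le
    _ = max C 0 * L ^ (c * max M 0 + ε + ((n : ℝ) - δ) * (2 / ((n : ℝ) + 3)) + (eex n + c) * (((n : ℝ) + 1) * tbR n)) := by
        rw [Real.rpow_add hL0, Real.rpow_add hL0, Real.rpow_add hL0]
        ring
    _ ≤ max C 0 * L ^ (2 * (n : ℝ) - 2 * δ / ((n : ℝ) + 3) + c * (max M 0 + 4) + ε) := by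
        refine mul_le_mul_of_nonneg_left (Real.rpow_le_rpow_of_exponent_le hL ?_) hC0
        have h5 : c * (((n : ℝ) + 1) * tbR n) ≤ c * 4 := mul_le_mul_of_nonneg_left e3 hc
        have h6 : ((n : ℝ) - δ) * (2 / ((n : ℝ) + 3)) = (n : ℝ) * (2 / ((n : ℝ) + 3)) - 2 * δ / ((n : ℝ) + 3) := by ring
        have h7 : (eex n + c) * (((n : ℝ) + 1) * tbR n) = eex n * (((n : ℝ) + 1) * tbR n) + c * (((n : ℝ) + 1) * tbR n) := by ring
        rw [h6, h7]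
        linarith

/-- **EXIT of B1** (L-TB-O3).   `ε := δ/(n+3)` in `OccStmt`, `(C, M)`; `c₀ := min (δ/4) (δ / (2 (n+3) (max M 0 + 5)))`.   Sparse cubes `≤ L^{2n-c}/2 ≤ #Y/2` for `L ≥ L₀`.   `𝔅 :=` image under `tbBox L` of the other cubes;
`#Y/2 ≤ ∑_{k ∈ 𝔅} #(tbIn L Y k) ≤ #𝔅 L^c (tbG n L)^n` (`tr_tb_in_le`, `Finset.card_eq_sum_card_image`/`card_biUnion_le`). -/
theorem tr_tb_occ (hn : 2 ≤ n) (hOcc : OccStmt n) (R₀ δ : ℝ) (hδ : 0 < δ) : ∃ c₀ L₀ : ℝ, 0 < c₀ ∧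
    ∀ (c L : ℝ) (Y : Finset ((Fin n → ℤ) × ℤ)) (f : Fin (n + 1) → E n → ℂ), 0 < c → c ≤ c₀ → L₀ ≤ L → TbCfg n R₀ c L Y f →
    ∃ 𝔅 : Finset ((Fin n → ℤ) × ℤ), (∀ k ∈ 𝔅, L ^ ((n : ℝ) - δ) ≤ ((tbIn L Y k).card : ℝ)) ∧ L ^ ((n : ℝ) - δ) ≤ (𝔅.card : ℝ) := by
  have hn3 : (0 : ℝ) < (n : ℝ) + 3 := by positivity
  obtain ⟨C, M, hCM⟩ := hOcc R₀ (δ / ((n : ℝ) + 3)) (by positivity)
  obtain ⟨Mp, hMp⟩ : ∃ Mp, Mp = max M 0 := ⟨_, rfl⟩
  have hMp0 : 0 ≤ Mp := hMp ▸ le_max_right _ _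
  obtain ⟨η, hη⟩ : ∃ η, η = δ / (2 * ((n : ℝ) + 3)) := ⟨_, rfl⟩
  have hη0 : 0 < η := by rw [hη]; positivity
  have h2η : δ / ((n : ℝ) + 3) = 2 * η := by
    rw [hη]
    field_simp
  obtain ⟨L₁, hL₁⟩ := Filter.eventually_atTop.1 ((tendsto_rpow_atTop hη0).eventually_ge_atTop (2 * max C 0))
  obtain ⟨L₂, hL₂⟩ := Filter.eventually_atTop.1 ((tendsto_rpow_atTop (half_pos hδ)).eventually_ge_atTop (2 * tbG n ^ n))
  refine ⟨min (δ / 4) (δ / (2 * ((n : ℝ) + 3) * (Mp + 5))), max 1 (max L₁ L₂), by positivity, ?_⟩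
  intro c L Y f hc hc0 hL h
  have hL1 : 1 ≤ L := (le_max_left _ _).trans hL
  have hL0 : 0 < L := by linarith
  have hLa := hL₁ L (((le_max_left _ _).trans (le_max_right _ _)).trans hL)
  have hLb := hL₂ L (((le_max_right _ _).trans (le_max_right _ _)).trans hL)
  have hc1 : c ≤ δ / 4 := hc0.trans (min_le_left _ _)
  have hc2 : c * (Mp + 5) ≤ η := by
    have h1 := hc0.trans (min_le_right _ _)
    rw [le_div_iff₀ (by positivity)] at h1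
    rw [hη, le_div_iff₀ (by positivity)]
    nlinarith
  have hsp := tr_tb_occ_sparse hn hCM (δ := δ) hL1 hc.le h
  rw [← hMp] at hsp
  have hsplit0 : ((Y.filter fun q => ((tbIn L Y (tbBox L q)).card : ℝ) ≤ L ^ ((n : ℝ) - δ)).card : ℝ)
      + ((Y.filter fun q => ¬ ((tbIn L Y (tbBox L q)).card : ℝ) ≤ L ^ ((n : ℝ) - δ)).card : ℝ) = (Y.card : ℝ) := by
    exact_mod_cast Finset.card_filter_add_card_filter_not (s := Y) (fun q => ((tbIn L Y (tbBox L q)).card : ℝ) ≤ L ^ ((n : ℝ) - δ))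
  obtain ⟨Y₀, hY₀⟩ : ∃ Y₀, Y₀ = Y.filter fun q => ((tbIn L Y (tbBox L q)).card : ℝ) ≤ L ^ ((n : ℝ) - δ) := ⟨_, rfl⟩
  obtain ⟨Y₁, hY₁⟩ : ∃ Y₁, Y₁ = Y.filter fun q => ¬ ((tbIn L Y (tbBox L q)).card : ℝ) ≤ L ^ ((n : ℝ) - δ) := ⟨_, rfl⟩
  rw [← hY₀] at hsp
  rw [← hY₀, ← hY₁] at hsplit0
  have hY₁sub : Y₁ ⊆ Y := hY₁ ▸ Finset.filter_subset _ _
  have hS : 2 * (Y₀.card : ℝ) ≤ L ^ (2 * (n : ℝ) - c) := by
    calc 2 * (Y₀.card : ℝ)
        ≤ 2 * (max C 0 * L ^ (2 * (n : ℝ) - 2 * δ / ((n : ℝ) + 3) + c * (Mp + 4) + δ / ((n : ℝ) + 3))) :=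
          mul_le_mul_of_nonneg_left hsp (by norm_num)
      _ = (2 * max C 0) * L ^ (2 * (n : ℝ) - 2 * δ / ((n : ℝ) + 3) + c * (Mp + 4) + δ / ((n : ℝ) + 3)) := by ring
      _ ≤ L ^ η * L ^ (2 * (n : ℝ) - 2 * δ / ((n : ℝ) + 3) + c * (Mp + 4) + δ / ((n : ℝ) + 3)) :=
          mul_le_mul_of_nonneg_right hLa (Real.rpow_nonneg hL0.le _)
      _ = L ^ (η + (2 * (n : ℝ) - 2 * δ / ((n : ℝ) + 3) + c * (Mp + 4) + δ / ((n : ℝ) + 3))) := (Real.rpow_add hL0 _ _).symm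
      _ ≤ L ^ (2 * (n : ℝ) - c) := by
          refine Real.rpow_le_rpow_of_exponent_le hL1 ?_
          rw [mul_div_assoc, h2η]
          nlinarith
  have hY1 : L ^ (2 * (n : ℝ) - c) ≤ 2 * (Y₁.card : ℝ) := by
    have := h.card
    linarith
  refine ⟨Y₁.image (tbBox L), ?_, ?_⟩
  · intro k hk
    obtain ⟨q, hq, rfl⟩ := Finset.mem_image.1 hk
    rw [hY₁] at hq
    have h1 := (Finset.mem_filter.1 hq).2
    exact (not_le.1 h1).le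
  · obtain ⟨b, hb⟩ : ∃ b : ℕ, b = (Y₁.image (tbBox L)).card := ⟨_, rfl⟩
    rw [← hb]
    have hcnt : (Y₁.card : ℝ) ≤ (b : ℝ) * (L ^ c * (tbG n * L) ^ n) := by
      rw [Finset.card_eq_sum_card_image (tbBox L) Y₁]
      push_cast
      calc ∑ k ∈ Y₁.image (tbBox L), ((Y₁.filter fun q => tbBox L q = k).card : ℝ)
          ≤ ∑ _k ∈ Y₁.image (tbBox L), L ^ c * (tbG n * L) ^ n := by
            refine Finset.sum_le_sum fun k _ => ?_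
            refine le_trans ?_ (tr_tb_in_le hL1 h.count k)
            have : (Y₁.filter fun q => tbBox L q = k).card ≤ (tbIn L Y k).card :=
              Finset.card_le_card (Finset.filter_subset_filter _ hY₁sub)
            exact_mod_cast this
        _ = (b : ℝ) * (L ^ c * (tbG n * L) ^ n) := by
            rw [Finset.sum_const, nsmul_eq_mul, hb]
    have hW : 0 < L ^ (c + δ / 2 + (n : ℝ)) := Real.rpow_pos_of_pos hL0 _
    have hb0 : (0 : ℝ) ≤ b := Nat.cast_nonneg _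
    have h3 : L ^ (2 * (n : ℝ) - c) ≤ (b : ℝ) * L ^ (c + δ / 2 + (n : ℝ)) := by
      calc L ^ (2 * (n : ℝ) - c) ≤ 2 * ((b : ℝ) * (L ^ c * (tbG n * L) ^ n)) := hY1.trans (mul_le_mul_of_nonneg_left hcnt (by norm_num))
        _ = (b : ℝ) * (L ^ c * (2 * tbG n ^ n) * L ^ (n : ℝ)) := by
            rw [mul_pow, Real.rpow_natCast]
            ring
        _ ≤ (b : ℝ) * (L ^ c * L ^ (δ / 2) * L ^ (n : ℝ)) := by
            have q1 := Real.rpow_pos_of_pos hL0 c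
            have q2 := Real.rpow_pos_of_pos hL0 (n : ℝ)
            gcongr
        _ = (b : ℝ) * L ^ (c + δ / 2 + (n : ℝ)) := by
            rw [Real.rpow_add hL0, Real.rpow_add hL0]
    have h4 : L ^ ((n : ℝ) - δ) * L ^ (c + δ / 2 + (n : ℝ)) ≤ (b : ℝ) * L ^ (c + δ / 2 + (n : ℝ)) := by
      refine le_trans ?_ h3
      rw [← Real.rpow_add hL0]
      exact Real.rpow_le_rpow_of_exponent_le hL1 (by linarith)
    exact le_of_mul_le_mul_right h4 hW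

end Claimed.Agent.R257.TR
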