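import Claimed.Agent.R257.TR.TubesGeo
import Claimed.Agent.R257.Sp.Maj

/-!
# R257 / TR / TubesPk : block B2 of t:tubes: THE EXACT PACKETS OF ONE DATUM.      Architect: helper195.
`tr_tb_pk`: `PktStmt n` (`Frac/Pkt.lean`) + the majorant calculus of `Sp/Maj.lean` (`sp_count`, `sp_fld_sq_le`: PROVED) give a `TbPk`.   Then the API of `TbPk` (near sets).
-/

set_option autoImplicit false

namespace Claimed.Agent.R257.TR

open Claimed.Agent.R257 MeasureTheory Metric Set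
open scoped BigOperators ENNReal InnerProductSpace
open Classical

variable {n : ℕ}

/-- support of the exact input of a finite subfamily -/
theorem tr_tb_pk_supp {J₀ : Type} (N : XArr n J₀) (c : J₀ → ℂ) {L Rw C₁ C₂ C₃ : ℝ} {A m₀ : ℕ} (hNl : N.l = L) (hNsh : N.sh = 0)
    (hIn : ∀ s : Finset J₀, N.In s ⟨A, Rw, C₁, C₂, C₃, m₀⟩) (t : Finset {α : J₀ // c α ≠ 0}) (ξ : E n)
    (h : ∑ α ∈ t, c α.1 * N.g α.1 ξ ≠ 0) : ∃ α ∈ t, ‖ξ - N.om α.1‖ ≤ C₁ / L := by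
  obtain ⟨α, hα, hne⟩ := Finset.exists_ne_zero_of_sum_ne_zero h
  refine ⟨α, hα, ?_⟩
  have h1 : ‖ξ - (N.om α.1 + N.sh)‖ ≤ C₁ / N.l :=
    (hIn {α.1}).supp α.1 (Finset.mem_singleton_self _) ξ (right_ne_zero_of_mul hne)
  rwa [hNsh, add_zero, hNl] at h1

/-- the exact input of a finite subfamily is a datum -/
theorem tr_tb_pk_dat {J₀ : Type} (N : XArr n J₀) (c : J₀ → ℂ) {L R₀ Rw C₁ C₂ C₃ : ℝ} {A m₀ : ℕ} {f : E n → ℂ} (hNl : N.l = L) (hNsh : N.sh = 0)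
    (hIn : ∀ s : Finset J₀, N.In s ⟨A, Rw, C₁, C₂, C₃, m₀⟩) (hNear : ∀ α, c α ≠ 0 → ∃ ξ, f ξ ≠ 0 ∧ ‖ξ - N.om α‖ ≤ C₁ / L)
    (hf : Dat R₀ f) (hL0 : 0 < L) (hL : 2 * C₁ ≤ L) (t : Finset {α : J₀ // c α ≠ 0}) :
    Dat (R₀ + 1) (fun ξ => ∑ α ∈ t, c α.1 * N.g α.1 ξ) where
  meas := Finset.measurable_sum _ fun α _ => measurable_const.mul ((hIn {α.1}).meas α.1 (Finset.mem_singleton_self _))
  supp := fun ξ hξ => by
    obtain ⟨α, _, hα⟩ := tr_tb_pk_supp N c hNl hNsh hIn t ξ hξ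
    obtain ⟨ξ', hξ', hn⟩ := hNear α.1 α.2
    have h1 : ‖ξ'‖ ≤ R₀ := hf.supp ξ' hξ'
    have h2 : ‖ξ‖ ≤ ‖ξ - N.om α.1‖ + ‖ξ' - N.om α.1‖ + ‖ξ'‖ := by
      have e : ξ = (ξ - N.om α.1) - (ξ' - N.om α.1) + ξ' := by abel
      calc ‖ξ‖ = ‖(ξ - N.om α.1) - (ξ' - N.om α.1) + ξ'‖ := by rw [← e]
        _ ≤ ‖(ξ - N.om α.1) - (ξ' - N.om α.1)‖ + ‖ξ'‖ := norm_add_le _ _
        _ ≤ ‖ξ - N.om α.1‖ + ‖ξ' - N.om α.1‖ + ‖ξ'‖ := by
          have := norm_sub_le (ξ - N.om α.1) (ξ' - N.om α.1)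
          linarith
    have h3 : C₁ / L + C₁ / L ≤ 1 := by
      rw [← add_div, div_le_one hL0]
      linarith
    linarith
  l2 := memLp_finsetSum _ fun α _ => ((hIn {α.1}).l2 α.1 (Finset.mem_singleton_self _)).const_mul (c α.1)

/-- the field of the exact input of a finite subfamily -/
theorem tr_tb_pk_ext {J₀ : Type} (N : XArr n J₀) (c : J₀ → ℂ) {L R₀ Rw C₁ C₂ C₃ : ℝ} {A m₀ : ℕ} {f : E n → ℂ} (hNl : N.l = L) (hNsh : N.sh = 0)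
    (hIn : ∀ s : Finset J₀, N.In s ⟨A, Rw, C₁, C₂, C₃, m₀⟩) (hNear : ∀ α, c α ≠ 0 → ∃ ξ, f ξ ≠ 0 ∧ ‖ξ - N.om α‖ ≤ C₁ / L)
    (hf : Dat R₀ f) (hL0 : 0 < L) (hL : 2 * C₁ ≤ L) (t : Finset {α : J₀ // c α ≠ 0}) (z : ST n) :
    ext (fun ξ => ∑ α ∈ t, c α.1 * N.g α.1 ξ) z = ∑ α ∈ t, c α.1 * ext (N.g α.1) z := by
  unfold ext
  have h1 : ∀ ξ, car ξ z * ∑ α ∈ t, c α.1 * N.g α.1 ξ = ∑ α ∈ t, car ξ z * (c α.1 * N.g α.1 ξ) := fun ξ => Finset.mul_sum _ _ _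
  simp only [h1]
  rw [integral_finsetSum]
  · refine Finset.sum_congr rfl fun α _ => ?_
    rw [← integral_const_mul]
    refine integral_congr_ae (Filter.Eventually.of_forall fun ξ => ?_)
    simp only
    ring
  · intro α _
    have h2 := inf_ext_integrable (tr_tb_pk_dat N c hNl hNsh hIn hNear hf hL0 hL {α}) z
    simpa only [Finset.sum_singleton] using h2

/-- the time weight on the slab `|t| ≤ 3 L²` -/
theorem tr_tb_pk_sg {J₀ : Type} (N : XArr n J₀) {L : ℝ} (hNl : N.l = L) (hL0 : 0 < L) {z : ST n} (hz : |z.2| ≤ 3 * L ^ 2) :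
    N.sg z ≤ 4 := by
  unfold XArr.sg
  rw [hNl]
  have : |z.2| / L ^ 2 ≤ 3 := by
    rw [div_le_iff₀ (by positivity)]
    exact hz
  linarith

/-- the tail of the packet expansion -/
theorem tr_tb_pk_tail {J₀ : Type} (N : XArr n J₀) (c : J₀ → ℂ) {L Rw C₁ C₂ C₃ Ce Cf : ℝ} {A m₀ : ℕ} {f : E n → ℂ} (hNl : N.l = L)
    (hIn : ∀ s : Finset J₀, N.In s ⟨A, Rw, C₁, C₂, C₃, m₀⟩) (hCf : 0 ≤ Cf)
    (hfld : ∀ (s t : Finset J₀) (y : ST n), N.Dec s A Rw C₃ m₀ → t ⊆ s →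
      ‖N.fld t c y‖ ^ 2 ≤ Cf * ∑ α ∈ t, ‖c α‖ ^ 2 * (N.sg y ^ (3 * A) * N.tw α y ^ A))
    (hEn : ∀ s : Finset J₀, energy s c ≤ Ce) (hL0 : 0 < L)
    (z : ST n) (hSum : HasSum (fun α => c α * ext (N.g α) z) (ext f z)) (ρ : ℝ) (t : Finset {α : J₀ // c α ≠ 0})
    (hz : |z.2| ≤ 3 * L ^ 2) (hρ : 0 ≤ ρ) (hfar : ∀ α, α ∉ t → ρ ≤ ‖z.1 - N.y α.1 - (2 * z.2) • N.om α.1‖) :
    ‖ext f z - ∑ α ∈ t, c α.1 * ext (N.g α.1) z‖ ^ 2 ≤ Cf * 4 ^ (3 * A) * Ce * (1 + ρ / L) ^ (-(A : ℝ)) := by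
  set t' : Finset J₀ := t.map (Function.Embedding.subtype _) with ht'
  have hsum' : ∑ α ∈ t, c α.1 * ext (N.g α.1) z = ∑ α ∈ t', c α * ext (N.g α) z := by
    rw [ht', Finset.sum_map]
    rfl
  rw [hsum']
  have hB0 : 0 < 1 + ρ / L := by positivity
  have hBe : (1 + ρ / L) ^ (-(A : ℝ)) = ((1 + ρ / L)⁻¹) ^ A := by
    rw [Real.rpow_neg hB0.le, Real.rpow_natCast, inv_pow]
  rw [hBe]
  have hlim : Filter.Tendsto (fun u : Finset J₀ => ‖∑ α ∈ u, c α * ext (N.g α) z - ∑ α ∈ t', c α * ext (N.g α) z‖ ^ 2) Filter.atTop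
      (nhds (‖ext f z - ∑ α ∈ t', c α * ext (N.g α) z‖ ^ 2)) :=
    ((Filter.Tendsto.sub_const hSum _).norm).pow 2
  refine le_of_tendsto hlim ?_
  filter_upwards [Filter.eventually_ge_atTop t'] with u hu
  have hu' : t' ⊆ u := hu
  have e1 : ∑ α ∈ u, c α * ext (N.g α) z - ∑ α ∈ t', c α * ext (N.g α) z = N.fld (u \ t') c z := by
    unfold XArr.fld
    rw [← Finset.sum_sdiff hu']
    ring
  rw [e1]
  refine le_trans (hfld u (u \ t') z (hIn u).dec Finset.sdiff_subset) ?_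
  have hsg : N.sg z ≤ 4 := tr_tb_pk_sg N hNl hL0 hz
  have hsg0 : 0 ≤ N.sg z := le_trans zero_le_one (sp_sg_one_le N z)
  have hterm : ∀ α ∈ u \ t', ‖c α‖ ^ 2 * (N.sg z ^ (3 * A) * N.tw α z ^ A) ≤ ‖c α‖ ^ 2 * (4 ^ (3 * A) * ((1 + ρ / L)⁻¹) ^ A) := by
    intro α hα
    by_cases hc : c α = 0
    · rw [hc]
      simp
    · have hnot : (⟨α, hc⟩ : {α : J₀ // c α ≠ 0}) ∉ t := by
        intro hmem
        have : α ∈ t' := by
          rw [ht', Finset.mem_map]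
          exact ⟨⟨α, hc⟩, hmem, rfl⟩
        exact (Finset.mem_sdiff.1 hα).2 this
      have hd := hfar ⟨α, hc⟩ hnot
      have htw0 : 0 ≤ N.tw α z := (sp_tw_pos_le N (by rw [hNl]; exact hL0) α z).1.le
      have htw : N.tw α z ≤ (1 + ρ / L)⁻¹ := by
        unfold XArr.tw
        rw [hNl]
        refine inv_anti₀ hB0 ?_
        have : ρ / L ≤ N.toArr.tdist α z / L := div_le_div_of_nonneg_right hd hL0.le
        linarith
      refine mul_le_mul_of_nonneg_left ?_ (by positivity)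
      exact mul_le_mul (pow_le_pow_left₀ hsg0 hsg _) (pow_le_pow_left₀ htw0 htw _) (by positivity) (by positivity)
  have h2 : ∑ α ∈ u \ t', ‖c α‖ ^ 2 * (N.sg z ^ (3 * A) * N.tw α z ^ A) ≤ energy (u \ t') c * (4 ^ (3 * A) * ((1 + ρ / L)⁻¹) ^ A) := by
    unfold energy
    rw [Finset.sum_mul]
    exact Finset.sum_le_sum hterm
  have h3 : energy (u \ t') c * (4 ^ (3 * A) * ((1 + ρ / L)⁻¹) ^ A) ≤ Ce * (4 ^ (3 * A) * ((1 + ρ / L)⁻¹) ^ A) :=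
    mul_le_mul_of_nonneg_right (hEn _) (by positivity)
  calc Cf * ∑ α ∈ u \ t', ‖c α‖ ^ 2 * (N.sg z ^ (3 * A) * N.tw α z ^ A)
      ≤ Cf * (Ce * (4 ^ (3 * A) * ((1 + ρ / L)⁻¹) ^ A)) := mul_le_mul_of_nonneg_left (h2.trans h3) hCf
    _ = Cf * 4 ^ (3 * A) * Ce * ((1 + ρ / L)⁻¹) ^ A := by ring

/-- the number of labels whose trajectory passes near a point -/
theorem tr_tb_pk_count {J₀ : Type} (N : XArr n J₀) (c : J₀ → ℂ) {L Rw C₁ C₂ C₃ Cc : ℝ} {A m₀ : ℕ} (hNl : N.l = L)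
    (hIn : ∀ s : Finset J₀, N.In s ⟨A, Rw, C₁, C₂, C₃, m₀⟩) (hCc : 0 ≤ Cc)
    (hcount : ∀ (s : Finset J₀) (z : ST n), N.Dec s A Rw C₃ m₀ → N.l ^ (-(n : ℝ)) * ∑ α ∈ s, N.tw α z ^ A ≤ Cc * N.sg z ^ A)
    (hL0 : 0 < L) (z : ST n) (ρ : ℝ) (t : Finset {α : J₀ // c α ≠ 0})
    (hz : |z.2| ≤ 3 * L ^ 2) (hρ : 0 ≤ ρ) (hnear : ∀ α ∈ t, ‖z.1 - N.y α.1 - (2 * z.2) • N.om α.1‖ ≤ ρ) :
    (t.card : ℝ) ≤ Cc * 4 ^ A * L ^ n * (1 + ρ / L) ^ A := by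
  set t' : Finset J₀ := t.map (Function.Embedding.subtype _) with ht'
  have hB0 : 0 < 1 + ρ / L := by positivity
  have h1 := hcount t' z (hIn t').dec
  have hsg : N.sg z ≤ 4 := tr_tb_pk_sg N hNl hL0 hz
  have hsg0 : 0 ≤ N.sg z := le_trans zero_le_one (sp_sg_one_le N z)
  have h2 : Cc * N.sg z ^ A ≤ Cc * 4 ^ A := mul_le_mul_of_nonneg_left (pow_le_pow_left₀ hsg0 hsg _) hCc
  have h3 : (t.card : ℝ) * ((1 + ρ / L)⁻¹) ^ A ≤ ∑ α ∈ t', N.tw α z ^ A := by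
    rw [ht', Finset.sum_map, ← nsmul_eq_mul, ← Finset.sum_const]
    refine Finset.sum_le_sum fun α hα => ?_
    refine pow_le_pow_left₀ (by positivity) ?_ _
    have hd := hnear α hα
    show (1 + ρ / L)⁻¹ ≤ N.tw α.1 z
    unfold XArr.tw
    rw [hNl]
    have hd0 : 0 ≤ N.toArr.tdist α.1 z := sp_M1_tdist_nonneg N α.1 z
    refine inv_anti₀ (by positivity) ?_
    have : N.toArr.tdist α.1 z / L ≤ ρ / L := div_le_div_of_nonneg_right hd hL0.le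
    linarith
  rw [hNl, Real.rpow_neg hL0.le, Real.rpow_natCast] at h1
  have hX : 0 < L ^ n := by positivity
  have hY : 0 < (1 + ρ / L) ^ A := by positivity
  have h4 : (L ^ n)⁻¹ * ((t.card : ℝ) * ((1 + ρ / L)⁻¹) ^ A) ≤ Cc * 4 ^ A :=
    le_trans (mul_le_mul_of_nonneg_left h3 (by positivity)) (h1.trans h2)
  have h5 : (t.card : ℝ) = (L ^ n)⁻¹ * ((t.card : ℝ) * ((1 + ρ / L)⁻¹) ^ A) * (L ^ n * (1 + ρ / L) ^ A) := by
    rw [inv_pow]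
    field_simp
  rw [h5]
  calc (L ^ n)⁻¹ * ((t.card : ℝ) * ((1 + ρ / L)⁻¹) ^ A) * (L ^ n * (1 + ρ / L) ^ A)
      ≤ Cc * 4 ^ A * (L ^ n * (1 + ρ / L) ^ A) := mul_le_mul_of_nonneg_right h4 (by positivity)
    _ = Cc * 4 ^ A * L ^ n * (1 + ρ / L) ^ A := by ring

/-- **EXIT of B2** (L-TB-P1, ~350 l.; may be cut).   `(Rw, C₁, C₂, C₃, Ce, m₀)` from `PktStmt R₀ A`; `C_c` from `sp_count n A Rw m₀`, `C_f` from `sp_fld_sq_le n A Rw C₃ m₀`;  `Cp := max` of `1, 2 C₁, C₂, Ce, C_f 4^{3A} Ce, C_c 4^A`.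
For `L ≥ Cp`, `(J₀, N, c)` at `l = L`:  `J := {α : J₀ // c α ≠ 0}`, `om, y` restricted, `w α = ‖c α‖²`, `G t ξ = ∑ α ∈ t, c α * N.g α ξ`.
* `w_sum`: energy bound (map `t` to `J₀` by `Finset.map (Function.Embedding.subtype _)`), `∫|f|² ≤ 1`.     * `near`: last clause of `PktStmt`.     * `supp`: `XArr.In.supp`, `sh = 0`.
* `dat`: measurable, `MemLp` (finite sums), support: `‖ξ‖ ≤ ‖ξ - ω_α‖ + ‖ω_α - ξ'‖ + ‖ξ'‖ ≤ 2 C₁/L + R₀ ≤ R₀ + 1`.     * `l2`: `XArr.In.bessel`.     * `add`: linearity of `ext` (`inf_ext_integrable`).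
* `tail`: `ext f z - ext (G t) z` is the limit of `N.fld (u \ t) c z` over finite `u ⊇ t` (`HasSum`; labels with `c = 0` contribute `0`); `sp_fld_sq_le`, `N.sg z ≤ 4`, `N.tw α z ≤ (1 + ρ/L)⁻¹`; `le_of_tendsto`.
* `count`: `sp_count`: `#t (1+ρ/L)^{-A} ≤ ∑_{α ∈ t} tw^A ≤ C_c 4^A L^n`. -/
theorem tr_tb_pk (hPk : PktStmt n) (R₀ : ℝ) (A : ℕ) (hA : n + 1 ≤ A) : ∃ Cp : ℝ, 1 ≤ Cp ∧ ∀ (L : ℝ) (f : E n → ℂ), Cp ≤ L → Dat R₀ f →
    ∫ ξ, ‖f ξ‖ ^ 2 ≤ 1 → Nonempty (TbPk n L (R₀ + 1) Cp A f) := by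
  obtain ⟨Rw, C₁, C₂, C₃, Ce, m₀, _, hC₁, hCe, hP⟩ := hPk R₀ A
  obtain ⟨Cc, hCc0, hcount⟩ := sp_count n A Rw m₀ hA
  obtain ⟨Cf, hCf0, hfld⟩ := sp_fld_sq_le n A Rw C₃ m₀ hA
  have hT1 : 0 ≤ Cf * 4 ^ (3 * A) * Ce := by positivity
  have hT2 : 0 ≤ Cc * 4 ^ A := by positivity
  refine ⟨1 + 2 * C₁ + |C₂| + Ce + Cf * 4 ^ (3 * A) * Ce + Cc * 4 ^ A, by have := abs_nonneg C₂; linarith, ?_⟩
  intro L f hL hf hf1
  set Cp : ℝ := 1 + 2 * C₁ + |C₂| + Ce + Cf * 4 ^ (3 * A) * Ce + Cc * 4 ^ A with hCp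
  have hab := abs_nonneg C₂
  have hab' := le_abs_self C₂
  have hL1 : 1 ≤ L := by linarith
  have hL0 : 0 < L := by linarith
  have hL2 : 2 * C₁ ≤ L := by linarith
  obtain ⟨J₀, N, c, hNl, hNsh, hIn, hEn, hSum, hNear⟩ := hP L f hL1 hf
  have hEn' : ∀ s : Finset J₀, energy s c ≤ Ce := fun s => by
    refine (hEn s).trans ?_
    calc Ce * ∫ ξ, ‖f ξ‖ ^ 2 ≤ Ce * 1 := mul_le_mul_of_nonneg_left hf1 hCe
      _ = Ce := mul_one _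
  have hmap : ∀ t : Finset {α : J₀ // c α ≠ 0}, ∑ α ∈ t, ‖c α.1‖ ^ 2 = energy (t.map (Function.Embedding.subtype _)) c := fun t => by
    unfold energy
    rw [Finset.sum_map]
    rfl
  have hC1L : C₁ / L ≤ Cp / L := div_le_div_of_nonneg_right (by linarith) hL0.le
  have hext := tr_tb_pk_ext N c hNl hNsh hIn hNear hf hL0 hL2
  exact ⟨{
    J := {α : J₀ // c α ≠ 0}
    om := fun α => N.om α.1
    y := fun α => N.y α.1
    w := fun α => ‖c α.1‖ ^ 2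
    G := fun t ξ => ∑ α ∈ t, c α.1 * N.g α.1 ξ
    w_pos := fun α => by
      have : 0 < ‖c α.1‖ := norm_pos_iff.2 α.2
      positivity
    w_sum := fun t => by
      rw [hmap t]
      have := hEn' (t.map (Function.Embedding.subtype _))
      linarith
    near := fun α => by
      obtain ⟨ξ, h1, h2⟩ := hNear α.1 α.2
      exact ⟨ξ, h1, h2.trans hC1L⟩
    dat := fun t => tr_tb_pk_dat N c hNl hNsh hIn hNear hf hL0 hL2 t
    l2 := fun t => by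
      rw [hmap t]
      have h1 := (hIn (t.map (Function.Embedding.subtype _))).bessel _ (Finset.Subset.refl _) c
      have h2 : ∀ ξ, ∑ α ∈ t.map (Function.Embedding.subtype _), c α * N.g α ξ = ∑ α ∈ t, c α.1 * N.g α.1 ξ := fun ξ => by
        rw [Finset.sum_map]
        rfl
      simp only [h2] at h1
      refine h1.trans ?_
      have h3 : 0 ≤ energy (t.map (Function.Embedding.subtype _)) c := Finset.sum_nonneg fun α _ => by positivity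
      exact mul_le_mul_of_nonneg_right (by linarith) h3
    supp := fun t ξ h => by
      obtain ⟨α, hα, h1⟩ := tr_tb_pk_supp N c hNl hNsh hIn t ξ h
      exact ⟨α, hα, h1.trans hC1L⟩
    add := fun t z => by
      rw [hext t z]
      refine Finset.sum_congr rfl fun α _ => ?_
      rw [hext {α} z, Finset.sum_singleton]
    tail := fun z ρ t hz hρ hfar => by
      rw [hext t z]
      refine (tr_tb_pk_tail N c hNl hIn hCf0 (fun s t y => hfld J₀ N s t c y) hEn' hL0 z (hSum z) ρ t hz hρ hfar).trans ?_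
      have : 0 ≤ (1 + ρ / L) ^ (-(A : ℝ)) := by positivity
      exact mul_le_mul_of_nonneg_right (by linarith) this
    count := fun z ρ t hz hρ hnear => by
      refine (tr_tb_pk_count N c hNl hIn hCc0 (fun s z => hcount J₀ N s C₃ z) hL0 z ρ t hz hρ hnear).trans ?_
      have h1 : 0 ≤ L ^ n * (1 + ρ / L) ^ A := by positivity
      calc Cc * 4 ^ A * L ^ n * (1 + ρ / L) ^ A = Cc * 4 ^ A * (L ^ n * (1 + ρ / L) ^ A) := by ring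
        _ ≤ Cp * (L ^ n * (1 + ρ / L) ^ A) := mul_le_mul_of_nonneg_right (by linarith) h1
        _ = Cp * L ^ n * (1 + ρ / L) ^ A := by ring }⟩

variable {L R₁ Cp : ℝ} {A : ℕ} {f : E n → ℂ}

/-- L-TB-P2.  an infinite set has finite subsets of every cardinality (`Set.Infinite.exists_subset_card_eq`), contradiction with `TbPk.count`. -/
theorem tr_tb_nr_finite (P : TbPk n L R₁ Cp A f) {z : ST n} (hz : |z.2| ≤ 3 * L ^ 2) (ρ : ℝ) : {α | P.td α z ≤ ρ}.Finite := by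
  by_contra hinf
  have hinf' : {α | P.td α z ≤ ρ}.Infinite := hinf
  obtain ⟨α₀, hα₀⟩ := hinf'.nonempty
  have hρ : 0 ≤ ρ := (norm_nonneg _).trans hα₀
  obtain ⟨t, ht, hcard⟩ := hinf'.exists_subset_card_eq (⌈Cp * L ^ n * (1 + ρ / L) ^ A⌉₊ + 1)
  have h1 := P.count z ρ t hz hρ (fun α hα => ht hα)
  rw [hcard] at h1
  have h2 := Nat.le_ceil (Cp * L ^ n * (1 + ρ / L) ^ A)
  push_cast at h1
  linarith

theorem tr_tb_mem_nr (P : TbPk n L R₁ Cp A f) {z : ST n} (hz : |z.2| ≤ 3 * L ^ 2) (ρ : ℝ) (α : P.J) :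
    α ∈ P.nr z ρ ↔ P.td α z ≤ ρ := by
  unfold TbPk.nr
  rw [dif_pos (tr_tb_nr_finite P hz ρ)]
  simp

/-- L-TB-P2. -/
theorem tr_tb_nr_card (P : TbPk n L R₁ Cp A f) {z : ST n} (hz : |z.2| ≤ 3 * L ^ 2) {ρ : ℝ} (hρ : 0 ≤ ρ) :
    ((P.nr z ρ).card : ℝ) ≤ Cp * L ^ n * (1 + ρ / L) ^ A :=
  P.count z ρ (P.nr z ρ) hz hρ (fun α hα => (tr_tb_mem_nr P hz ρ α).1 hα)

theorem tr_tb_W_nonneg (P : TbPk n L R₁ Cp A f) (t : Finset P.J) : 0 ≤ P.W t :=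
  Finset.sum_nonneg fun α _ => (P.w_pos α).le

theorem tr_tb_W_mono (P : TbPk n L R₁ Cp A f) {t u : Finset P.J} (h : t ⊆ u) : P.W t ≤ P.W u :=
  Finset.sum_le_sum_of_subset_of_nonneg h fun α _ _ => (P.w_pos α).le

/-- L-TB-P2.  `‖ω_α‖ ≤ R₀ + Cp/L` -/
theorem tr_tb_om_le (P : TbPk n L R₁ Cp A f) {R₀ : ℝ} (hf : Dat R₀ f) (α : P.J) : ‖P.om α‖ ≤ R₀ + Cp / L := by
  obtain ⟨ξ, hξ, hle⟩ := P.near α
  have h1 := hf.supp ξ hξ
  calc ‖P.om α‖ = ‖ξ - (ξ - P.om α)‖ := by congr 1; abel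
    _ ≤ ‖ξ‖ + ‖ξ - P.om α‖ := norm_sub_le _ _
    _ ≤ R₀ + Cp / L := add_le_add h1 hle

/-- L-TB-P2.  the transverse distance is Lipschitz: `|td α z - td α z'| ≤ ‖z.1 - z'.1‖ + 2 |z.2 - z'.2| ‖ω_α‖ ≤ (1 + 2 ‖ω_α‖) ‖z - z'‖`. -/
theorem tr_tb_td_lip (P : TbPk n L R₁ Cp A f) (α : P.J) (z z' : ST n) : P.td α z ≤ P.td α z' + (1 + 2 * ‖P.om α‖) * ‖z - z'‖ := by
  unfold TbPk.td
  have h1 : ‖z.1 - z'.1‖ ≤ ‖z - z'‖ := norm_fst_le (z - z')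
  have h2 : |z.2 - z'.2| ≤ ‖z - z'‖ := by
    rw [← Real.norm_eq_abs]
    exact norm_snd_le (z - z')
  have e : z.1 - P.y α - (2 * z.2) • P.om α = (z'.1 - P.y α - (2 * z'.2) • P.om α) + ((z.1 - z'.1) - (2 * (z.2 - z'.2)) • P.om α) := by
    rw [mul_sub, sub_smul]
    abel
  rw [e]
  refine (norm_add_le _ _).trans (add_le_add le_rfl ?_)
  refine (norm_sub_le _ _).trans ?_
  rw [norm_smul, Real.norm_eq_abs, abs_mul, abs_two]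
  nlinarith [norm_nonneg (P.om α), mul_le_mul_of_nonneg_right h2 (norm_nonneg (P.om α))]

end Claimed.Agent.R257.TR
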